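import Vale.Agent.P184Z.PrimA

/-!
# Time averages of distances: convexity
-/

open scoped ContDiff
open MeasureTheory

noncomputable section

namespace Vale.Agent.P184Z

open Vale.Agent.P184.H38

universe u

variable {X : Type u} {M : ℕ} (g : Geo X M) {N : ℕ} {η0 η : ℝ}

namespace PrimB

/-- The previous jump time. -/
def prev (s : Vn (N + 1)) : Vn (N + 1) :=
  Fin.cons (α := fun _ => ℝ) (s (Fin.last N) - 1) fun i => s i.castSucc

theorem prev_le {s : Vn (N + 1)} (hs : Ord s) (j : Fin (N + 1)) : prev s j ≤ s j := by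
  refine Fin.cases ?_ (fun i => ?_) j
  · have := hs.2
    simp only [prev, Fin.cons_zero]
    linarith
  · simp only [prev, Fin.cons_succ]
    exact hs.1 (Fin.castSucc_le_succ i)

/-- The weights of the points of the loop. -/
def wt (Φ : ℝ → ℝ) (s : Vn (N + 1)) (τ : ℝ) (k : ℕ) (j : Fin (N + 1)) : ℝ :=
  Φ (τ - k - prev s j) - Φ (τ - k - s j)

theorem wt_nonneg {Φ : ℝ → ℝ} (hΦ : Monotone Φ) {s : Vn (N + 1)} (hs : Ord s) (τ : ℝ) (k : ℕ)
    (j : Fin (N + 1)) : 0 ≤ wt Φ s τ k j :=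
  sub_nonneg.2 (hΦ (by linarith [prev_le hs j]))

/-- Summation by parts. -/
theorem parts {Φ : ℝ → ℝ} (hΦ : ∀ r, Φ (r + M) = Φ r + 1) (s : Vn (N + 1)) (τ : ℝ)
    (a a' : ℕ → Fin (N + 1) → ℝ) (h0 : a M 0 = a 0 0)
    (h1 : ∀ k (i : Fin N), a' k i.castSucc = a k i.succ)
    (h2 : ∀ k, a' k (Fin.last N) = a (k + 1) 0) :
    a 0 0 + ∑ k ∈ Finset.range M, ∑ j, (a' k j - a k j) * Φ (τ - k - s j) =
      ∑ k ∈ Finset.range M, ∑ j, a k j * wt Φ s τ k j := by
  set b : ℕ → ℝ := fun k => a k 0 * Φ (τ - k - (s (Fin.last N) - 1)) with hb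
  have e1 : ∀ k : ℕ, ∑ j, (a' k j - a k j) * Φ (τ - k - s j) =
      ∑ j, a k j * wt Φ s τ k j + (b (k + 1) - b k) := by
    intro k
    simp only [wt, sub_mul, mul_sub, Finset.sum_sub_distrib]
    rw [Fin.sum_univ_castSucc (fun j => a' k j * Φ (τ - k - s j)),
      Fin.sum_univ_succ (fun j => a k j * Φ (τ - k - prev s j))]
    simp only [h1, h2, prev, Fin.cons_zero, Fin.cons_succ, hb]
    have : τ - ((k + 1 : ℕ) : ℝ) - (s (Fin.last N) - 1) = τ - k - s (Fin.last N) := by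
      push_cast; ring
    rw [this]
    ring
  simp only [e1, Finset.sum_add_distrib, Finset.sum_range_sub]
  have e2 := hΦ (τ - M - (s (Fin.last N) - 1))
  have e3 : τ - M - (s (Fin.last N) - 1) + M = τ - ((0 : ℕ) : ℝ) - (s (Fin.last N) - 1) := by
    push_cast; ring
  rw [e3] at e2
  simp only [hb, h0, e2]
  ring

theorem sum_wt {Φ : ℝ → ℝ} (hΦ : ∀ r, Φ (r + M) = Φ r + 1) (s : Vn (N + 1)) (τ : ℝ) :
    ∑ k ∈ Finset.range M, ∑ j, wt Φ s τ k j = 1 := by
  have h := parts hΦ s τ (fun _ _ => 1) (fun _ _ => 1) rfl (fun _ _ => rfl) fun _ => rfl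
  simpa using h.symm

theorem prim_eq {Φ : ℝ → ℝ} (hΦ : ∀ r, Φ (r + M) = Φ r + 1) (p : Fin (N + 1) → X) (y : X)
    (s : Vn (N + 1)) (τ : ℝ) : prim g Φ 1 p y (s, τ) =
      ∑ k ∈ Finset.range M, ∑ j, g.d ((g.σ ^ k) (p j)) y * wt Φ s τ k j := by
  rw [← parts hΦ s τ (fun k j => g.d ((g.σ ^ k) (p j)) y)
    (fun k j => g.d ((g.σ ^ k) (rotp g.σ p j)) y) (by rw [g.σ_pow, pow_zero])
    (fun k i => by simp [rotp, Fin.tail]) (fun k => by simp [rotp, pow_succ])]
  simp [prim]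

theorem d_pow (k : ℕ) (y z : X) : g.d ((g.σ ^ k) y) ((g.σ ^ k) z) = g.d y z := by
  induction k with
  | zero => simp
  | succ k ih => rw [pow_succ', Equiv.Perm.mul_apply, Equiv.Perm.mul_apply, g.σ_d, ih]

theorem abs_sub_le_len (p : Fin (N + 1) → X) (y : X) (k : ℕ) (j : Fin (N + 1)) :
    |g.d ((g.σ ^ k) (rotp g.σ p j)) y - g.d ((g.σ ^ k) (p j)) y| ≤ len g p j := by
  rw [len, ← d_pow g k (p j), abs_le]
  have h1 := g.d_tri ((g.σ ^ k) (p j)) ((g.σ ^ k) (rotp g.σ p j)) y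
  have h2 := g.d_tri ((g.σ ^ k) (rotp g.σ p j)) ((g.σ ^ k) (p j)) y
  rw [g.d_symm ((g.σ ^ k) (rotp g.σ p j)) ((g.σ ^ k) (p j))] at h2
  constructor <;> linarith

/-- The sharp staircase. -/
def sh (M : ℕ) (r : ℝ) : ℝ := (⌊r / M⌋ : ℤ) + 1

theorem sh_per (hM : 0 < M) (r : ℝ) : sh M (r + M) = sh M r + 1 := by
  have h : (M : ℝ) ≠ 0 := by positivity
  rw [sh, sh, add_div, div_self h, Int.floor_add_one]
  push_cast; ring

theorem sh_mono : Monotone (sh M) := fun r r' h => by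
  have h1 : ⌊r / M⌋ ≤ ⌊r' / M⌋ := Int.floor_le_floor (div_le_div_of_nonneg_right h (by positivity))
  have h2 : ((⌊r / M⌋ : ℤ) : ℝ) ≤ (⌊r' / M⌋ : ℤ) := by exact_mod_cast h1
  simp only [sh]
  linarith

theorem sh_one (hM : 0 < M) {r : ℝ} (h0 : 0 ≤ r) (h1 : r < M) : sh M r = 1 := by
  have h : (0 : ℝ) < M := by positivity
  rw [sh, Int.floor_eq_zero_iff.2 ⟨div_nonneg h0 h.le, (div_lt_one h).2 h1⟩]
  simp

theorem exists_zero (hM : 0 < M) (p : Fin (N + 1) → X) {s : Vn (N + 1)} (hs : Ord s) (τ : ℝ) :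
    ∃ y, prim g (sh M) 1 p y (s, τ) ≤ 0 := by
  classical
  have h1 := sum_wt (sh_per hM) s τ
  rw [← Finset.sum_product' (f := fun k j => wt (sh M) s τ k j)] at h1
  obtain ⟨x, hx, hx0⟩ := Finset.exists_ne_zero_of_sum_ne_zero (h1.trans_ne one_ne_zero)
  have h2 : 1 ≤ wt (sh M) s τ x.1 x.2 := by
    have h3 := lt_of_le_of_ne (wt_nonneg (sh_mono (M := M)) hs τ x.1 x.2) (Ne.symm hx0)
    simp only [wt, sh, add_sub_add_right_eq_sub] at h3 ⊢
    have h4 : (0 : ℤ) < ⌊(τ - x.1 - prev s x.2) / M⌋ - ⌊(τ - x.1 - s x.2) / M⌋ := by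
      exact_mod_cast h3
    have h5 : (1 : ℤ) ≤ ⌊(τ - x.1 - prev s x.2) / M⌋ - ⌊(τ - x.1 - s x.2) / M⌋ := h4
    exact_mod_cast h5
  refine ⟨(g.σ ^ x.1) (p x.2), ?_⟩
  rw [prim_eq g (sh_per hM), ← Finset.sum_product'
    (f := fun k j => g.d ((g.σ ^ k) (p j)) ((g.σ ^ x.1) (p x.2)) * wt (sh M) s τ k j)]
  rw [← Finset.add_sum_erase _ _ hx] at h1 ⊢
  have h6 : ∀ z ∈ (Finset.range M ×ˢ Finset.univ).erase x, wt (sh M) s τ z.1 z.2 = 0 := by
    refine (Finset.sum_eq_zero_iff_of_nonneg fun z _ => wt_nonneg sh_mono hs τ _ _).1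
      (le_antisymm (by linarith) (Finset.sum_nonneg fun z _ => wt_nonneg sh_mono hs τ _ _))
  rw [g.d_self, zero_mul, zero_add, Finset.sum_eq_zero fun z hz => by rw [h6 z hz, mul_zero]]

/-- The difference of the staircases. -/
def df (k : Ker M η) (r : ℝ) : ℝ := |k.Φ r - sh M r|

theorem df_ii (k : Ker M η) (a b : ℝ) : IntervalIntegrable (df k) volume a b :=
  (k.mono.intervalIntegrable.sub (sh_mono (M := M)).intervalIntegrable).abs

theorem df_ii' (k : Ker M η) (c c' a b : ℝ) :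
    IntervalIntegrable (fun τ => df k (τ - c - c')) volume a b := by
  have h := (df_ii k (a - (c + c')) (b - (c + c'))).comp_sub_right (c + c')
  simpa only [sub_add_cancel, sub_sub] using h

theorem int_df (k : Ker M η) (hM : 0 < M) (h0 : 0 < η) (h1 : 16 * η ≤ 1) (t : ℝ) :
    ∫ τ in (0 : ℝ)..1, ∑ j ∈ Finset.range M, df k (τ - j - t) ≤ 2 * η := by
  have hM1 : (1 : ℝ) ≤ M := by exact_mod_cast hM
  have hper : Function.Periodic (df k) M := fun r => by
    simp only [df, k.per, sh_per hM, add_sub_add_right_eq_sub]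
  rw [intervalIntegral.integral_finsetSum (f := fun (j : ℕ) τ => df k (τ - j - t))
    fun j _ => df_ii' k _ _ _ _]
  have e1 : ∀ j : ℕ, ∫ τ in (0 : ℝ)..1, df k (τ - j - t) =
      -∫ r in (1 - t - j)..(1 - t - ((j + 1 : ℕ) : ℝ)), df k r := by
    intro j
    simp only [sub_sub]
    rw [intervalIntegral.integral_comp_sub_right (df k), intervalIntegral.integral_symm]
    congr 2 <;> push_cast <;> ring
  simp only [e1, Finset.sum_neg_distrib]
  rw [intervalIntegral.sum_integral_adjacent_intervals (a := fun j : ℕ => 1 - t - (j : ℝ))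
    fun j _ => df_ii k _ _, ← intervalIntegral.integral_symm]
  have e2 := hper.intervalIntegral_add_eq (1 - t - M) (-η)
  rw [sub_add_cancel] at e2
  simp only [Nat.cast_zero, sub_zero]
  rw [e2, ← intervalIntegral.integral_add_adjacent_intervals (df_ii k (-η) η) (df_ii k η _)]
  have v0 : k.Φ (-η) = 0 := by
    have := k.val (-η) 0 (by push_cast; linarith) (by push_cast; linarith)
    simpa using this
  have v1 : ∀ r, η ≤ r → r ≤ M - η → k.Φ r = 1 := fun r h2 h3 => by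
    have := k.val r 1 (by push_cast; linarith) (by push_cast; linarith)
    simpa using this
  have s0 : sh M (-η) = 0 := by
    have := sh_per hM (-η)
    rw [sh_one hM (by linarith) (by linarith)] at this
    linarith
  have e3 : ∫ r in η..(-η + M), df k r = 0 := by
    rw [intervalIntegral.integral_congr (g := fun _ => 0)]
    · simp
    · intro r hr
      rw [Set.uIcc_of_le (by linarith)] at hr
      simp only [df]
      rw [v1 r hr.1 (by linarith [hr.2]), sh_one hM (by linarith [hr.1]) (by linarith [hr.2])]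
      simp
  have e4 : ∫ r in (-η)..η, df k r ≤ ∫ _ in (-η)..η, (1 : ℝ) := by
    refine intervalIntegral.integral_mono_on (by linarith) (df_ii k _ _) (by simp) fun r hr => ?_
    have a1 := k.mono hr.1
    have a2 := k.mono hr.2
    have a3 := sh_mono (M := M) hr.1
    have a4 := sh_mono (M := M) hr.2
    rw [v0] at a1
    rw [v1 η le_rfl (by linarith)] at a2
    rw [s0] at a3
    rw [sh_one hM h0.le (by linarith)] at a4
    rw [df, abs_le]
    constructor <;> linarith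
  rw [e3, add_zero]
  refine e4.trans (le_of_eq ?_)
  simp only [intervalIntegral.integral_const, smul_eq_mul]
  ring

end PrimB

open PrimB

theorem prim_nonneg (k : Ker M η) (hM : 0 < M) (p : Fin (N + 1) → X) {s : Vn (N + 1)} (hs : Ord s)
    (y : X) (τ : ℝ) : 0 ≤ prim g k.Φ 1 p y (s, τ) := by
  have _ := hM
  rw [prim_eq g k.per]
  exact Finset.sum_nonneg fun _ _ => Finset.sum_nonneg fun _ _ =>
    mul_nonneg (g.d_nonneg _ _) (wt_nonneg k.mono hs _ _ _)

theorem prim_tri (k : Ker M η) (hM : 0 < M) (p : Fin (N + 1) → X) {s : Vn (N + 1)} (hs : Ord s)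
    (y y' : X) (τ : ℝ) : g.d y y' ≤ prim g k.Φ 1 p y (s, τ) + prim g k.Φ 1 p y' (s, τ) := by
  have _ := hM
  rw [prim_eq g k.per, prim_eq g k.per, ← mul_one (g.d y y'), ← sum_wt k.per s τ,
    Finset.mul_sum, ← Finset.sum_add_distrib]
  refine Finset.sum_le_sum fun i _ => ?_
  rw [Finset.mul_sum, ← Finset.sum_add_distrib]
  refine Finset.sum_le_sum fun j _ => ?_
  rw [← add_mul, g.d_symm _ y]
  exact mul_le_mul_of_nonneg_right (g.d_tri _ _ _) (wt_nonneg k.mono hs _ _ _)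

theorem prim_cmp (κ : Kit M η0 η) (p : Fin (N + 1) → X) {s : Vn (N + 1)} (hs : Ord s)
    (y : X) (τ r : ℝ) (hr : |r| ≤ η) :
    prim g κ.k1.Φ 1 p y (s, τ - r) ≤ 8 * prim g κ.k2.Φ 1 p y (s, τ) := by
  have hd : ∀ x, HasDerivAt (fun x => 8 * κ.k2.Φ x - κ.k1.Φ (x - r))
      (8 * κ.k2.K x - κ.k1.K (x - r)) x := fun x =>
    ((κ.k2.deriv x).const_mul 8).sub ((κ.k1.deriv (x - r)).comp_sub_const x r)
  have hm : Monotone fun x => 8 * κ.k2.Φ x - κ.k1.Φ (x - r) :=
    monotone_of_deriv_nonneg (fun x => (hd x).differentiableAt) fun x => by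
      rw [(hd x).deriv]
      linarith [κ.cmp x r hr]
  rw [prim_eq g κ.k1.per, prim_eq g κ.k2.per, Finset.mul_sum]
  refine Finset.sum_le_sum fun i _ => ?_
  rw [Finset.mul_sum]
  refine Finset.sum_le_sum fun j _ => ?_
  rw [mul_left_comm]
  refine mul_le_mul_of_nonneg_left ?_ (g.d_nonneg _ _)
  have h := hm (show τ - i - s j ≤ τ - i - prev s j by linarith [prev_le hs j])
  have e1 : τ - i - s j - r = τ - r - i - s j := by ring
  have e2 : τ - i - prev s j - r = τ - r - i - prev s j := by ring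
  simp only [e1, e2] at h
  simp only [wt]
  linarith

/-- At most times the loop stays near a point during the short window. -/
theorem exists_V (κ : Kit M η0 η) (p : Fin (N + 1) → X) {s : Vn (N + 1)} (hs : Ord s) :
    ∃ V : ℝ → ℝ, IntervalIntegrable V volume 0 1 ∧
      ∫ τ in (0 : ℝ)..1, V τ ≤ 6 * η0 * ∑ j, len g p j ∧
      ∀ τ, ∃ y, prim g κ.k0.Φ 1 p y (s, τ) ≤ V τ := by
  have h1 : 16 * η0 ≤ 1 := by linarith [κ.le, κ.small]
  have hi : ∀ j, IntervalIntegrable
      (fun τ => len g p j * ∑ k ∈ Finset.range M, df κ.k0 (τ - k - s j)) volume 0 1 := fun j =>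
    (IntervalIntegrable.sum (Finset.range M) (f := fun (k : ℕ) τ => df κ.k0 (τ - k - s j))
      fun k _ => df_ii' κ.k0 _ _ _ _).const_mul (len g p j) |>.congr fun τ _ => by simp
  refine ⟨fun τ => ∑ j, len g p j * ∑ k ∈ Finset.range M, df κ.k0 (τ - k - s j), ?_, ?_,
    fun τ => ?_⟩
  · exact (IntervalIntegrable.sum Finset.univ fun j _ => hi j).congr fun τ _ => by simp
  · rw [intervalIntegral.integral_finsetSum fun j _ => hi j, Finset.mul_sum]
    refine Finset.sum_le_sum fun j _ => ?_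
    rw [intervalIntegral.integral_const_mul, mul_comm (6 * η0)]
    refine mul_le_mul_of_nonneg_left ?_ (len_nonneg g p j)
    linarith [int_df κ.k0 κ.M_pos κ.pos h1 (s j), κ.pos]
  · obtain ⟨y, hy⟩ := exists_zero g κ.M_pos p hs τ
    refine ⟨y, ?_⟩
    have h2 : prim g κ.k0.Φ 1 p y (s, τ) - prim g (sh M) 1 p y (s, τ) ≤
        ∑ j, len g p j * ∑ k ∈ Finset.range M, df κ.k0 (τ - k - s j) := by
      simp only [prim, add_sub_add_left_eq_sub, ← Finset.sum_sub_distrib, Finset.mul_sum]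
      rw [Finset.sum_comm]
      refine Finset.sum_le_sum fun j _ => Finset.sum_le_sum fun k _ => ?_
      rw [← mul_sub]
      refine (le_abs_self _).trans ?_
      rw [abs_mul]
      exact mul_le_mul_of_nonneg_right (abs_sub_le_len g p y k j) (abs_nonneg _)
    linarith

end Vale.Agent.P184Z
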