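import Vale.Agent.P184Z.Str
import Vale.Agent.P184Z.PrimB

/-!
# Crude bounds
-/

open scoped ContDiff
open MeasureTheory

noncomputable section

namespace Vale.Agent.P184Z

open Vale.Agent.P184.H38

universe u

namespace Crd

theorem cb_nonneg (b : ℝ) : 0 ≤ cb b := by
  unfold cb
  positivity

theorem abs_int_le {f : ℝ → ℝ} {a b c : ℝ} (hab : a ≤ b) (h : ∀ r, |f r| ≤ c) :
    |∫ r in a..b, f r| ≤ c * (b - a) := by
  have h1 := intervalIntegral.norm_integral_le_of_norm_le_const (a := a) (b := b) (f := f)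
    (C := c) fun r _ => h r
  rwa [abs_of_nonneg (sub_nonneg.2 hab)] at h1

theorem abs_int_one_le {f : ℝ → ℝ} {c : ℝ} (h : ∀ r, |f r| ≤ c) :
    |∫ r in (0 : ℝ)..1, f r| ≤ c := by
  have h1 := abs_int_le zero_le_one h
  rwa [sub_zero, mul_one] at h1

variable {X : Type u} {M : ℕ} {g : Geo X M} {P : Sp} {η0 η : ℝ} {N : ℕ}

/-- The gradient of the first layer in a coordinate direction. -/
theorem sum_pd_gF {η' b R : ℝ} (k : Ker M η') (hM : 0 < M) (h0 : 0 < η') (h1 : 4 * η' ≤ 1)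
    (p : Fin (N + 1) → X) {Y : Finset X} (hY : Fld g (prim g k.Φ 1 p) Y) (hR : 0 < R)
    (hR' : R ≤ g.Rb) (hb : 1 ≤ b * R) (hc : Cnt g b R) {s : Vn (N + 1)} (hs : Ord s) (τ : ℝ)
    (j : Fin (N + 1)) :
    ∑ y ∈ Y, pd (gF b R (prim g k.Φ 1 p) y) (s, τ) (Pi.single j 1) ^ 2 ≤
      cb b * (g.Rb / η') ^ 2 := by
  have h := hY.gF_bound hR hR' hb hc (s, τ) (fun y y' => prim_tri g k hM p hs y y' τ)
    (ι := Unit) (fun _ => Pi.single j 1) (sq_nonneg (g.Rb / η')) (fun y => by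
      rw [Fintype.sum_unique, ← sq_abs]
      refine pow_le_pow_left₀ (abs_nonneg _) ((abs_pd_prim g k p y (s, τ) j).trans ?_) 2
      rw [div_eq_mul_one_div]
      exact mul_le_mul (len_le g p j) (k.K1_le h0 h1 _) (k.K1_nonneg _) (hR.le.trans hR'))
  simpa only [Fintype.sum_unique] using h

theorem abs_pd_E (κ : Kit M η0 η) (p : Fin (N + 1) → X) (y : X) (z : En (N + 1))
    (j : Fin (N + 1)) : |pd (prim g κ.Ψ κ.c p y) z (Pi.single j 1)| ≤ g.Rb :=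
  (abs_pd_primE g κ p y z j).trans ((mul_le_of_le_one_right (len_nonneg g p j)
    (κ.k1abs_le _)).trans (len_le g p j))

theorem abs_sum_le {Y : Finset X} {a u e : X → ℝ} {c R A : ℝ} (hc : 0 ≤ c) (hR : 0 ≤ R)
    (ha : ∑ y ∈ Y, a y ^ 2 ≤ A) (hu : ∑ y ∈ Y, u y ^ 2 ≤ 1) (he : ∀ y, |e y| ≤ R) :
    |∑ y ∈ Y, a y * (2 / c * (u y * e y))| ≤ R / c * (A + 1) := by
  refine (Finset.abs_sum_le_sum_abs _ _).trans ?_
  have h1 : ∀ y ∈ Y, |a y * (2 / c * (u y * e y))| ≤ R / c * (a y ^ 2 + u y ^ 2) := by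
    intro y _
    have h2 : 2 * (|a y| * |u y|) ≤ a y ^ 2 + u y ^ 2 := by
      rw [← sq_abs (a y), ← sq_abs (u y)]
      nlinarith only [sq_nonneg (|a y| - |u y|)]
    have h3 : |a y * (2 / c * (u y * e y))| = |e y| / c * (2 * (|a y| * |u y|)) := by
      rw [abs_mul, abs_mul, abs_mul, abs_div, abs_two, abs_of_nonneg hc]
      ring
    rw [h3]
    exact mul_le_mul (div_le_div_of_nonneg_right (he y) hc) h2 (by positivity) (by positivity)
  refine (Finset.sum_le_sum h1).trans ?_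
  rw [← Finset.mul_sum, Finset.sum_add_distrib]
  exact mul_le_mul_of_nonneg_left (add_le_add ha hu) (by positivity)

theorem eta (κ : Kit M η0 η) : 0 < η ∧ 4 * η ≤ 1 ∧ 4 * η0 ≤ 1 ∧ η0 ^ 2 ≤ 1 ∧ η0 ^ 2 ≤ η := by
  have h1 := κ.pos
  have h2 := κ.le
  have h3 := κ.small
  refine ⟨by linarith, by linarith, by linarith, by nlinarith, by nlinarith⟩

theorem abs_curF_le (κ : Kit M η0 η) (hP : Ok g P) (p : Fin (N + 1) → X)
    {Y : Finset X} (hY : Fld g (prim g κ.k0.Φ 1 p) Y) {s : Vn (N + 1)} (hs : Ord s)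
    (i j : Fin (N + 1)) : |curF g P κ p Y s (Pi.single i 1) (Pi.single j 1)| ≤
      192 * (cb P.b * (g.Rb / η0) ^ 2 + 1) := by
  obtain ⟨hρ, h0, -, -, h1, -, -, h2, -, -, h3⟩ := hP.pos
  have h4 : g.Rb / P.ρ = 96 := by
    rw [hP.Rb_eq]
    field_simp
  refine abs_int_one_le fun τ => ?_
  have key : ∀ i j : Fin (N + 1), |∑ y ∈ Y,
      pd (gF P.b P.R0 (prim g κ.k0.Φ 1 p) y) (s, τ) (Pi.single i 1) *
        (2 / P.ρ * (gF P.b P.R0 (prim g κ.k0.Φ 1 p) y (s, τ) *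
          pd (prim g κ.Ψ κ.c p y) (s, τ) (Pi.single j 1)))| ≤
      96 * (cb P.b * (g.Rb / η0) ^ 2 + 1) := by
    intro i j
    rw [← h4]
    exact abs_sum_le hρ.le (by linarith)
      (sum_pd_gF κ.k0 κ.M_pos κ.pos (eta κ).2.2.1 p hY h0 h1 h2 hP.c0 hs τ i)
      (hY.sum_gF_le _ h0 h1 _) fun y => abs_pd_E κ p y _ j
  rw [Finset.sum_sub_distrib]
  refine (abs_sub _ _).trans ?_
  linarith only [key i j, key j i]

theorem abs_fast_le (κ : Kit M η0 η) (hP : Ok g P) (p : Fin (N + 1) → X)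
    {Y : Finset X} (hY : Fld g (prim g κ.k0.Φ 1 p) Y) (s : Vn (N + 1)) (j : Fin (N + 1)) :
    |∫ τ in (0 : ℝ)..1, ∑ y ∈ Y, (1 / P.ρ * gF P.b P.R0 (prim g κ.k0.Φ 1 p) y (s, τ) ^ 2) *
      pd (prim g κ.Ψ κ.c p y) (s, τ) (Pi.single j 1)| ≤ 96 := by
  obtain ⟨hρ, h0, -, -, h1, -, -, -, -, -, h3⟩ := hP.pos
  refine abs_int_one_le fun τ => (Finset.abs_sum_le_sum_abs _ _).trans ?_
  have h5 : ∀ y ∈ Y, |(1 / P.ρ * gF P.b P.R0 (prim g κ.k0.Φ 1 p) y (s, τ) ^ 2) *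
      pd (prim g κ.Ψ κ.c p y) (s, τ) (Pi.single j 1)| ≤
        96 * gF P.b P.R0 (prim g κ.k0.Φ 1 p) y (s, τ) ^ 2 := by
    intro y _
    rw [abs_mul, abs_of_nonneg (by positivity)]
    refine (mul_le_mul_of_nonneg_left (abs_pd_E κ p y _ j) (by positivity)).trans (le_of_eq ?_)
    rw [hP.Rb_eq]
    field_simp
  refine (Finset.sum_le_sum h5).trans ?_
  rw [← Finset.mul_sum]
  linarith only [hY.sum_gF_le P.b h0 h1 (s, τ)]

theorem abs_cur_one {n : ℕ} (θ : Form n) (s v : Vn n) {B : ℝ}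
    (h : ∀ j, |cur θ s v (Pi.single j 1)| ≤ B) : |cur θ s v (one n)| ≤ n * B := by
  have h1 : one n = ∑ j, Pi.single j 1 := by
    funext i
    simp [one, Finset.sum_apply, Pi.single_apply]
  have h2 : cur θ s v (one n) = ∑ j, cur θ s v (Pi.single j 1) := by
    rw [h1]
    simp only [cur, map_sum, sum_apply, Finset.sum_sub_distrib]
  rw [h2]
  refine (Finset.abs_sum_le_sum_abs _ _).trans ((Finset.sum_le_sum fun j _ => h j).trans ?_)
  simp

theorem abs_mul3 {a b c A B C : ℝ} (ha : |a| ≤ A) (hb : |b| ≤ B) (hc : |c| ≤ C) :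
    |a * b * c| ≤ A * B * C := by
  rw [abs_mul, abs_mul]
  have hA := (abs_nonneg a).trans ha
  have hB := (abs_nonneg b).trans hb
  exact mul_le_mul (mul_le_mul ha hb (abs_nonneg _) hA) hc (abs_nonneg _) (mul_nonneg hA hB)

theorem abs_mul2 {a b A B : ℝ} (ha : |a| ≤ A) (hb : |b| ≤ B) : |a * b| ≤ A * B := by
  rw [abs_mul]
  exact mul_le_mul ha hb (abs_nonneg _) ((abs_nonneg a).trans ha)

end Crd

open Crd

theorem Lv_single {X : Type u} {M : ℕ} [NeZero M] {g : Geo X M} {P : Sp} {η0 η : ℝ}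
    (κ : Kit M η0 η) {N : ℕ} {C : Type} [Fintype C] {lab : X → Lb M C} (hP : Ok g P)
    (hl : IsLab g lab) (p : Fin (N + 1) → X) {s : Vn (N + 1)} (hs : Ord s) (j : Fin (N + 1)) :
    Lv g P κ p lab s (Pi.single j 1) ≤ 3 * cb P.b * g.Rb ^ 2 / η := by
  obtain ⟨-, -, h0, -, -, h1, -, -, h2, -, -⟩ := hP.pos
  obtain ⟨hη, hη4, -, -, -⟩ := eta κ
  obtain ⟨Y, hY⟩ := exists_fld g p
  have hF := hY _ κ.k1.smooth
  have hc := cb_nonneg P.b
  refine (le_abs_self _).trans (abs_int_one_le fun τ => ?_)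
  rw [abs_of_nonneg (Real.sqrt_nonneg _)]
  have h3 := hF.pd_uu_bound κ hP hl (s, τ) (ι := Unit) (fun _ => Pi.single j 1)
    (B := 4 * g.Rb ^ 2 / η * (cb P.b * (g.Rb / η) ^ 2 * (η - -η))) (by
      rw [sub_neg_eq_add]
      positivity) (fun y => by
      rw [Fintype.sum_unique]
      refine (hF.pd_D1_sq κ hP y s τ _).trans (mul_le_mul_of_nonneg_left ?_ (by positivity))
      refine (le_abs_self _).trans (abs_int_le (by linarith) fun r => ?_)
      rw [abs_of_nonneg (Finset.sum_nonneg fun _ _ => sq_nonneg _)]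
      exact sum_pd_gF κ.k1 κ.M_pos hη hη4 p hF h0 h1 h2 hP.c hs _ j)
  simp only [Fintype.sum_unique] at h3
  refine Real.sqrt_le_iff.2 ⟨by positivity, h3.trans ?_⟩
  have h4 : cb P.b * (4 * g.Rb ^ 2 / η * (cb P.b * (g.Rb / η) ^ 2 * (η - -η))) =
      8 * (cb P.b * g.Rb ^ 2 / η) ^ 2 := by
    field_simp
    ring
  have h5 : (3 * cb P.b * g.Rb ^ 2 / η) ^ 2 = 9 * (cb P.b * g.Rb ^ 2 / η) ^ 2 := by ring
  rw [h4, h5]
  linarith only [sq_nonneg (cb P.b * g.Rb ^ 2 / η)]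

/-- The entries of the form and its curvature grow at most quadratically. -/
theorem crude_betp (P : Sp) (M : ℕ) [NeZero M] : ∃ Cc : ℝ, 1 ≤ Cc ∧
    ∀ (X : Type u) (g : Geo X M) (η0 η : ℝ) (κ : Kit M η0 η) (N : ℕ) (C : Type) [Fintype C]
      (lab : X → Lb M C), Ok g P → IsLab g lab → ∀ (p : Fin (N + 1) → X) (s : Vn (N + 1)), Ord s →
      (∀ j, |betp g P κ p lab s (Pi.single j 1)| ≤ Cc / η0 ^ 2) ∧
      ∀ i j, |cur (betp g P κ p lab) s (Pi.single i 1) (Pi.single j 1)| ≤ Cc / η0 ^ 2 := by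
  obtain ⟨A, hA, hA0⟩ : ∃ A : ℝ, A = cb P.b * (96 * P.ρ) ^ 2 ∧ 0 ≤ A :=
    ⟨_, rfl, mul_nonneg (cb_nonneg _) (sq_nonneg _)⟩
  have hM : (0 : ℝ) ≤ M := Nat.cast_nonneg M
  have hp1 : 0 ≤ M * (3 * A) := by positivity
  have hp2 : 0 ≤ (2 + 4 * M) * (3 * A) ^ 2 := by positivity
  refine ⟨192 * (A + 1) + M * (3 * A) + (2 + 4 * M) * (3 * A) ^ 2, by linarith, ?_⟩
  intro X g η0 η κ N C _ lab hP hl p s hs
  obtain ⟨hη, -, -, h1, h2⟩ := eta κ
  have h0 := κ.pos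
  have hq : 0 < η0 ^ 2 := by positivity
  obtain ⟨Y, hY⟩ := exists_fld g p
  have hL : ∀ j, Lv g P κ p lab s (Pi.single j 1) ≤ 3 * A / η := fun j =>
    (Lv_single κ hP hl p hs j).trans (le_of_eq (by rw [hA, hP.Rb_eq, mul_assoc]))
  have hi : (1 : ℝ) ≤ 1 / η0 ^ 2 := by rwa [le_div_iff₀ hq, one_mul]
  refine ⟨fun j => ?_, fun i j => ?_⟩
  · have h3 := congrFun (bet_eq κ hP (hY _ κ.k0.smooth) (hY _ κ.k1.smooth)
      (contDiff_prim g κ.smooth κ.c p) lab) s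
    obtain ⟨hρ, k0, -, -, k1, -⟩ := hP.pos
    have h4 := form_int_apply Y
      (fun y z => 1 / P.ρ * gF P.b P.R0 (prim g κ.k0.Φ 1 p) y z ^ 2) (prim g κ.Ψ κ.c p)
      (fun y => contDiff_const.mul (((hY _ κ.k0.smooth).gF_smooth _ k0 k1 y).pow 2))
      (contDiff_prim g κ.smooth κ.c p) s (Pi.single j 1)
    have h5 := form_int_apply Finset.univ (WW g P κ (prim g κ.k1.Φ 1 p) lab)
      (uu g P κ (prim g κ.k1.Φ 1 p) lab) ((hY _ κ.k1.smooth).WW_smooth κ hP lab)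
      ((hY _ κ.k1.smooth).uu_smooth κ hP lab) s (Pi.single j 1)
    rw [betp, h3, add_apply, h4, h5]
    refine (abs_add_le _ _).trans ?_
    have h6 := abs_fast_le κ hP p (hY _ κ.k0.smooth) s j
    have h7 := (abs_slow_le κ hP hl p s (Pi.single j 1)).trans (mul_le_mul_of_nonneg_left
      ((hL j).trans (div_le_div_of_nonneg_left (by positivity) hq h2)) hM)
    refine (add_le_add h6 h7).trans ?_
    rw [← mul_div_assoc, le_div_iff₀ hq, add_mul, div_mul_cancel₀ _ hq.ne']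
    nlinarith only [h1, hp2, hA0]
  · obtain ⟨a, b, -, -, h3, h4⟩ := cur_betp κ hP hl p hY s
    rw [h4]
    have hL' : ∀ j, Lv g P κ p lab s (Pi.single j 1) ≤ 3 * A / η0 := fun j =>
      (hL j).trans (div_le_div_of_nonneg_left (by positivity) h0 κ.le)
    have h5 : Lv g P κ p lab s (Pi.single i 1) * Lv g P κ p lab s (Pi.single j 1) ≤
        (3 * A) ^ 2 / η0 ^ 2 := by
      rw [← div_pow, sq]
      exact mul_le_mul (hL' i) (hL' j) (Lv_nonneg κ p s _) (by positivity)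
    have h6 := abs_curF_le κ hP p (hY _ κ.k0.smooth) hs i j
    have h7 := abs_curS_le κ (lab := lab) hP p s (Pi.single i 1) (Pi.single j 1)
    have h8 := h3 (Pi.single i 1) (Pi.single j 1)
    rw [mul_assoc] at h7 h8
    have h9 := mul_le_mul_of_nonneg_left h5 (show (0 : ℝ) ≤ 4 * M by positivity)
    have h10 : cb P.b * (g.Rb / η0) ^ 2 = A / η0 ^ 2 := by
      rw [hA, hP.Rb_eq, div_pow, mul_div_assoc]
    rw [h10] at h6
    have h11 : (192 * (A + 1) + M * (3 * A) + (2 + 4 * M) * (3 * A) ^ 2) / η0 ^ 2 =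
        192 * (A / η0 ^ 2) + 192 * (1 / η0 ^ 2) + M * (3 * A) / η0 ^ 2 +
          2 * ((3 * A) ^ 2 / η0 ^ 2) + 4 * M * ((3 * A) ^ 2 / η0 ^ 2) := by ring
    have h12 : 0 ≤ M * (3 * A) / η0 ^ 2 := by positivity
    refine (abs_add_three _ _ _).trans ?_
    rw [h11]
    linarith only [h5, h6, h7, h8, h9, hi, h12]

theorem crude_thp {X : Type u} {M : ℕ} [NeZero M] {g : Geo X M} {P : Sp} {η0 η : ℝ}
    (κ : Kit M η0 η) (N : ℕ) (C : Type) [Fintype C] (hP : Ok g P) : ∃ B : ℝ,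
    ∀ (lab : X → Lb M C), IsLab g lab → ∀ p : Fin (N + 1) → X, Crude (thp g P κ p lab) B := by
  obtain ⟨Cc, hCc, hc⟩ := crude_betp.{u} P M
  obtain ⟨Ch, hCh, hch⟩ := exists_Ch
  obtain ⟨B, hB⟩ : ∃ B : ℝ, B = Cc / η0 ^ 2 := ⟨_, rfl⟩
  have hB0 : 0 ≤ B := by
    rw [hB]
    positivity
  have hp1 : 0 ≤ Ch * ((N + 1 : ℕ) * B) * B := by positivity
  have hp2 : 0 ≤ Ch * ((N + 1 : ℕ) * B) * 1 := by positivity
  refine ⟨8 * B + 1 * 2 + 2 * (Ch * ((N + 1 : ℕ) * B) * B) + 2 * (Ch * ((N + 1 : ℕ) * B) * 1),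
    fun lab hl p t ht => ?_⟩
  have hs := (ord_sl ht).1
  obtain ⟨h1, h2⟩ := hc X g η0 η κ N C lab hP hl p (sl t) hs
  rw [← hB] at h1 h2
  have h3 : ∀ x, |1 - cς x| ≤ 1 := fun x => by
    have := cς_mem x
    rw [abs_le]
    constructor <;> linarith only [this.1, this.2]
  have h4 : ∀ i : Fin N, |cur (betp g P κ p lab) (sl t) (ev i) (one _)| ≤ (N + 1 : ℕ) * B :=
    fun i => abs_cur_one _ _ _ (h2 _)
  have h5 : ∀ i : Fin N, |betp g P κ p lab (sl t) (ev i)| ≤ B := fun i => h1 _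
  have h6 : ∀ i : Fin N, |thK N (sl t) (ev i)| ≤ 1 := fun i => abs_thK_single hs _
  refine ⟨fun i => ?_, fun i j => ?_⟩
  · refine (abs_add_le (ch (betp g P κ p lab (sl t) (one _)) * betp g P κ p lab (sl t) (ev i))
      ((1 - cς (betp g P κ p lab (sl t) (one _))) * thK N (sl t) (ev i))).trans ?_
    have k1 := abs_mul2 (abs_ch_le (betp g P κ p lab (sl t) (one _))) (h5 i)
    have k2 := abs_mul2 (h3 (betp g P κ p lab (sl t) (one _))) (h6 i)
    linarith only [k1, k2, hp1, hp2]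
  · rw [thp, cur_nrm (betp_smooth κ hP p lab) (betp_trans κ hP p hl)]
    have k1 := abs_mul2 (abs_ch_le (betp g P κ p lab (sl t) (one _))) (h2 i.castSucc j.castSucc)
    have k2 := abs_mul2 (h3 (betp g P κ p lab (sl t) (one _))) ((thK_crude t ht).2 i j)
    have k3 := fun i j => abs_mul3 (hch (betp g P κ p lab (sl t) (one _))).1 (h4 i) (h5 j)
    have k4 := fun i j => abs_mul3 ((abs_neg _).trans_le
      (hch (betp g P κ p lab (sl t) (one _))).2) (h4 i) (h6 j)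
    refine (abs_add_three _ _ _).trans ((add_le_add (add_le_add k1 k2) ((abs_add_le _ _).trans
      (add_le_add ((abs_sub _ _).trans (add_le_add (k3 i j) (k3 j i)))
        ((abs_sub _ _).trans (add_le_add (k4 i j) (k4 j i)))))).trans (le_of_eq ?_))
    ring

end Vale.Agent.P184Z
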