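import Vale.Agent.P184Z.Main
import Vale.Agent.P184Z.Crude

/-!
# The choice of the parameters
-/

open scoped ContDiff
open MeasureTheory

noncomputable section

namespace Vale.Agent.P184Z

open Vale.Agent.P184.H38

universe u

/-- The parameters. -/
def spOf (b L0 : ℝ) (γ : ℕ) : Sp := ⟨(γ : ℝ) ^ 5, 48 * L0 * (γ : ℝ) ^ 4, b⟩

namespace Ari

theorem poly_le_exp (K : ℝ) (k : ℕ) :
    ∃ N0 : ℕ, ∀ N : ℕ, N0 ≤ N → K * ((N : ℝ) + 1) ^ k ≤ Real.exp (N + 1) := by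
  obtain ⟨N0, hN0⟩ := exists_nat_ge (K * ((k + 1).factorial : ℝ))
  refine ⟨N0, fun N hN => ?_⟩
  have h0 : (0 : ℝ) ≤ (N : ℝ) + 1 := by positivity
  have hf : (0 : ℝ) < ((k + 1).factorial : ℝ) := by exact_mod_cast (k + 1).factorial_pos
  refine le_trans ?_ (Real.pow_div_factorial_le_exp _ h0 (k + 1))
  have h1 : K * ((k + 1).factorial : ℝ) ≤ (N : ℝ) + 1 := by
    have : (N0 : ℝ) ≤ N := by exact_mod_cast hN
    linarith
  rw [le_div_iff₀ hf, pow_succ]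
  calc K * ((N : ℝ) + 1) ^ k * ((k + 1).factorial : ℝ)
      = ((N : ℝ) + 1) ^ k * (K * ((k + 1).factorial : ℝ)) := by ring
    _ ≤ ((N : ℝ) + 1) ^ k * ((N : ℝ) + 1) := mul_le_mul_of_nonneg_left h1 (pow_nonneg h0 k)

theorem expo_le {c x γ N : ℝ} (hc : 0 ≤ c) (hx : 0 < x) (hx1 : x ≤ 1) (hγ : 0 < γ) (hN : 0 ≤ N)
    (h1 : c + 32 ≤ γ * x) (h2 : 900 * 96 ^ 2 * c ≤ γ * x) :
    c * N / (2 * γ) + (c + 32) * (N + 1) / γ / (2 * x) +
      3 * √(N * (900 * c * 96 ^ 2 * (N + 1) / γ)) / (4 * √x) ≤ 3 * (N + 1) := by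
  have hγx : γ * x ≤ γ := mul_le_of_le_one_right hγ.le hx1
  have e1 : c * N / (2 * γ) ≤ N + 1 := by
    rw [div_le_iff₀ (by positivity)]
    nlinarith [mul_le_mul_of_nonneg_right (show c ≤ γ by linarith) hN, mul_nonneg hγ.le hN]
  have e2 : (c + 32) * (N + 1) / γ / (2 * x) ≤ N + 1 := by
    rw [div_div, div_le_iff₀ (by positivity)]
    have := mul_le_mul_of_nonneg_right h1 (show 0 ≤ N + 1 by linarith)
    have h3 : 0 ≤ γ * x * (N + 1) := by positivity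
    nlinarith
  have e3 : 3 * √(N * (900 * c * 96 ^ 2 * (N + 1) / γ)) / (4 * √x) ≤ N + 1 := by
    have hs : 0 < √x := Real.sqrt_pos.2 hx
    have h3 : √(N * (900 * c * 96 ^ 2 * (N + 1) / γ)) ≤ (N + 1) * √x := by
      rw [Real.sqrt_le_left (by positivity), mul_pow, Real.sq_sqrt hx.le, ← mul_div_assoc,
        div_le_iff₀ hγ]
      have h4 : N * (N + 1) ≤ (N + 1) ^ 2 := by nlinarith
      have h5 : 900 * 96 ^ 2 * c * (N * (N + 1)) ≤ γ * x * (N + 1) ^ 2 :=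
        mul_le_mul h2 h4 (by positivity) (by positivity)
      nlinarith
    rw [div_le_iff₀ (by positivity)]
    have h6 : 0 ≤ (N + 1) * √x := by positivity
    nlinarith
  linarith

theorem S_le {c γ N : ℝ} (hc : 0 ≤ c) (hγ : 0 < γ) (hN : 0 ≤ N) :
    γ ^ 3 / (N + 1) * (c * N / (γ ^ 4 / (N + 1))) +
      4 / ((γ ^ 5) ^ 2 * (γ ^ 3 / (N + 1))) * (8 * (γ ^ 12 / (N + 1)) * N) ≤
      (c + 32) * (N + 1) / γ := by
  have h : γ ^ 3 / (N + 1) * (c * N / (γ ^ 4 / (N + 1))) +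
      4 / ((γ ^ 5) ^ 2 * (γ ^ 3 / (N + 1))) * (8 * (γ ^ 12 / (N + 1)) * N) = (c + 32) * N / γ := by
    field_simp
    ring
  rw [h]
  gcongr
  linarith

theorem δ_eq {c γ n : ℝ} (hγ : 0 < γ) (hn : 0 < n) :
    900 * c * (96 * γ ^ 5) ^ 2 * γ / (γ ^ 12 / n) = 900 * c * 96 ^ 2 * n / γ := by
  field_simp

theorem sqrt_δ_le {c γ n : ℝ} (hc : 0 ≤ c) (hγ : 1 ≤ γ) (hn : 1 ≤ n) :
    √(900 * c * 96 ^ 2 * n / γ) ≤ √(900 * c * 96 ^ 2) * n ^ 4 := by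
  have h0 : 0 ≤ 900 * c * 96 ^ 2 := by positivity
  rw [Real.sqrt_le_left (by positivity), mul_pow, Real.sq_sqrt h0]
  have h1 : n ≤ (n ^ 4) ^ 2 := by
    rw [← pow_mul]
    exact le_self_pow₀ hn (by norm_num)
  refine (div_le_self (by positivity) hγ).trans ?_
  exact mul_le_mul_of_nonneg_left h1 h0

theorem fac_le {a A x n : ℝ} (k : ℕ) (hx : 0 < x) (hn : 1 ≤ n) :
    (1 + 4 * a ^ 2 * (A * n ^ 4) ^ 2 / x) ^ k ≤ (1 + 4 * a ^ 2 * A ^ 2 / x) ^ k * n ^ (8 * k) := by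
  rw [pow_mul, ← mul_pow]
  refine pow_le_pow_left₀ (by positivity) ?_ k
  have h1 : 1 ≤ n ^ 8 := one_le_pow₀ hn
  have h2 : 4 * a ^ 2 * (A * n ^ 4) ^ 2 / x = 4 * a ^ 2 * A ^ 2 / x * n ^ 8 := by ring
  rw [h2, add_mul]
  linarith

theorem crude_le {Cc γ n : ℝ} (hC : 0 ≤ Cc) (hγ : 1 ≤ γ) (hn : 0 < n) :
    Cc / (γ ^ 4 / n) ^ 2 ≤ Cc * n ^ 2 := by
  have h1 : Cc / (γ ^ 4 / n) ^ 2 = Cc * n ^ 2 / (γ ^ 4) ^ 2 := by
    field_simp
  rw [h1]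
  exact div_le_self (by positivity) (one_le_pow₀ (one_le_pow₀ hγ))

end Ari

open Classical in
theorem main_asym (b x L0 : ℝ) (hb : 1 ≤ b) (hx : 0 < x) (hx1 : x ≤ 1) (hL : 1 ≤ L0) :
    ∃ γ : ℕ, 1 ≤ γ ∧ 8 * (spOf b L0 γ).R0 ≤ (spOf b L0 γ).ρ ∧
      ∀ (M : ℕ) [NeZero M] (C : Type) [Fintype C], ∃ N0 : ℕ, ∀ N : ℕ, N0 ≤ N →
        16 * ((γ : ℝ) ^ 12 / (N + 1)) ≤ 1 ∧
        ∀ (X : Type u) (g : Geo X M) (κ : Kit M ((γ : ℝ) ^ 4 / (N + 1)) ((γ : ℝ) ^ 12 / (N + 1)))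
          (lab : X → Lb M C), Ok g (spOf b L0 γ) → IsLab g lab →
          ∀ (p : Fin (N + 1) → X), ∀ t ∈ simplex N,
            |wk (cur (thp g (spOf b L0 γ) κ p lab) (sl t)) (List.ofFn ev)| ≤
              (∏ a, sc g p a) * Real.exp (5 * (N + 1)) *
                (if ∑ j, len g p j ≤ (N + 1) * L0 then (4 * √x) ^ N else 5 ^ N) := by
  obtain ⟨Ch, hCh, hch⟩ := exists_Ch
  have hc : 0 ≤ cb b := by unfold cb; positivity
  obtain ⟨γ, hγ⟩ := exists_nat_ge (384 * L0 + (cb b + 32 + 900 * 96 ^ 2 * cb b) / x)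
  have hq : 0 ≤ (cb b + 32 + 900 * 96 ^ 2 * cb b) / x := by positivity
  have hγL : 384 * L0 ≤ γ := by linarith
  have hγ1 : (1 : ℝ) ≤ γ := by linarith
  have hγ0 : (0 : ℝ) < γ := by linarith
  have hγx : cb b + 32 + 900 * 96 ^ 2 * cb b ≤ γ * x := by
    rw [← div_le_iff₀ hx]
    linarith
  refine ⟨γ, by exact_mod_cast hγ1, ?_, fun M _ C _ => ?_⟩
  · change 8 * (48 * L0 * (γ : ℝ) ^ 4) ≤ (γ : ℝ) ^ 5
    have := mul_le_mul_of_nonneg_right hγL (pow_nonneg hγ0.le 4)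
    nlinarith
  obtain ⟨Cc, hCc, hcr⟩ := crude_betp.{u} (spOf b L0 γ) M
  obtain ⟨N1, hN1⟩ := Ari.poly_le_exp
    ((1 + 4 * (2 * (M * Fintype.card C) + 2 : ℝ) ^ 2 *
      (8 * M * √(900 * cb b * 96 ^ 2) + Ch * Cc) ^ 2 / x) ^ (2 * (M * Fintype.card C) + 2))
    (8 * (2 * (M * Fintype.card C) + 2))
  refine ⟨max N1 (16 * γ ^ 12), fun N hN => ?_⟩
  have hN0 : (0 : ℝ) ≤ N := Nat.cast_nonneg N
  have hn1 : (1 : ℝ) ≤ (N : ℝ) + 1 := by linarith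
  have hn0 : (0 : ℝ) < (N : ℝ) + 1 := by linarith
  refine ⟨?_, fun X g κ lab hP hl p t ht => ?_⟩
  · have h1 : ((16 * γ ^ 12 : ℕ) : ℝ) ≤ N := by exact_mod_cast (le_max_right _ _).trans hN
    push_cast at h1
    rw [← mul_div_assoc, div_le_one hn0]
    linarith
  obtain ⟨c1, c2⟩ := hcr X g _ _ κ N C lab hP hl p (sl t) (ord_sl ht).1
  have hBc := Ari.crude_le (n := (N : ℝ) + 1) (zero_le_one.trans hCc) hγ1 hn0
  have hn4 : 0 ≤ ((N : ℝ) + 1) ^ 4 := by positivity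
  have hM : (0 : ℝ) ≤ 8 * M := by positivity
  have hmain := main_explicit κ hP hl p ht (x := x) (ϑ := γ) (ν := (γ : ℝ) ^ 3 / (N + 1))
    (Bc := Cc * ((N : ℝ) + 1) ^ 2) (Ch := Ch)
    (B := (8 * M * √(900 * cb b * 96 ^ 2) + Ch * Cc) * ((N : ℝ) + 1) ^ 4)
    (δ := 900 * cb b * 96 ^ 2 * (N + 1) / γ) (S := (cb b + 32) * (N + 1) / γ) hx hx1 hγ0
    (by positivity) (one_le_mul_of_one_le_of_one_le hCc (one_le_pow₀ hn1)) hCh hch
    (fun j => (c1 j).trans hBc) (fun i j => (c2 i j).trans hBc)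
    (by rw [hP.Rb_eq]; exact (Ari.δ_eq hγ0 hn0).le) (Ari.S_le hc hγ0 hN0)
    (by
      have h1 := mul_le_mul_of_nonneg_left (Ari.sqrt_δ_le hc hγ1 hn1) hM
      have h2 : 0 ≤ Ch * Cc * ((N : ℝ) + 1) ^ 4 := by positivity
      nlinarith)
    (by
      have h2 : 0 ≤ 8 * M * √(900 * cb b * 96 ^ 2) * ((N : ℝ) + 1) ^ 4 := by positivity
      nlinarith)
  refine hmain.trans ?_
  have hsc : 0 ≤ ∏ a, sc g p a :=
    Finset.prod_nonneg fun a _ => zero_le_one.trans (le_max_left _ _)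
  have e1 := Real.exp_le_exp.2 (Ari.expo_le hc hx hx1 hγ0 hN0 (by nlinarith) (by linarith))
  have e2 := (Ari.fac_le (a := (2 * (M * Fintype.card C) + 2 : ℝ))
    (A := 8 * M * √(900 * cb b * 96 ^ 2) + Ch * Cc) (2 * (M * Fintype.card C) + 2) hx hn1).trans
    (hN1 N ((le_max_left _ _).trans hN))
  have hiff : 48 * ((γ : ℝ) ^ 4 / (N + 1)) * ∑ j, len g p j ≤ (spOf b L0 γ).R0 ↔
      ∑ j, len g p j ≤ (N + 1) * L0 := by
    change _ ≤ 48 * L0 * (γ : ℝ) ^ 4 ↔ _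
    rw [show 48 * ((γ : ℝ) ^ 4 / (N + 1)) * ∑ j, len g p j =
        48 * (γ : ℝ) ^ 4 / (N + 1) * ∑ j, len g p j by ring,
      show 48 * L0 * (γ : ℝ) ^ 4 = 48 * (γ : ℝ) ^ 4 / (N + 1) * ((N + 1) * L0) by field_simp]
    exact mul_le_mul_iff_right₀ (by positivity)
  have e3 : (if 48 * ((γ : ℝ) ^ 4 / (N + 1)) * ∑ j, len g p j ≤ (spOf b L0 γ).R0 then
      (4 * √x) ^ N else Real.exp (N + 1) * 5 ^ N) ≤
      Real.exp (N + 1) * (if ∑ j, len g p j ≤ (N + 1) * L0 then (4 * √x) ^ N else 5 ^ N) := by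
    by_cases h : ∑ j, len g p j ≤ (N + 1) * L0
    · rw [if_pos h, if_pos (hiff.2 h)]
      exact le_mul_of_one_le_left (by positivity) (Real.one_le_exp hn0.le)
    · rw [if_neg h, if_neg (fun h' => h (hiff.1 h'))]
  have e4 : Real.exp (5 * (N + 1)) =
      Real.exp (3 * (N + 1)) * Real.exp (N + 1) * Real.exp (N + 1) := by
    rw [← Real.exp_add, ← Real.exp_add]
    exact congrArg Real.exp (by ring)
  have e0 : 0 ≤ (if 48 * ((γ : ℝ) ^ 4 / (N + 1)) * ∑ j, len g p j ≤ (spOf b L0 γ).R0 then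
      (4 * √x) ^ N else Real.exp (N + 1) * 5 ^ N) := by
    split_ifs <;> positivity
  refine (mul_le_mul (mul_le_mul (mul_le_mul_of_nonneg_left e1 hsc) e2 (by positivity)
    (by positivity)) e3 e0 (by positivity)).trans (le_of_eq ?_)
  rw [e4]
  ring

end Vale.Agent.P184Z
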