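import Vale.Agent.P184Z.Defs

/-!
# The Pfaffian of the curvature is a closed form
-/

open scoped ContDiff
open MeasureTheory

noncomputable section

namespace Vale.Agent.P184Z

open Vale.Agent.P184.H38 Vale.Agent.P184.H460 CliffordAlgebra

universe u

variable {E : Type} [NormedAddCommGroup E] [NormedSpace ℝ E] [FiniteDimensional ℝ E]

omit [FiniteDimensional ℝ E] in
theorem contDiff_wk {α : Type} (A : E → α → α → ℝ) (hA : ∀ a b, ContDiff ℝ ∞ fun z => A z a b)
    (L : List α) : ContDiff ℝ ∞ fun z => wk (A z) L := by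
  induction hn : L.length using Nat.strong_induction_on generalizing L with
  | _ n ih =>
    cases L with
    | nil =>
        simp only [wk_nil]
        exact contDiff_const
    | cons v L =>
        simp only [wk_cons]
        refine ContDiff.sum fun k _ => (contDiff_const.mul (hA _ _)).mul (ih _ ?_ _ rfl)
        have := k.2
        rw [← hn, List.length_cons, length_erase_lt]
        omega

namespace Bia

/-- The alternating part of a bilinear form. -/
def altF (H : E →L[ℝ] E →L[ℝ] ℝ) : LinearMap.BilinForm ℝ E :=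
  LinearMap.mk₂ ℝ (fun v w => H v w - H w v)
    (fun a b c => by simp only [map_add, add_apply]; ring)
    (fun a b c => by simp only [map_smul, smul_apply, smul_eq_mul]; ring)
    (fun a b c => by simp only [map_add, add_apply]; ring)
    (fun a b c => by simp only [map_smul, smul_apply, smul_eq_mul]; ring)

omit [FiniteDimensional ℝ E] in
theorem altF_apply (H : E →L[ℝ] E →L[ℝ] ℝ) (v w : E) : altF H v w = H v w - H w v := rfl

omit [FiniteDimensional ℝ E] in
theorem altF_alt (H : E →L[ℝ] E →L[ℝ] ℝ) : (altF H).IsAlt := fun _ => sub_self _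

/-- The contraction. -/
abbrev ct {V : Type} [AddCommGroup V] [Module ℝ V] (d : Module.Dual ℝ V) :
    ExteriorAlgebra ℝ V →ₗ[ℝ] ExteriorAlgebra ℝ V :=
  contractLeft (Q := (0 : QuadraticForm ℝ V)) d

theorem pfL_iota_mul {V : Type} [AddCommGroup V] [Module ℝ V] (B : LinearMap.BilinForm ℝ V)
    (hB : B.IsAlt) (v : V) (y : ExteriorAlgebra ℝ V) :
    pfL B hB (ExteriorAlgebra.ι ℝ v * y) = pfL B hB (ct (B v) y) := by
  have h := changeForm_ι_mul (Q := (0 : QuadraticForm ℝ V)) (Q' := 0) (toQ_alt B hB) v y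
  have h0 : ExteriorAlgebra.algebraMapInv (R := ℝ) (M := V) (CliffordAlgebra.ι 0 v) = 0 :=
    algebraMapInv_iota v
  refine (congrArg ExteriorAlgebra.algebraMapInv h).trans ?_
  rw [map_sub, map_mul, h0, zero_mul, zero_sub, ← changeForm_contractLeft, LinearMap.neg_apply,
    map_neg, LinearMap.neg_apply, map_neg, map_neg, neg_neg]
  rfl

theorem ct_ct {V : Type} [AddCommGroup V] [Module ℝ V] (d d' : Module.Dual ℝ V)
    (x : ExteriorAlgebra ℝ V) : ct d (ct d' x) = -ct d' (ct d x) :=
  contractLeft_comm (Q := (0 : QuadraticForm ℝ V)) d d' x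

/-- The contraction with a coordinate. -/
def cc (i : Fin (Module.finrank ℝ E)) : ExteriorAlgebra ℝ E →ₗ[ℝ] ExteriorAlgebra ℝ E :=
  ct ((Module.finBasis ℝ E).coord i)

/-- The contraction with a bilinear form. -/
def kap (H : E →L[ℝ] E →L[ℝ] ℝ) : ExteriorAlgebra ℝ E →ₗ[ℝ] ExteriorAlgebra ℝ E :=
  ∑ j, ∑ k, H (Module.finBasis ℝ E j) (Module.finBasis ℝ E k) • (cc k ∘ₗ cc j)

theorem kap_apply (H : E →L[ℝ] E →L[ℝ] ℝ) (x : ExteriorAlgebra ℝ E) : kap H x =
    ∑ j, ∑ k, H (Module.finBasis ℝ E j) (Module.finBasis ℝ E k) • cc k (cc j x) := by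
  simp only [kap, LinearMap.sum_apply, LinearMap.smul_apply, LinearMap.comp_apply]

theorem kap_one (H : E →L[ℝ] E →L[ℝ] ℝ) : kap H 1 = 0 := by
  have h : ∀ j, cc (E := E) j 1 = 0 := fun j => contractLeft_one _ _
  simp only [kap_apply, h, map_zero, smul_zero, Finset.sum_const_zero]

theorem kap_ct (H : E →L[ℝ] E →L[ℝ] ℝ) (d : Module.Dual ℝ E) (x : ExteriorAlgebra ℝ E) :
    kap H (ct d x) = ct d (kap H x) := by
  simp only [kap_apply, map_sum, map_smul]
  refine Finset.sum_congr rfl fun j _ => Finset.sum_congr rfl fun k _ => ?_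
  congr 1
  unfold cc
  rw [ct_ct _ d, map_neg, ct_ct _ d, neg_neg]

theorem ct_eq_sum (d : Module.Dual ℝ E) (x : ExteriorAlgebra ℝ E) :
    ct d x = ∑ k, d (Module.finBasis ℝ E k) • cc k x := by
  have h : d = ∑ k, d (Module.finBasis ℝ E k) • (Module.finBasis ℝ E).coord k :=
    ((Module.finBasis ℝ E).sum_dual_apply_smul_coord d).symm
  conv_lhs => rw [h]
  simp only [ct, map_sum, map_smul, LinearMap.sum_apply, LinearMap.smul_apply]
  rfl

theorem apply_eq_sum {W : Type} [TopologicalSpace W] [AddCommMonoid W] [Module ℝ W]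
    (f : E →L[ℝ] W) (v : E) :
    f v = ∑ j, (Module.finBasis ℝ E).coord j v • f (Module.finBasis ℝ E j) := by
  conv_lhs => rw [← (Module.finBasis ℝ E).sum_repr v]
  simp only [map_sum, map_smul]
  rfl

theorem kap_iota_mul (H : E →L[ℝ] E →L[ℝ] ℝ) (v : E) (x : ExteriorAlgebra ℝ E) :
    kap H (ExteriorAlgebra.ι ℝ v * x) = ct (altF H v) x + ExteriorAlgebra.ι ℝ v * kap H x := by
  have h1 : ∀ j (y : ExteriorAlgebra ℝ E), cc j (ExteriorAlgebra.ι ℝ v * y) =
      (Module.finBasis ℝ E).coord j v • y - ExteriorAlgebra.ι ℝ v * cc j y :=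
    fun j y => contract_cons _ v y
  have h2 : ∀ j k, cc k (cc j (ExteriorAlgebra.ι ℝ v * x)) =
      (Module.finBasis ℝ E).coord j v • cc k x - (Module.finBasis ℝ E).coord k v • cc j x +
        ExteriorAlgebra.ι ℝ v * cc k (cc j x) := by
    intro j k
    rw [h1, map_sub, map_smul, h1]
    abel
  have h3 : ∑ j, ∑ k, H (Module.finBasis ℝ E j) (Module.finBasis ℝ E k) •
      (Module.finBasis ℝ E).coord j v • cc k x = ∑ k, H v (Module.finBasis ℝ E k) • cc k x := by
    rw [Finset.sum_comm]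
    refine Finset.sum_congr rfl fun k _ => ?_
    rw [apply_eq_sum H v, sum_apply, Finset.sum_smul]
    refine Finset.sum_congr rfl fun j _ => ?_
    rw [smul_smul, smul_apply, smul_eq_mul, mul_comm]
  have h4 : ∑ j, ∑ k, H (Module.finBasis ℝ E j) (Module.finBasis ℝ E k) •
      (Module.finBasis ℝ E).coord k v • cc j x = ∑ k, H (Module.finBasis ℝ E k) v • cc k x := by
    refine Finset.sum_congr rfl fun j _ => ?_
    rw [apply_eq_sum (H (Module.finBasis ℝ E j)) v, Finset.sum_smul]
    refine Finset.sum_congr rfl fun k _ => ?_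
    rw [smul_smul, smul_eq_mul, mul_comm]
  simp only [kap_apply, h2, smul_add, smul_sub, Finset.sum_add_distrib, Finset.sum_sub_distrib,
    h3, h4, ct_eq_sum, altF_apply, sub_smul, Finset.mul_sum, mul_smul_comm]

/-- The derivative of the Pfaffian along a curve of forms. -/
theorem hasDerivAt_wk (H : ℝ → E →L[ℝ] E →L[ℝ] ℝ) (H' : E →L[ℝ] E →L[ℝ] ℝ) (t : ℝ)
    (hH : HasDerivAt H H' t) (L : List E) :
    HasDerivAt (fun t => wk (fun v w => H t v w - H t w v) L)
      (pfL (altF (H t)) (altF_alt _) (kap H' (wd L))) t := by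
  have hS : ∀ v w : E, HasDerivAt (fun t => H t v w - H t w v) (altF H' v w) t := by
    have h1 : ∀ v w : E, HasDerivAt (fun t => H t v w) (H' v w) t := by
      intro v w
      have h2 := (hH.clm_apply (hasDerivAt_const t v)).clm_apply (hasDerivAt_const t w)
      simpa using h2
    exact fun v w => (h1 v w).sub (h1 w v)
  induction hn : L.length using Nat.strong_induction_on generalizing L with
  | _ n ih =>
    cases L with
    | nil =>
        simp only [wk_nil, wd_nil, kap_one, map_zero]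
        exact hasDerivAt_const _ _
    | cons v L =>
        simp only [wk_cons]
        have h1 : ∀ k ∈ (Finset.univ : Finset (Fin L.length)), HasDerivAt
            (fun t => (-1 : ℝ) ^ (k : ℕ) * (H t v (L.get k) - H t (L.get k) v) *
              wk (fun v w => H t v w - H t w v) (L.eraseIdx k))
            ((-1 : ℝ) ^ (k : ℕ) * altF H' v (L.get k) *
              wk (fun v w => H t v w - H t w v) (L.eraseIdx k) +
              (-1 : ℝ) ^ (k : ℕ) * (H t v (L.get k) - H t (L.get k) v) *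
              pfL (altF (H t)) (altF_alt _) (kap H' (wd (L.eraseIdx k)))) t := by
          intro k _
          refine ((hS v (L.get k)).const_mul _).fun_mul (ih _ ?_ _ rfl)
          have := k.2
          rw [← hn, List.length_cons, length_erase_lt]
          omega
        refine (HasDerivAt.fun_sum h1).congr_deriv ?_
        rw [wd_cons, kap_iota_mul, map_add, pfL_iota_mul, ← kap_ct, contract_wd, contract_wd]
        simp only [map_sum, map_smul, smul_eq_mul, ← Finset.sum_add_distrib]
        refine Finset.sum_congr rfl fun k _ => ?_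
        rw [← pf_eq, ← wk_eq_pf]
        rfl

theorem kap_sum_zero (T : E →L[ℝ] E →L[ℝ] E →L[ℝ] ℝ) (hT : ∀ v w, T v w = T w v)
    (x : ExteriorAlgebra ℝ E) : ∑ i, kap (T (Module.finBasis ℝ E i)) (cc i x) = 0 := by
  have h : ∑ i, kap (T (Module.finBasis ℝ E i)) (cc i x) =
      -∑ i, kap (T (Module.finBasis ℝ E i)) (cc i x) := by
    simp only [kap_apply]
    conv_lhs => rw [Finset.sum_comm]
    rw [← Finset.sum_neg_distrib]
    refine Finset.sum_congr rfl fun i _ => ?_
    rw [← Finset.sum_neg_distrib]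
    refine Finset.sum_congr rfl fun j _ => ?_
    rw [← Finset.sum_neg_distrib]
    refine Finset.sum_congr rfl fun k _ => ?_
    rw [hT, ← smul_neg, ← map_neg]
    congr 2
    exact ct_ct _ _ x
  have h2 : (2 : ℝ) • ∑ i, kap (T (Module.finBasis ℝ E i)) (cc i x) = 0 := by
    rw [two_smul]
    nth_rewrite 1 [h]
    exact neg_add_cancel _
  exact (smul_eq_zero.1 h2).resolve_left two_ne_zero

theorem kap_eq_sum (T : E →L[ℝ] E →L[ℝ] E →L[ℝ] ℝ) (u : E) (x : ExteriorAlgebra ℝ E) :
    kap (T u) x = ∑ i, (Module.finBasis ℝ E).coord i u • kap (T (Module.finBasis ℝ E i)) x := by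
  simp only [kap_apply, apply_eq_sum T u, sum_apply,
    smul_apply, Finset.sum_smul, Finset.smul_sum, smul_smul, smul_eq_mul]
  conv_rhs => rw [Finset.sum_comm]
  refine Finset.sum_congr rfl fun j _ => ?_
  rw [Finset.sum_comm]

theorem fderiv_wk (Θ : E → E →L[ℝ] ℝ) (hΘ : ContDiff ℝ ∞ Θ) (L : List E) (z u : E) :
    fderiv ℝ (fun z => wk (fun v w => fderiv ℝ Θ z v w - fderiv ℝ Θ z w v) L) z u =
      pfL (altF (fderiv ℝ Θ z)) (altF_alt _) (kap (fderiv ℝ (fderiv ℝ Θ) z u) (wd L)) := by
  have h1 : ContDiff ℝ ∞ (fderiv ℝ Θ) := (contDiff_infty_iff_fderiv.1 hΘ).2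
  have h2 : ContDiff ℝ ∞ fun z => wk (fun v w => fderiv ℝ Θ z v w - fderiv ℝ Θ z w v) L :=
    contDiff_wk (fun z v w => fderiv ℝ Θ z v w - fderiv ℝ Θ z w v) (fun a b =>
      ((h1.clm_apply contDiff_const).clm_apply contDiff_const).sub
        ((h1.clm_apply contDiff_const).clm_apply contDiff_const)) L
  have h3 : HasDerivAt (fun a : ℝ => z + a • u) u 0 := by
    simpa using ((hasDerivAt_id (0 : ℝ)).smul_const u).const_add z
  have h4 : z = z + (0 : ℝ) • u := by simp
  have h5 := HasFDerivAt.comp_hasDerivAt_of_eq (0 : ℝ)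
    (h2.differentiable (by simp) z).hasFDerivAt h3 h4
  have h6 := HasFDerivAt.comp_hasDerivAt_of_eq (0 : ℝ)
    (h1.differentiable (by simp) z).hasFDerivAt h3 h4
  have h7 := hasDerivAt_wk _ _ 0 h6 L
  have h8 := h5.unique h7
  simpa using h8

end Bia

open Bia in
/-- The Bianchi identity. -/
theorem bianchi (Θ : E → E →L[ℝ] ℝ) (hΘ : ContDiff ℝ ∞ Θ) (L : List E) (z : E) :
    ∑ k : Fin L.length, (-1 : ℝ) ^ (k : ℕ) *
      fderiv ℝ (fun z => wk (fun v w => fderiv ℝ Θ z v w - fderiv ℝ Θ z w v) (L.eraseIdx k)) z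
        (L.get k) = 0 := by
  have hs : ∀ v w, fderiv ℝ (fderiv ℝ Θ) z v w = fderiv ℝ (fderiv ℝ Θ) z w v := fun v w =>
    (hΘ.contDiffAt.isSymmSndFDerivAt (by
      rw [minSmoothness_of_isRCLikeNormedField]
      exact WithTop.coe_le_coe.2 le_top)).eq v w
  have h := congrArg (pfL (altF (fderiv ℝ Θ z)) (altF_alt _))
    (kap_sum_zero (fderiv ℝ (fderiv ℝ Θ) z) hs (wd L))
  rw [map_zero] at h
  rw [← h]
  simp only [fderiv_wk Θ hΘ, kap_eq_sum (fderiv ℝ (fderiv ℝ Θ) z) (L.get _), cc, contract_wd,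
    map_sum, map_smul, smul_eq_mul, Finset.mul_sum]
  rw [Finset.sum_comm]
  simp only [mul_assoc]

end Vale.Agent.P184Z
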