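import Mathlib

/-!
# P184Z: directional derivatives of smooth functions and parameter integrals
-/

open MeasureTheory
open scoped ContDiff RealInnerProductSpace

set_option linter.unusedSectionVars false

namespace Vale.Agent.P184Z.Par

variable {E V : Type} [NormedAddCommGroup E] [NormedSpace ℝ E] [NormedAddCommGroup V]
  [NormedSpace ℝ V]

/-- smooth maps -/
abbrev Sm (F : E → V) : Prop := ContDiff ℝ ∞ F

/-- the derivative in the direction `v` -/
noncomputable def D (v : E) (F : E → V) : E → V := fun p => fderiv ℝ F p v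

theorem D_def (v : E) (F : E → V) (p : E) : D v F p = fderiv ℝ F p v := rfl

theorem Sm.diff {F : E → V} (hF : Sm F) (p : E) : DifferentiableAt ℝ F p :=
  hF.differentiable (by norm_num) p

theorem Sm.hasF {F : E → V} (hF : Sm F) (p : E) : HasFDerivAt F (fderiv ℝ F p) p :=
  (hF.diff p).hasFDerivAt

theorem Sm.fder {F : E → V} (hF : Sm F) : Sm (fderiv ℝ F) :=
  (contDiff_infty_iff_fderiv.1 hF).2

theorem Sm.D {F : E → V} (hF : Sm F) (v : E) : Sm (D v F) :=
  hF.fder.clm_apply contDiff_const

theorem D_add_dir (v w : E) (F : E → V) (p : E) : D (v + w) F p = D v F p + D w F p :=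
  map_add _ _ _

theorem D_smul_dir (c : ℝ) (v : E) (F : E → V) (p : E) : D (c • v) F p = c • D v F p :=
  map_smul _ _ _

theorem D_sum_dir {ι : Type*} (s : Finset ι) (v : ι → E) (F : E → V) (p : E) :
    D (∑ i ∈ s, v i) F p = ∑ i ∈ s, D (v i) F p :=
  map_sum _ _ _

theorem D_zero_dir (F : E → V) (p : E) : D 0 F p = 0 := map_zero _

theorem D_const (v : E) (c : V) (p : E) : D v (fun _ => c) p = 0 := by simp [D]

theorem D_of_hasF {F : E → V} {p : E} {L : E →L[ℝ] V} (h : HasFDerivAt F L p) (v : E) :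
    D v F p = L v := by rw [D, h.fderiv]

theorem D_clm (L : E →L[ℝ] V) (v p : E) : D v L p = L v := D_of_hasF L.hasFDerivAt v

theorem D_add {F G : E → V} (hF : Sm F) (hG : Sm G) (v p : E) :
    D v (fun q => F q + G q) p = D v F p + D v G p :=
  D_of_hasF ((hF.hasF p).add (hG.hasF p)) v

theorem D_sub {F G : E → V} (hF : Sm F) (hG : Sm G) (v p : E) :
    D v (fun q => F q - G q) p = D v F p - D v G p :=
  D_of_hasF ((hF.hasF p).sub (hG.hasF p)) v

theorem D_neg (F : E → V) (v p : E) : D v (fun q => -F q) p = -D v F p := by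
  simp [D, fderiv_fun_neg]

theorem D_sum {ι : Type*} (s : Finset ι) {F : ι → E → V} (hF : ∀ i ∈ s, Sm (F i)) (v p : E) :
    D v (fun q => ∑ i ∈ s, F i q) p = ∑ i ∈ s, D v (F i) p := by
  rw [D_of_hasF (HasFDerivAt.fun_sum fun i hi => (hF i hi).hasF p), sum_apply]
  rfl

theorem D_smul {f : E → ℝ} {F : E → V} (hf : Sm f) (hF : Sm F) (v p : E) :
    D v (fun q => f q • F q) p = f p • D v F p + D v f p • F p := by
  rw [D_of_hasF ((hf.hasF p).fun_smul (hF.hasF p))]
  rfl

theorem D_const_smul (c : ℝ) {F : E → V} (hF : Sm F) (v p : E) :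
    D v (fun q => c • F q) p = c • D v F p :=
  D_of_hasF ((hF.hasF p).fun_const_smul c) v

theorem D_mul {f g : E → ℝ} (hf : Sm f) (hg : Sm g) (v p : E) :
    D v (fun q => f q * g q) p = f p * D v g p + D v f p * g p :=
  D_smul hf hg v p

theorem D_const_mul (c : ℝ) {f : E → ℝ} (hf : Sm f) (v p : E) :
    D v (fun q => c * f q) p = c * D v f p :=
  D_const_smul c hf v p

theorem D_mul_const (c : ℝ) {f : E → ℝ} (hf : Sm f) (v p : E) :
    D v (fun q => f q * c) p = D v f p * c := by
  simp only [mul_comm _ c]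
  exact D_const_mul c hf v p

/-- chain rule with a function of one variable -/
theorem D_comp {φ : ℝ → V} {φ' : V} {f : E → ℝ} (hf : Sm f) (v p : E)
    (hφ : HasDerivAt φ φ' (f p)) : D v (fun q => φ (f q)) p = D v f p • φ' :=
  D_of_hasF (hφ.hasFDerivAt.comp p (hf.hasF p)) v

theorem D_comp_real {φ : ℝ → ℝ} {φ' : ℝ} {f : E → ℝ} (hf : Sm f) (v p : E)
    (hφ : HasDerivAt φ φ' (f p)) : D v (fun q => φ (f q)) p = φ' * D v f p := by
  rw [D_comp hf v p hφ, smul_eq_mul, mul_comm]

/-- composition with a linear map on the left -/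
theorem D_clm_comp {W : Type} [NormedAddCommGroup W] [NormedSpace ℝ W] (L : V →L[ℝ] W)
    {F : E → V} (hF : Sm F) (v p : E) : D v (fun q => L (F q)) p = L (D v F p) :=
  D_of_hasF (L.hasFDerivAt.comp p (hF.hasF p)) v

/-- composition with an affine map on the right -/
theorem D_comp_aff {E' : Type} [NormedAddCommGroup E'] [NormedSpace ℝ E'] (L : E' →L[ℝ] E) (c : E)
    {F : E → V} (hF : Sm F) (v p : E') :
    D v (fun q => F (L q + c)) p = D (L v) F (L p + c) :=
  D_of_hasF ((hF.hasF (L p + c)).comp p (L.hasFDerivAt.add_const c)) v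

theorem D_comp_clm {E' : Type} [NormedAddCommGroup E'] [NormedSpace ℝ E'] (L : E' →L[ℝ] E)
    {F : E → V} (hF : Sm F) (v p : E') : D v (fun q => F (L q)) p = D (L v) F (L p) :=
  D_of_hasF ((hF.hasF (L p)).comp p L.hasFDerivAt) v

theorem D_comp_add (c : E) (F : E → V) (v p : E) :
    D v (fun q => F (q + c)) p = D v F (p + c) := by
  rw [D, D, fderiv_comp_add_right]

/-- symmetry of the second derivative -/
theorem D_comm {F : E → V} (hF : Sm F) (v w p : E) : D v (D w F) p = D w (D v F) p := by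
  have h1 : ∀ v w : E, D v (D w F) p = fderiv ℝ (fderiv ℝ F) p v w := fun v w =>
    D_clm_comp (ContinuousLinearMap.apply ℝ V w) hF.fder v p
  rw [h1, h1]
  exact (hF.contDiffAt.isSymmSndFDerivAt (by
    rw [minSmoothness_of_isRCLikeNormedField]
    exact WithTop.coe_le_coe.2 le_top)).eq v w

/-- the derivative along a line -/
theorem hasDerivAt_line {F : E → V} (hF : Sm F) (p v : E) (a : ℝ) :
    HasDerivAt (fun a : ℝ => F (p + a • v)) (D v F (p + a • v)) a := by
  have h1 : HasDerivAt (fun a : ℝ => p + a • v) v a := by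
    simpa using ((hasDerivAt_id a).smul_const v).const_add p
  exact (hF.hasF _).comp_hasDerivAt a h1

/-- a function which is invariant along a direction -/
theorem D_eq_zero_of_inv {F : E → V} (hF : Sm F) {v : E} (h : ∀ p (a : ℝ), F (p + a • v) = F p)
    (p : E) : D v F p = 0 := by
  have h1 := hasDerivAt_line hF p v 0
  simp only [h, zero_smul, add_zero] at h1
  exact h1.unique (hasDerivAt_const _ _)

theorem Sm.slice {F : E × ℝ → V} (hF : Sm F) (t : ℝ) : Sm fun s => F (s, t) :=
  hF.comp (contDiff_id.prodMk contDiff_const)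

theorem Sm.time {F : E × ℝ → V} (hF : Sm F) (s : E) : Sm fun t => F (s, t) :=
  hF.comp (contDiff_const.prodMk contDiff_id)

theorem Sm.cont_time {F : E × ℝ → V} (hF : Sm F) (s : E) : Continuous fun t => F (s, t) :=
  (hF.time s).continuous

theorem Sm.ii {F : E × ℝ → V} (hF : Sm F) (s : E) (a b : ℝ) :
    IntervalIntegrable (fun t => F (s, t)) volume a b :=
  (hF.cont_time s).intervalIntegrable a b

theorem D_slice {F : E × ℝ → V} (hF : Sm F) (v s : E) (t : ℝ) :
    D v (fun s => F (s, t)) s = D (v, 0) F (s, t) :=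
  D_of_hasF ((hF.hasF (s, t)).comp s (hasFDerivAt_prodMk_left s t)) v

theorem hasDerivAt_time {F : E × ℝ → V} (hF : Sm F) (s : E) (t : ℝ) :
    HasDerivAt (fun t => F (s, t)) (D (0, 1) F (s, t)) t :=
  (hF.hasF (s, t)).comp_hasDerivAt t ((hasDerivAt_const t s).prodMk (hasDerivAt_id t))

/-- rotation invariance: the derivative along `o` is minus the time derivative -/
theorem D_rot {F : E × ℝ → V} (hF : Sm F) {o : E}
    (h : ∀ s t (a : ℝ), F (s + a • o, t + a) = F (s, t)) (p : E × ℝ) :
    D (o, 0) F p = -D (0, 1) F p := by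
  have h1 := D_eq_zero_of_inv hF (v := (o, 1)) (fun q a => by
    rw [← h q.1 q.2 a]
    congr 1
    ext <;> simp) p
  rw [show ((o, 1) : E × ℝ) = (o, 0) + (0, 1) by simp, D_add_dir] at h1
  exact eq_neg_of_add_eq_zero_left h1

section inner

variable {W : Type} [NormedAddCommGroup W] [InnerProductSpace ℝ W]

theorem Sm.inner {F G : E → W} (hF : Sm F) (hG : Sm G) : Sm fun q => ⟪F q, G q⟫ :=
  ContDiff.inner ℝ hF hG

theorem D_inner {F G : E → W} (hF : Sm F) (hG : Sm G) (v p : E) :
    D v (fun q => ⟪F q, G q⟫) p = ⟪F p, D v G p⟫ + ⟪D v F p, G p⟫ :=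
  fderiv_inner_apply ℝ (hF.diff p) (hG.diff p) v

end inner

section integral

variable [FiniteDimensional ℝ E]

theorem hasFDerivAt_int {F : E × ℝ → V} (hF : Sm F) (a b : ℝ) (s : E) :
    HasFDerivAt (fun s => ∫ t in a..b, F (s, t))
      (∫ t in a..b, (fderiv ℝ F (s, t)).comp (ContinuousLinearMap.inl ℝ E ℝ)) s := by
  have h1 : Continuous fun p : E × ℝ => (fderiv ℝ F p).comp (ContinuousLinearMap.inl ℝ E ℝ) :=
    hF.fder.continuous.clm_comp continuous_const
  obtain ⟨C, hC⟩ := ((isCompact_closedBall s 1).prod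
    (isCompact_uIcc (a := a) (b := b))).exists_bound_of_continuousOn h1.continuousOn
  refine intervalIntegral.hasFDerivAt_integral_of_dominated_of_fderiv_le
    (F := fun s t => F (s, t))
    (F' := fun s t => (fderiv ℝ F (s, t)).comp (ContinuousLinearMap.inl ℝ E ℝ))
    (bound := fun _ => C) (Metric.ball_mem_nhds s one_pos)
    (Filter.Eventually.of_forall fun y => (hF.cont_time y).aestronglyMeasurable) (hF.ii s a b)
    (h1.comp (continuous_const.prodMk continuous_id)).aestronglyMeasurable
    (Filter.Eventually.of_forall fun t ht y hy =>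
      hC (y, t) ⟨Metric.ball_subset_closedBall hy, Set.uIoc_subset_uIcc ht⟩)
    intervalIntegrable_const (Filter.Eventually.of_forall fun t _ y _ => ?_)
  exact (hF.hasF (y, t)).comp y (hasFDerivAt_prodMk_left y t)

theorem contDiff_int_aux (a b : ℝ) (n : ℕ) :
    ∀ (V : Type) [NormedAddCommGroup V] [NormedSpace ℝ V] (F : E × ℝ → V), Sm F →
      ContDiff ℝ n fun s => ∫ t in a..b, F (s, t) := by
  induction n with
  | zero =>
    intro V _ _ F hF
    rw [Nat.cast_zero, contDiff_zero, continuous_iff_continuousAt]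
    exact fun y => (hasFDerivAt_int hF a b y).continuousAt
  | succ n ih =>
    intro V _ _ F hF
    rw [show ((n + 1 : ℕ) : WithTop ℕ∞) = (n : WithTop ℕ∞) + 1 by push_cast; rfl,
      contDiff_succ_iff_fderiv]
    refine ⟨fun y => (hasFDerivAt_int hF a b y).differentiableAt, by simp, ?_⟩
    rw [funext fun y => (hasFDerivAt_int hF a b y).fderiv]
    exact ih (E →L[ℝ] V) (fun p => (fderiv ℝ F p).comp (ContinuousLinearMap.inl ℝ E ℝ))
      (hF.fder.clm_comp contDiff_const)

/-- smoothness of parameter integrals -/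
theorem Sm.int {F : E × ℝ → V} (hF : Sm F) (a b : ℝ) : Sm fun s => ∫ t in a..b, F (s, t) :=
  contDiff_infty.2 fun n => contDiff_int_aux a b n V F hF

/-- differentiation under the integral sign -/
theorem D_int [CompleteSpace V] {F : E × ℝ → V} (hF : Sm F) (a b : ℝ) (v s : E) :
    D v (fun s => ∫ t in a..b, F (s, t)) s = ∫ t in a..b, D (v, 0) F (s, t) := by
  have h1 : Continuous fun t : ℝ => (fderiv ℝ F (s, t)).comp (ContinuousLinearMap.inl ℝ E ℝ) :=
    (hF.fder.cont_time s).clm_comp continuous_const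
  rw [D_of_hasF (hasFDerivAt_int hF a b s),
    ContinuousLinearMap.intervalIntegral_apply (h1.intervalIntegrable a b)]
  rfl

end integral

/-- the fundamental theorem of calculus in the time variable -/
theorem int_D_time [CompleteSpace V] {F : E × ℝ → V} (hF : Sm F) (s : E) (a b : ℝ) :
    ∫ t in a..b, D (0, 1) F (s, t) = F (s, b) - F (s, a) :=
  intervalIntegral.integral_eq_sub_of_hasDerivAt (fun t _ => hasDerivAt_time hF s t)
    ((hF.D _).ii s a b)

/-- shift of a periodic integrand -/
theorem int_shift {f : ℝ → V} {T : ℝ} (hf : ∀ t, f (t + T) = f t) (a : ℝ) :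
    ∫ t in (0 : ℝ)..T, f (t + a) = ∫ t in (0 : ℝ)..T, f t := by
  rw [intervalIntegral.integral_comp_add_right, zero_add, add_comm T a]
  simpa using Function.Periodic.intervalIntegral_add_eq (f := f) (T := T) hf a 0

end Vale.Agent.P184Z.Par
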