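import Vale.Agent.P184Z.Defs
import Vale.Agent.P184Z.Par

/-!
# Integrals with parameters
-/

open scoped ContDiff
open MeasureTheory

noncomputable section

namespace Vale.Agent.P184Z

open Vale.Agent.P184.H38

universe u

variable {E V : Type} [NormedAddCommGroup E] [NormedSpace ℝ E] [FiniteDimensional ℝ E]
  [NormedAddCommGroup V] [NormedSpace ℝ V] [CompleteSpace V]

omit [CompleteSpace V] in
theorem contDiff_int (F : E × ℝ → V) (hF : ContDiff ℝ ∞ F) (a b : ℝ) :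
    ContDiff ℝ ∞ fun z : E => ∫ r in a..b, F (z, r) :=
  Par.Sm.int hF a b

theorem fderiv_int (F : E × ℝ → V) (hF : ContDiff ℝ ∞ F) (a b : ℝ) (z v : E) :
    fderiv ℝ (fun z : E => ∫ r in a..b, F (z, r)) z v = ∫ r in a..b, fderiv ℝ F (z, r) (v, 0) :=
  Par.D_int hF a b v z

variable {n : ℕ}

theorem pd_apply (f : En n → ℝ) (z : En n) (v : Vn n) : pd f z v = fderiv ℝ f z (v, 0) := rfl

theorem pd_eq_D (f : En n → ℝ) (z : En n) (v : Vn n) : pd f z v = Par.D (v, 0) f z := rfl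

theorem contDiff_pd {f : En n → ℝ} (hf : ContDiff ℝ ∞ f) : ContDiff ℝ ∞ (pd f) :=
  (Par.Sm.fder hf).clm_comp contDiff_const

theorem sm_form_apply {θ : Form n} (hθ : ContDiff ℝ ∞ θ) (w : Vn n) : Par.Sm fun s => θ s w :=
  hθ.clm_apply contDiff_const

theorem D_form_apply {θ : Form n} (hθ : ContDiff ℝ ∞ θ) (s v w : Vn n) :
    Par.D v (fun s => θ s w) s = fderiv ℝ θ s v w :=
  Par.D_clm_comp (ContinuousLinearMap.apply ℝ ℝ w) hθ v s

theorem cur_eq_D {θ : Form n} (hθ : ContDiff ℝ ∞ θ) (s v w : Vn n) :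
    cur θ s v w = Par.D v (fun s => θ s w) s - Par.D w (fun s => θ s v) s := by
  rw [D_form_apply hθ, D_form_apply hθ, cur]

theorem contDiff_sum_pd {ι : Type u} (Y : Finset ι) (f g : ι → En n → ℝ)
    (hf : ∀ y, ContDiff ℝ ∞ (f y)) (hg : ∀ y, ContDiff ℝ ∞ (g y)) :
    ContDiff ℝ ∞ fun z : En n => ∑ y ∈ Y, f y z • pd (g y) z :=
  ContDiff.sum fun y _ => (hf y).smul (contDiff_pd (hg y))

theorem contDiff_form_int {ι : Type u} (Y : Finset ι) (f g : ι → En n → ℝ)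
    (hf : ∀ y, ContDiff ℝ ∞ (f y)) (hg : ∀ y, ContDiff ℝ ∞ (g y)) :
    ContDiff ℝ ∞ fun s : Vn n => ∫ τ in (0 : ℝ)..1, ∑ y ∈ Y, f y (s, τ) • pd (g y) (s, τ) :=
  contDiff_int _ (contDiff_sum_pd Y f g hf hg) 0 1

theorem form_int_apply {ι : Type u} (Y : Finset ι) (f g : ι → En n → ℝ)
    (hf : ∀ y, ContDiff ℝ ∞ (f y)) (hg : ∀ y, ContDiff ℝ ∞ (g y)) (s v : Vn n) :
    (∫ τ in (0 : ℝ)..1, ∑ y ∈ Y, f y (s, τ) • pd (g y) (s, τ)) v =
      ∫ τ in (0 : ℝ)..1, ∑ y ∈ Y, f y (s, τ) * pd (g y) (s, τ) v := by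
  rw [ContinuousLinearMap.intervalIntegral_apply
    (Par.Sm.ii (contDiff_sum_pd Y f g hf hg) s 0 1)]
  simp only [sum_apply, smul_apply, smul_eq_mul]

/-- The exterior derivative of an integral of sums of forms `f dg`. -/
theorem cur_int {ι : Type u} (Y : Finset ι) (f g : ι → En n → ℝ) (hf : ∀ y, ContDiff ℝ ∞ (f y))
    (hg : ∀ y, ContDiff ℝ ∞ (g y)) (s v w : Vn n) :
    cur (fun s => ∫ τ in (0 : ℝ)..1, ∑ y ∈ Y, f y (s, τ) • pd (g y) (s, τ)) s v w =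
      ∫ τ in (0 : ℝ)..1, ∑ y ∈ Y, (pd (f y) (s, τ) v * pd (g y) (s, τ) w -
        pd (f y) (s, τ) w * pd (g y) (s, τ) v) := by
  have h0 : ∀ (w : Vn n) (y : ι), Par.Sm fun z : En n => f y z * pd (g y) z w := fun w y =>
    (hf y).mul (Par.Sm.D (hg y) (w, 0))
  have h1 : ∀ w : Vn n, Par.Sm fun z : En n => ∑ y ∈ Y, f y z * pd (g y) z w := fun w =>
    ContDiff.sum fun y _ => h0 w y
  rw [cur_eq_D (contDiff_form_int Y f g hf hg)]
  simp only [form_int_apply Y f g hf hg]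
  rw [Par.D_int (h1 w), Par.D_int (h1 v), ← intervalIntegral.integral_sub
    (((h1 w).D _).ii s 0 1) (((h1 v).D _).ii s 0 1)]
  refine intervalIntegral.integral_congr fun τ _ => ?_
  rw [Par.D_sum Y fun y _ => h0 w y, Par.D_sum Y fun y _ => h0 v y, ← Finset.sum_sub_distrib]
  refine Finset.sum_congr rfl fun y _ => ?_
  simp only [pd_eq_D]
  rw [Par.D_mul (hf y) (Par.Sm.D (hg y) (w, 0)), Par.D_mul (hf y) (Par.Sm.D (hg y) (v, 0)),
    Par.D_comm (hg y) (v, 0) (w, 0)]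
  ring

theorem cur_add {θ ϑ : Form n} (hθ : ContDiff ℝ ∞ θ) (hϑ : ContDiff ℝ ∞ ϑ) (s v w : Vn n) :
    cur (fun s => θ s + ϑ s) s v w = cur θ s v w + cur ϑ s v w := by
  rw [cur_eq_D (hθ.add hϑ), cur_eq_D hθ, cur_eq_D hϑ]
  simp only [add_apply]
  rw [Par.D_add (sm_form_apply hθ w) (sm_form_apply hϑ w),
    Par.D_add (sm_form_apply hθ v) (sm_form_apply hϑ v)]
  ring

/-- The exterior derivative of a multiple of a form. -/
theorem cur_smul {f : Vn n → ℝ} {θ : Form n} (hf : ContDiff ℝ ∞ f) (hθ : ContDiff ℝ ∞ θ)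
    (s v w : Vn n) :
    cur (fun s => f s • θ s) s v w = f s * cur θ s v w +
      (fderiv ℝ f s v * θ s w - fderiv ℝ f s w * θ s v) := by
  rw [cur_eq_D (θ := fun s => f s • θ s) (hf.smul hθ), cur_eq_D hθ]
  simp only [smul_apply, smul_eq_mul]
  rw [Par.D_mul hf (sm_form_apply hθ w), Par.D_mul hf (sm_form_apply hθ v), Par.D_def v f,
    Par.D_def w f]
  ring

/-- Cartan's formula for invariant forms. -/
theorem fderiv_one {θ : Form n} (hθ : ContDiff ℝ ∞ θ) (ht : ∀ s (a : ℝ), θ (s + a • one n) = θ s)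
    (s v : Vn n) : fderiv ℝ (fun s => θ s (one n)) s v = cur θ s v (one n) := by
  rw [cur_eq_D hθ, Par.D_eq_zero_of_inv (sm_form_apply hθ v) (fun p a => by rw [ht]), sub_zero]
  rfl

end Vale.Agent.P184Z
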