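import Vale.Agent.P184Z.Defs

/-!
# The divergence theorem on the order simplex
-/

open scoped ContDiff
open MeasureTheory

noncomputable section

namespace Vale.Agent.P184Z

open Vale.Agent.P184.H38

universe u

/-- The face maps of the order simplex: the points of `simplex N`, extended by `0` and `1`, with
the coordinate `j` doubled. -/
def sfc {N : ℕ} (j : Fin (N + 2)) (t : Vn N) : Vn (N + 1) := fun i =>
  (Fin.cons (α := fun _ => ℝ) 0 (sl t) : Fin (N + 2) → ℝ) (j.predAbove i.succ.castSucc)

theorem isClosed_simplex (N : ℕ) : IsClosed (simplex N) := by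
  have h : simplex N = (⋂ a, ⋂ b, ⋂ _ : a ≤ b, {t : Vn N | t a ≤ t b}) ∩
      ⋂ i, ({t : Vn N | 0 ≤ t i} ∩ {t : Vn N | t i ≤ 1}) := by
    ext t
    simp only [simplex, Set.mem_inter_iff, Set.mem_iInter, Set.mem_ofPred_eq]
    rfl
  rw [h]
  refine IsClosed.inter (isClosed_iInter fun a => isClosed_iInter fun b => isClosed_iInter fun _ =>
    isClosed_le (continuous_apply a) (continuous_apply b)) (isClosed_iInter fun i =>
      (isClosed_le continuous_const (continuous_apply i)).inter
        (isClosed_le (continuous_apply i) continuous_const))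

theorem measurableSet_simplex (N : ℕ) : MeasurableSet (simplex N) :=
  (isClosed_simplex N).measurableSet

theorem isCompact_simplex (N : ℕ) : IsCompact (simplex N) :=
  (isCompact_Icc (a := fun _ : Fin N => (0 : ℝ)) (b := fun _ => 1)).of_isClosed_subset
    (isClosed_simplex N) fun _ ht => ⟨fun i => (ht.2 i).1, fun i => (ht.2 i).2⟩

theorem volume_simplex_pos (N : ℕ) : 0 < (volume (simplex N)).toReal := by
  refine ENNReal.toReal_pos (ne_of_gt ?_) (isCompact_simplex N).measure_lt_top.ne
  have hU : IsOpen ((⋂ a, ⋂ b, ⋂ _ : a < b, {t : Vn N | t a < t b}) ∩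
      ⋂ i, ({t : Vn N | 0 < t i} ∩ {t : Vn N | t i < 1})) :=
    IsOpen.inter (isOpen_iInter_of_finite fun a => isOpen_iInter_of_finite fun b =>
      isOpen_iInter_of_finite fun _ => isOpen_lt (continuous_apply a) (continuous_apply b))
      (isOpen_iInter_of_finite fun i => (isOpen_lt continuous_const (continuous_apply i)).inter
        (isOpen_lt (continuous_apply i) continuous_const))
  refine (hU.measure_pos volume ⟨fun i => ((i : ℝ) + 1) / (N + 1), ?_⟩).trans_le (measure_mono ?_)
  · have hN : (0 : ℝ) < N + 1 := by positivity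
    simp only [Set.mem_inter_iff, Set.mem_iInter, Set.mem_ofPred_eq]
    refine ⟨fun a b hab => div_lt_div_of_pos_right ?_ hN, fun i => ⟨by positivity, ?_⟩⟩
    · have : (a : ℝ) < b := by exact_mod_cast hab
      linarith
    · have : (i : ℝ) < N := by exact_mod_cast i.2
      rw [div_lt_one hN]
      linarith
  · intro t ht
    simp only [Set.mem_inter_iff, Set.mem_iInter, Set.mem_ofPred_eq] at ht
    exact ⟨StrictMono.monotone ht.1, fun i => ⟨(ht.2 i).1.le, (ht.2 i).2.le⟩⟩

namespace Sx

variable {N : ℕ}

/-- The points of the simplex, extended by `0` and `1`. -/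
def ex (t : Vn N) : Fin (N + 2) → ℝ := Fin.cons (α := fun _ => ℝ) 0 (sl t)

theorem ex_zero (t : Vn N) : ex t 0 = 0 := rfl

theorem ex_last (t : Vn N) : ex t (Fin.last (N + 1)) = 1 := by
  rw [← Fin.succ_last]
  simp [ex, sl]

theorem ex_mid (t : Vn N) (k : Fin N) : ex t k.castSucc.succ = t k := by simp [ex, sl]

theorem ex_cases (j : Fin (N + 2)) :
    j = 0 ∨ j = Fin.last (N + 1) ∨ ∃ k : Fin N, j = k.castSucc.succ := by
  refine Fin.cases (Or.inl rfl) (fun j => Or.inr ?_) j
  exact Fin.lastCases (Or.inl rfl) (fun k => Or.inr ⟨k, rfl⟩) j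

theorem continuous_ex (j : Fin (N + 2)) : Continuous fun t : Vn N => ex t j := by
  rcases ex_cases j with rfl | rfl | ⟨k, rfl⟩
  · exact continuous_const
  · simp only [ex_last]
    exact continuous_const
  · simp only [ex_mid]
    exact continuous_apply k

theorem ex_mem {t : Vn N} (ht : t ∈ simplex N) (j : Fin (N + 2)) : 0 ≤ ex t j ∧ ex t j ≤ 1 := by
  rcases ex_cases j with rfl | rfl | ⟨k, rfl⟩
  · exact ⟨le_rfl, zero_le_one⟩
  · rw [ex_last]
    exact ⟨zero_le_one, le_rfl⟩
  · rw [ex_mid]
    exact ht.2 k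

theorem ex_mono {t : Vn N} (ht : t ∈ simplex N) : Monotone (ex t) := by
  intro a b hab
  rcases ex_cases a with rfl | rfl | ⟨k, rfl⟩
  · exact (ex_mem ht b).1
  · rw [Fin.last_le_iff.1 hab]
  · rcases ex_cases b with rfl | rfl | ⟨l, rfl⟩
    · exact absurd hab (not_le.2 (Fin.succ_pos _))
    · rw [ex_last]
      exact (ex_mem ht _).2
    · rw [ex_mid, ex_mid]
      exact ht.1 (Fin.castSucc_le_castSucc_iff.1 (Fin.succ_le_succ_iff.1 hab))

theorem predAbove_val {m : ℕ} (p : Fin m) (i : Fin (m + 1)) :
    (p.predAbove i : ℕ) = if (p : ℕ) < i then (i : ℕ) - 1 else i := by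
  unfold Fin.predAbove
  by_cases h : (p : ℕ) < i
  · rw [dif_pos (show p.castSucc < i from h), if_pos h]
    rfl
  · rw [dif_neg (show ¬ p.castSucc < i from h), if_neg h]
    rfl

theorem succAbove_val {k : ℕ} (j : Fin (k + 1)) (i : Fin k) :
    (j.succAbove i : ℕ) = if (i : ℕ) < j then (i : ℕ) else i + 1 := by
  unfold Fin.succAbove
  by_cases h : (i : ℕ) < j
  · rw [if_pos (show i.castSucc < j from h), if_pos h]
    rfl
  · rw [if_neg (show ¬ i.castSucc < j from h), if_neg h]
    rfl

theorem sfc_eq (i : Fin (N + 1)) (j : Fin (N + 2)) (hj : j = i.succ ∨ j = i.castSucc) (t : Vn N) :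
    sfc j t = i.insertNth (ex t j) t := by
  have hv : (j : ℕ) = i + 1 ∨ (j : ℕ) = i := by
    rcases hj with rfl | rfl
    · exact Or.inl rfl
    · exact Or.inr rfl
  funext k
  rcases Fin.eq_self_or_eq_succAbove i k with rfl | ⟨l, rfl⟩
  · rw [Fin.insertNth_apply_same]
    refine congrArg (ex t) (Fin.ext ?_)
    rw [predAbove_val, Fin.val_castSucc, Fin.val_succ]
    split_ifs <;> omega
  · rw [Fin.insertNth_apply_succAbove, ← ex_mid t l]
    refine congrArg (ex t) (Fin.ext ?_)
    rw [predAbove_val, Fin.val_castSucc, Fin.val_succ, Fin.val_succ, Fin.val_castSucc,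
      succAbove_val]
    split_ifs <;> omega

theorem insertNth_mem (i : Fin (N + 1)) (y : ℝ) (t : Vn N) :
    (i.insertNth y t : Vn (N + 1)) ∈ simplex (N + 1) ↔
      t ∈ simplex N ∧ y ∈ Set.Icc (ex t i.castSucc) (ex t i.succ) := by
  have hlt : ∀ k : Fin N, i.succAbove k ≤ i ↔ k.castSucc.succ ≤ i.castSucc := by
    intro k
    simp only [Fin.le_def, succAbove_val, Fin.val_succ, Fin.val_castSucc]
    split_ifs <;> omega
  have hgt : ∀ k : Fin N, i ≤ i.succAbove k ↔ i.succ ≤ k.castSucc.succ := by
    intro k
    simp only [Fin.le_def, succAbove_val, Fin.val_succ, Fin.val_castSucc]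
    split_ifs <;> omega
  constructor
  · rintro ⟨h1, h2⟩
    have h3 := h2 i
    rw [Fin.insertNth_apply_same] at h3
    refine ⟨⟨fun a b hab => ?_, fun k => ?_⟩, ?_, ?_⟩
    · simpa using h1 ((Fin.strictMono_succAbove i).monotone hab)
    · simpa using h2 (i.succAbove k)
    · rcases ex_cases i.castSucc with h | h | ⟨k, h⟩
      · rw [h]
        exact h3.1
      · exact absurd h (Fin.castSucc_lt_last i).ne
      · rw [h, ex_mid]
        simpa using h1 ((hlt k).2 h.ge)
    · rcases ex_cases i.succ with h | h | ⟨k, h⟩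
      · exact absurd h (Fin.succ_ne_zero i)
      · rw [h, ex_last]
        exact h3.2
      · rw [h, ex_mid]
        simpa using h1 ((hgt k).2 h.le)
  · rintro ⟨ht, h1, h2⟩
    refine ⟨fun a b hab => ?_, fun k => ?_⟩
    · rcases Fin.eq_self_or_eq_succAbove i a with ha | ⟨k, ha⟩ <;>
        rcases Fin.eq_self_or_eq_succAbove i b with hb | ⟨l, hb⟩ <;> rw [ha, hb] at hab ⊢
      · rw [Fin.insertNth_apply_same, Fin.insertNth_apply_succAbove, ← ex_mid t l]
        exact h2.trans (ex_mono ht ((hgt l).1 hab))
      · rw [Fin.insertNth_apply_same, Fin.insertNth_apply_succAbove, ← ex_mid t k]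
        exact (ex_mono ht ((hlt k).1 hab)).trans h1
      · rw [Fin.insertNth_apply_succAbove, Fin.insertNth_apply_succAbove]
        exact ht.1 (Fin.succAbove_le_succAbove_iff.1 hab)
    · rcases Fin.eq_self_or_eq_succAbove i k with rfl | ⟨l, rfl⟩
      · rw [Fin.insertNth_apply_same]
        exact ⟨(ex_mem ht _).1.trans h1, h2.trans (ex_mem ht _).2⟩
      · rw [Fin.insertNth_apply_succAbove]
        exact ht.2 l

theorem insertNth_eq (i : Fin (N + 1)) (y : ℝ) (t : Vn N) :
    (i.insertNth y t : Vn (N + 1)) = i.insertNth 0 t + y • Pi.single i 1 := by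
  funext k
  rcases Fin.eq_self_or_eq_succAbove i k with rfl | ⟨l, rfl⟩
  · simp
  · simp [Fin.succAbove_ne]

/-- Fubini on the simplex. -/
theorem integral_split (f : Vn (N + 1) → ℝ) (hf : Continuous f) (i : Fin (N + 1)) :
    ∫ t in simplex (N + 1), f t =
      ∫ t in simplex N, ∫ y in ex t i.castSucc..ex t i.succ, f (i.insertNth y t) := by
  have h1 : Integrable ((simplex (N + 1)).indicator f) :=
    (integrable_indicator_iff (measurableSet_simplex _)).2
      (hf.continuousOn.integrableOn_compact (isCompact_simplex _))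
  have h := (volume_preserving_piFinSuccAbove (fun _ : Fin (N + 1) => ℝ) i).symm
    (MeasurableEquiv.piFinSuccAbove (fun _ => ℝ) i)
  rw [← integral_indicator (measurableSet_simplex _), ← integral_indicator (measurableSet_simplex _),
    ← h.integral_comp']
  refine (integral_prod_symm _ (h.integrable_comp_of_integrable h1)).trans ?_
  refine integral_congr_ae (Filter.Eventually.of_forall fun t => ?_)
  change ∫ y, (simplex (N + 1)).indicator f (i.insertNth y t) = _
  by_cases ht : t ∈ simplex N
  · rw [Set.indicator_of_mem ht, intervalIntegral.integral_of_le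
      (ex_mono ht (Fin.castSucc_lt_succ (i := i)).le), ← integral_Icc_eq_integral_Ioc,
      ← integral_indicator measurableSet_Icc]
    refine integral_congr_ae (Filter.Eventually.of_forall fun y => ?_)
    by_cases hy : y ∈ Set.Icc (ex t i.castSucc) (ex t i.succ)
    · simp only [Set.indicator_of_mem hy, Set.indicator_of_mem ((insertNth_mem i y t).2 ⟨ht, hy⟩)]
    · simp only [Set.indicator_of_notMem hy,
        Set.indicator_of_notMem fun h => hy ((insertNth_mem i y t).1 h).2]
  · simp only [Set.indicator_of_notMem ht,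
      Set.indicator_of_notMem fun h => ht ((insertNth_mem i _ t).1 h).1, integral_zero]

theorem continuous_sfc (j : Fin (N + 2)) : Continuous (sfc j : Vn N → Vn (N + 1)) :=
  continuous_pi fun _ => continuous_ex _

end Sx

open Sx in
/-- Integration of a derivative: the coordinate `i` moves from the face `i` to the face `i + 1`. -/
theorem stokes_simplex {N : ℕ} (F : Vn (N + 1) → ℝ) (hF : ContDiff ℝ ∞ F) (i : Fin (N + 1)) :
    ∫ t in simplex (N + 1), fderiv ℝ F t (Pi.single i 1) =
      (∫ t in simplex N, F (sfc i.succ t)) - ∫ t in simplex N, F (sfc i.castSucc t) := by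
  have hc : Continuous fun t => fderiv ℝ F t (Pi.single i 1) :=
    (contDiff_infty_iff_fderiv.1 hF).2.continuous.clm_apply continuous_const
  have hi : ∀ j : Fin (N + 2), IntegrableOn (fun t => F (sfc j t)) (simplex N) := fun j =>
    (hF.continuous.comp (continuous_sfc j)).continuousOn.integrableOn_compact (isCompact_simplex N)
  rw [integral_split _ hc i, ← integral_sub (hi _) (hi _)]
  refine integral_congr_ae (Filter.Eventually.of_forall fun t => ?_)
  have hd : ∀ y : ℝ, HasDerivAt (fun y : ℝ => (i.insertNth y t : Vn (N + 1))) (Pi.single i 1) y := by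
    intro y
    rw [funext fun y => insertNth_eq i y t]
    simpa using ((hasDerivAt_id y).smul_const (Pi.single i (1 : ℝ) : Vn (N + 1))).const_add
      (i.insertNth 0 t)
  simp only [sfc_eq i _ (Or.inl rfl), sfc_eq i _ (Or.inr rfl)]
  exact intervalIntegral.integral_eq_sub_of_hasDerivAt (f := fun y => F (i.insertNth y t))
    (fun y _ => (hF.differentiable (by simp) _).hasFDerivAt.comp_hasDerivAt y (hd y))
    ((hc.comp (continuous_iff_continuousAt.2 fun y => (hd y).continuousAt)).intervalIntegrable _ _)

/-- The rotation of the simplex. -/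
def srot {N : ℕ} (t : Vn (N + 1)) : Vn (N + 1) := fun i => sl t i.succ - t 0

namespace Sx

variable {N : ℕ}

theorem srot_last (t : Vn (N + 1)) : srot t (Fin.last N) = 1 - t 0 := by
  simp [srot, sl, Fin.succ_last]

theorem srot_castSucc (t : Vn (N + 1)) (k : Fin N) : srot t k.castSucc = t k.succ - t 0 := by
  rw [srot, Fin.succ_castSucc]
  simp only [sl, Fin.snoc_castSucc]

theorem srot_eq (t : Vn (N + 1)) (i : Fin (N + 1)) : srot t i = ex t i.succ.succ - t 0 := rfl

theorem continuous_srot : Continuous (srot : Vn (N + 1) → Vn (N + 1)) :=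
  continuous_pi fun i => (continuous_ex i.succ.succ).sub (continuous_apply 0)

theorem srot_injective : Function.Injective (srot : Vn (N + 1) → Vn (N + 1)) := by
  intro s t h
  have h0 : s 0 = t 0 := by
    have := congrFun h (Fin.last N)
    rw [srot_last, srot_last] at this
    linarith
  funext i
  refine Fin.cases h0 (fun k => ?_) i
  have := congrFun h k.castSucc
  rw [srot_castSucc, srot_castSucc] at this
  linarith

theorem srot_mem (t : Vn (N + 1)) : srot t ∈ simplex (N + 1) ↔ t ∈ simplex (N + 1) := by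
  constructor
  · rintro ⟨h1, h2⟩
    have h3 := h2 (Fin.last N)
    rw [srot_last] at h3
    have h4 : ∀ i, t 0 ≤ t i ∧ t i ≤ 1 := by
      intro i
      refine Fin.cases ⟨le_rfl, by linarith only [h3.1]⟩ (fun k => ?_) i
      have h5 := (h2 k.castSucc).1
      have h6 := h1 (Fin.le_last k.castSucc)
      rw [srot_last] at h6
      rw [srot_castSucc] at h5 h6
      constructor <;> linarith
    refine ⟨fun a b hab => ?_, fun i => ⟨by linarith only [h3.2, (h4 i).1], (h4 i).2⟩⟩
    induction a using Fin.cases with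
    | zero => exact (h4 b).1
    | succ k =>
        obtain ⟨l, rfl⟩ := Fin.exists_succ_eq.2 ((Fin.succ_pos k).trans_le hab).ne'
        have h5 := h1 (Fin.castSucc_le_castSucc_iff.2 (Fin.succ_le_succ_iff.1 hab))
        rw [srot_castSucc, srot_castSucc] at h5
        linarith
  · intro ht
    refine ⟨fun a b hab => ?_, fun i => ?_⟩
    · rw [srot_eq, srot_eq]
      exact sub_le_sub_right
        (ex_mono ht (Fin.succ_le_succ_iff.2 (Fin.succ_le_succ_iff.2 hab))) _
    · have h1 := ex_mono ht (show (0 : Fin (N + 1)).castSucc.succ ≤ i.succ.succ from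
        Fin.succ_le_succ_iff.2 (Fin.zero_le _))
      rw [ex_mid] at h1
      rw [srot_eq]
      constructor <;> linarith only [h1, (ex_mem ht i.succ.succ).2, (ht.2 0).1]

theorem measurePreserving_srot : MeasurePreserving (srot : Vn (N + 1) → Vn (N + 1)) := by
  have h1 := volume_preserving_piFinSuccAbove (fun _ : Fin (N + 1) => ℝ) 0
  have h2 := (volume_preserving_piFinSuccAbove (fun _ : Fin (N + 1) => ℝ) (Fin.last N)).symm
    (MeasurableEquiv.piFinSuccAbove (fun _ => ℝ) (Fin.last N))
  have h3 : MeasurePreserving (fun z : ℝ × Vn N => (1 - z.1, z.2 - fun _ => z.1))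
      (volume.prod volume) (volume.prod volume) :=
    (Measure.measurePreserving_sub_left volume 1).skew_product
      (g := fun (y : ℝ) (t : Vn N) => t - fun _ => y) (by fun_prop)
      (Filter.Eventually.of_forall fun y => (measurePreserving_sub_right volume _).map_eq)
  have h4 := h2.comp (h3.comp h1)
  convert h4 using 1
  funext t i
  refine Fin.lastCases ?_ (fun k => ?_) i
  · rw [srot_last]
    simp [MeasurableEquiv.piFinSuccAbove, Fin.insertNthEquiv]
  · rw [srot_castSucc]
    simp [MeasurableEquiv.piFinSuccAbove, Fin.insertNthEquiv, Fin.tail]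

end Sx

open Sx in
theorem integral_srot {N : ℕ} (F : Vn (N + 1) → ℝ) :
    ∫ t in simplex (N + 1), F (srot t) = ∫ t in simplex (N + 1), F t := by
  have h := measurePreserving_srot.setIntegral_preimage_emb
    (continuous_srot.measurableEmbedding srot_injective) F (simplex (N + 1))
  rwa [show srot ⁻¹' simplex (N + 1) = simplex (N + 1) from Set.ext srot_mem] at h

end Vale.Agent.P184Z
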