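import Vale.Agent.P184Z.Bia
import Vale.Agent.P184Z.Stk
import Vale.Agent.P184Z.Cal
import Vale.Agent.P184Z.CWa.A

/-!
# Transgression
-/

open scoped ContDiff
open MeasureTheory

noncomputable section

namespace Vale.Agent.P184Z

open Vale.Agent.P184.H38

universe u

namespace CWa

/-- The integral over the prism. -/
def II (n : ℕ) (f : ℝ × Vn n → ℝ) : ℝ := ∫ a in (0 : ℝ)..1, ∫ t in simplex n, f (a, t)

variable {n : ℕ}

theorem int_slice {f : ℝ × Vn n → ℝ} (hf : Continuous f) (a : ℝ) :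
    IntegrableOn (fun t => f (a, t)) (simplex n) :=
  (hf.comp (continuous_const.prodMk continuous_id)).continuousOn.integrableOn_compact
    (isCompact_simplex n)

theorem cont_slice {f : ℝ × Vn n → ℝ} (hf : Continuous f) :
    Continuous fun a => ∫ t in simplex n, f (a, t) :=
  continuous_parametric_integral_of_continuous (f := fun a t => f (a, t)) hf (isCompact_simplex n)

theorem II_add {f g : ℝ × Vn n → ℝ} (hf : Continuous f) (hg : Continuous g) :
    II n (fun z => f z + g z) = II n f + II n g := by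
  unfold II
  rw [← intervalIntegral.integral_add ((cont_slice hf).intervalIntegrable _ _)
    ((cont_slice hg).intervalIntegrable _ _)]
  refine intervalIntegral.integral_congr fun a _ => ?_
  exact integral_add (int_slice hf a) (int_slice hg a)

theorem II_mul (c : ℝ) (f : ℝ × Vn n → ℝ) : II n (fun z => c * f z) = c * II n f := by
  unfold II
  simp only [integral_const_mul, intervalIntegral.integral_const_mul]

theorem II_sum {ι : Type} (s : Finset ι) {f : ι → ℝ × Vn n → ℝ} (hf : ∀ i, Continuous (f i)) :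
    II n (fun z => ∑ i ∈ s, f i z) = ∑ i ∈ s, II n (f i) := by
  classical
  induction s using Finset.induction_on with
  | empty => simp [II]
  | insert i s hi ih =>
      simp only [Finset.sum_insert hi]
      rw [II_add (hf i) (continuous_finsetSum _ fun i _ => hf i), ih]

theorem II_swap {f : ℝ × Vn n → ℝ} (hf : Continuous f) :
    II n f = ∫ t in simplex n, ∫ a in (0 : ℝ)..1, f (a, t) := by
  unfold II
  refine intervalIntegral_integral_swap (f := fun a t => f (a, t)) ?_
  rw [Measure.prod_restrict]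
  have h : IntegrableOn f (Set.Icc (0 : ℝ) 1 ×ˢ simplex n) (volume.prod volume) :=
    hf.continuousOn.integrableOn_compact (isCompact_Icc.prod (isCompact_simplex n))
  refine h.mono_set (Set.prod_mono ?_ le_rfl)
  rw [Set.uIoc_of_le zero_le_one]
  exact Set.Ioc_subset_Icc_self

/-- The linear part of the slice. -/
def slL (n : ℕ) : Vn n →L[ℝ] Vn (n + 1) :=
  ContinuousLinearMap.pi (Fin.snoc (α := fun _ => Vn n →L[ℝ] ℝ)
    (fun i => ContinuousLinearMap.proj i) 0)

theorem sl_eq (t : Vn n) : sl t = slL n t + Pi.single (Fin.last n) 1 := by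
  funext j
  refine Fin.lastCases ?_ (fun i => ?_) j
  · simp [sl, slL]
  · simp [sl, slL, (Fin.castSucc_lt_last i).ne]

theorem slL_single (i : Fin n) : slL n (Pi.single i 1) = ev i := by
  funext j
  refine Fin.lastCases ?_ (fun k => ?_) j
  · simp [ev, slL, (Fin.castSucc_lt_last i).ne']
  · simp [ev, slL, Pi.single_apply]

theorem hasFDerivAt_sl (t : Vn n) : HasFDerivAt sl (slL n) t := by
  rw [funext sl_eq]
  exact (slL n).hasFDerivAt.add_const _

theorem contDiff_sl : ContDiff ℝ ∞ (sl : Vn n → Vn (n + 1)) := by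
  rw [funext sl_eq]
  exact (slL n).contDiff.add contDiff_const

theorem cont_cyl : Continuous fun z : ℝ × Vn n => (z.1, sl z.2) :=
  continuous_fst.prodMk (contDiff_sl.continuous.comp continuous_snd)

theorem cont_fderiv {F : ℝ × Vn (n + 1) → ℝ} (hF : ContDiff ℝ ∞ F) (v : ℝ × Vn (n + 1)) :
    Continuous fun z : ℝ × Vn n => fderiv ℝ F (z.1, sl z.2) v :=
  (((contDiff_infty_iff_fderiv.1 hF).2.continuous).comp cont_cyl).clm_apply continuous_const

/-- Integration in the direction of the segment. -/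
theorem II_time {F : ℝ × Vn (n + 1) → ℝ} (hF : ContDiff ℝ ∞ F) :
    II n (fun z => fderiv ℝ F (z.1, sl z.2) (1, 0)) =
      (∫ t in simplex n, F (1, sl t)) - ∫ t in simplex n, F (0, sl t) := by
  have hc : Continuous fun z : ℝ × Vn n => F (z.1, sl z.2) := hF.continuous.comp cont_cyl
  rw [II_swap (cont_fderiv hF _), ← integral_sub (int_slice hc 1) (int_slice hc 0)]
  refine integral_congr_ae (Filter.Eventually.of_forall fun t => ?_)
  refine intervalIntegral.integral_eq_sub_of_hasDerivAt (f := fun a => F (a, sl t))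
    (fun a _ => ?_) (((cont_fderiv hF (1, 0)).comp
      (continuous_id.prodMk continuous_const)).intervalIntegrable _ _)
  exact (hF.differentiable (by simp) (a, sl t)).hasFDerivAt.comp_hasDerivAt a
    ((hasDerivAt_id a).prodMk (hasDerivAt_const a (sl t)))

theorem cont_sfc (j : Fin (n + 2)) : Continuous (sfc j : Vn n → Vn (n + 1)) := by
  refine continuous_pi fun i => ?_
  unfold sfc
  generalize j.predAbove i.succ.castSucc = k
  refine Fin.cases ?_ (fun k => ?_) k
  · exact continuous_const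
  · exact (continuous_apply k).comp contDiff_sl.continuous

theorem cont_face {F : ℝ × Vn (n + 2) → ℝ} (hF : ContDiff ℝ ∞ F) (j : Fin (n + 2)) :
    Continuous fun z : ℝ × Vn n => F (z.1, sl (sfc j z.2)) :=
  hF.continuous.comp (continuous_fst.prodMk
    (contDiff_sl.continuous.comp ((cont_sfc j).comp continuous_snd)))

/-- Integration in the directions of the simplex. -/
theorem II_space {F : ℝ × Vn (n + 2) → ℝ} (hF : ContDiff ℝ ∞ F) (i : Fin (n + 1)) :
    II (n + 1) (fun z => fderiv ℝ F (z.1, sl z.2) (0, ev i)) =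
      II n (fun z => F (z.1, sl (sfc i.succ z.2))) -
        II n (fun z => F (z.1, sl (sfc i.castSucc z.2))) := by
  unfold II
  rw [← intervalIntegral.integral_sub ((cont_slice (cont_face hF _)).intervalIntegrable _ _)
    ((cont_slice (cont_face hF _)).intervalIntegrable _ _)]
  refine intervalIntegral.integral_congr fun a _ => ?_
  have h := stokes_simplex (fun t => F (a, sl t))
    (hF.comp (contDiff_const.prodMk contDiff_sl)) i
  refine Eq.trans ?_ h
  refine integral_congr_ae (Filter.Eventually.of_forall fun t => ?_)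
  have h2 := (hF.differentiable (by simp) (a, sl t)).hasFDerivAt.comp t
    ((hasFDerivAt_const a t).prodMk (hasFDerivAt_sl t))
  have h3 := congrArg (fun f : Vn (n + 1) →L[ℝ] ℝ => f (Pi.single i 1)) h2.fderiv
  refine Eq.trans ?_ h3.symm
  simp [slL_single]

/-- The linear face maps. -/
def fcL (i : Fin (n + 1)) : Vn (n + 1) →L[ℝ] Vn (n + 2) :=
  ContinuousLinearMap.pi fun j => ContinuousLinearMap.proj (i.predAbove j)

theorem fcL_apply (i : Fin (n + 1)) (s : Vn (n + 1)) : fcL i s = fc i s := rfl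

/-- The linear part of the first face map. -/
def c0L (n : ℕ) : Vn (n + 1) →L[ℝ] Vn (n + 2) :=
  ContinuousLinearMap.pi fun j => ContinuousLinearMap.proj
    (Fin.cons (α := fun _ => Fin (n + 1)) (Fin.last n) id j)

theorem c0L_apply (v : Vn (n + 1)) :
    c0L n v = Fin.cons (α := fun _ => ℝ) (v (Fin.last n)) v := by
  funext j
  exact Fin.cases rfl (fun _ => rfl) j

theorem c0L_add (s : Vn (n + 1)) : c0L n s + -Pi.single 0 1 =
    Fin.cons (α := fun _ => ℝ) (s (Fin.last n) - 1) s := by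
  rw [c0L_apply]
  funext j
  refine Fin.cases ?_ (fun k => ?_) j
  · simp [sub_eq_add_neg]
  · simp

theorem predAbove_val {m : ℕ} (p : Fin m) (i : Fin (m + 1)) :
    (p.predAbove i : ℕ) = if (p : ℕ) < i then (i : ℕ) - 1 else i := by
  unfold Fin.predAbove
  by_cases h : (p : ℕ) < i
  · rw [dif_pos (show p.castSucc < i from h), if_pos h]
    rfl
  · rw [dif_neg (show ¬ p.castSucc < i from h), if_neg h]
    rfl

theorem succAbove_val {k : ℕ} (j : Fin (k + 1)) (i : Fin k) :
    (j.succAbove i : ℕ) = if (i : ℕ) < j then (i : ℕ) else i + 1 := by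
  unfold Fin.succAbove
  by_cases h : (i : ℕ) < j
  · rw [if_pos (show i.castSucc < j from h), if_pos h]
    rfl
  · rw [if_neg (show ¬ i.castSucc < j from h), if_neg h]
    rfl

theorem sl_last (t : Vn n) : sl t (Fin.last n) = 1 := by simp [sl]

theorem sl_castSucc (t : Vn n) (i : Fin n) : sl t i.castSucc = t i := by simp [sl]

theorem sl_sfc_succ (i : Fin (n + 1)) (t : Vn n) : sl (sfc i.succ t) = fc i (sl t) := by
  funext j
  refine Fin.lastCases ?_ (fun k => ?_) j
  · have h : i.predAbove (Fin.last (n + 1)) = Fin.last n := by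
      apply Fin.ext
      have := i.2
      rw [predAbove_val, Fin.val_last, Fin.val_last, if_pos (by omega)]
      rfl
    rw [sl_last, fc, h, sl_last]
  · have h : i.succ.predAbove k.succ.castSucc = (i.predAbove k.castSucc).succ := by
      apply Fin.ext
      simp only [predAbove_val, Fin.val_succ, Fin.val_castSucc]
      split_ifs <;> omega
    rw [sl_castSucc, fc, sfc, h, Fin.cons_succ]

theorem sl_sfc_zero (t : Vn n) : sl (sfc 0 t) = c0L n (sl t) + -Pi.single 0 1 := by
  rw [c0L_add, sl_last, sub_self]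
  funext j
  refine Fin.lastCases ?_ (fun k => ?_) j
  · rw [sl_last, ← Fin.succ_last, Fin.cons_succ, sl_last]
  · have h : (0 : Fin (n + 2)).predAbove k.succ.castSucc = k.castSucc := by
      apply Fin.ext
      rw [predAbove_val, if_pos (by simp)]
      simp
    rw [sl_castSucc, sfc, h]

theorem ev_apply (k : Fin n) (j : Fin (n + 1)) : ev k j = if (j : ℕ) = k then 1 else 0 := by
  simp [ev, Pi.single_apply, Fin.ext_iff]

theorem c0L_ev (k : Fin n) : c0L n (ev k) = ev ((0 : Fin (n + 1)).succAbove k) := by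
  rw [c0L_apply, Fin.succAbove_zero]
  funext j
  have := k.2
  refine Fin.cases ?_ (fun j => ?_) j
  · rw [Fin.cons_zero, ev_apply, ev_apply, Fin.val_last, if_neg (by omega), if_neg (by simp)]
  · simp only [Fin.cons_succ, ev_apply, Fin.val_succ]
    split_ifs <;> first | omega | rfl

theorem fc_ev_last (k : Fin n) : fc (Fin.last n) (ev k) = ev ((Fin.last n).succAbove k) := by
  funext j
  have := k.2
  have := j.2
  simp only [fc, ev_apply, succAbove_val, predAbove_val, Fin.val_last]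
  split_ifs <;> first | omega | rfl

theorem fc_ev_self (k : Fin n) : fc k.castSucc (ev k) =
    ev (k.castSucc.succAbove k) + ev (k.succ.succAbove k) := by
  funext j
  simp only [fc, Pi.add_apply, ev_apply, succAbove_val, predAbove_val, Fin.val_castSucc,
    Fin.val_succ]
  split_ifs <;> first | omega | simp

theorem fc_ev_ne (i k : Fin n) (h : k ≠ i) : ev (i.castSucc.succAbove k) = fc i.castSucc (ev k) ∧
    ev (i.succ.succAbove k) = fc i.castSucc (ev k) := by
  have h' : (k : ℕ) ≠ i := fun h' => h (Fin.ext h')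
  constructor <;>
  · funext j
    simp only [fc, ev_apply, succAbove_val, predAbove_val, Fin.val_castSucc, Fin.val_succ]
    split_ifs <;> first | omega | rfl

variable {θ0 θ1 : Form (n + 2)}

/-- The integrals over the faces. -/
def G (θ0 θ1 : Form (n + 2)) (i : Fin (n + 1)) (j : Fin (n + 2)) : ℝ :=
  II n fun z => W θ0 θ1 (fun k => ev (i.succAbove k)) (z.1, sl (sfc j z.2))

theorem tint_zero (h0 : ContDiff ℝ ∞ θ0) (h1 : ContDiff ℝ ∞ θ1) {ϑ0 ϑ1 : Form (n + 1)}
    (k0 : Face0 θ0 ϑ0) (k1 : Face0 θ1 ϑ1) : tint ϑ0 ϑ1 = G θ0 θ1 0 0 := by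
  unfold tint G II
  simp only [W_pull h0 h1 (c0L n) (-Pi.single 0 1)
    (fun s v => by rw [c0L_add, c0L_apply]; exact k0 s v)
    (fun s v => by rw [c0L_add, c0L_apply]; exact k1 s v), sl_sfc_zero, c0L_ev]

theorem tint_succ (h0 : ContDiff ℝ ∞ θ0) (h1 : ContDiff ℝ ∞ θ1) {ϑ0 ϑ1 : Form (n + 1)}
    {i : Fin (n + 1)} (k0 : Face i θ0 ϑ0) (k1 : Face i θ1 ϑ1) : tint ϑ0 ϑ1 =
      II n fun z => W θ0 θ1 (fun k => fc i (ev k)) (z.1, sl (sfc i.succ z.2)) := by
  unfold tint II
  simp only [W_pull h0 h1 (fcL i) 0 (fun s v => by rw [add_zero]; exact k0 s v)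
    (fun s v => by rw [add_zero]; exact k1 s v), sl_sfc_succ, fcL_apply, add_zero]

theorem tint_last (h0 : ContDiff ℝ ∞ θ0) (h1 : ContDiff ℝ ∞ θ1) {ϑ0 ϑ1 : Form (n + 1)}
    (k0 : Face (Fin.last n) θ0 ϑ0) (k1 : Face (Fin.last n) θ1 ϑ1) :
    tint ϑ0 ϑ1 = G θ0 θ1 (Fin.last n) (Fin.last n).succ := by
  rw [tint_succ h0 h1 k0 k1]
  simp only [fc_ev_last]
  rfl

theorem tint_mid (h0 : ContDiff ℝ ∞ θ0) (h1 : ContDiff ℝ ∞ θ1) {ϑ0 ϑ1 : Form (n + 1)}
    {i : Fin n} (k0 : Face i.castSucc θ0 ϑ0) (k1 : Face i.castSucc θ1 ϑ1) :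
    tint ϑ0 ϑ1 = G θ0 θ1 i.castSucc i.castSucc.succ + G θ0 θ1 i.succ i.succ.castSucc := by
  rw [tint_succ h0 h1 k0 k1, G, G, Fin.succ_castSucc,
    ← II_add (cont_face (contDiff_W h0 h1 _) _) (cont_face (contDiff_W h0 h1 _) _)]
  congr 1
  funext z
  exact W_add θ0 θ1 _ _ _ i (fc_ev_self i) (fun j hj => (fc_ev_ne i j hj).1)
    (fun j hj => (fc_ev_ne i j hj).2) _

theorem top_sub_eq (h0 : ContDiff ℝ ∞ θ0) (h1 : ContDiff ℝ ∞ θ1) : top θ1 - top θ0 =
    ∑ i : Fin (n + 1), (-1 : ℝ) ^ (i : ℕ) * (G θ0 θ1 i i.succ - G θ0 θ1 i i.castSucc) := by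
  have h := II_time (n := n + 1) (contDiff_Sc h0 h1 (List.ofFn fun i => (0, ev i)))
  simp only [wk_cur0 h0 h1, wk_cur1 h0 h1, bianchi_cyl h0 h1] at h
  refine h.symm.trans ?_
  refine (II_sum _ fun i => continuous_const.mul (cont_fderiv (contDiff_W h0 h1 _) _)).trans
    (Finset.sum_congr rfl fun i _ => ?_)
  refine (II_mul _ _).trans ?_
  rw [II_space (contDiff_W h0 h1 _)]
  rfl

end CWa

open CWa in
/-- Stokes' formula on the prism. -/
theorem top_sub (N : ℕ) (_hN : Odd N) : ∃ ε : Fin (N + 2) → ℝ,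
    ∀ (θ0 θ1 : Form (N + 2)) (ϑ0 ϑ1 : Fin (N + 2) → Form (N + 1)),
      ContDiff ℝ ∞ θ0 → ContDiff ℝ ∞ θ1 → Face0 θ0 (ϑ0 0) → Face0 θ1 (ϑ1 0) →
      (∀ i, Face i θ0 (ϑ0 i.succ)) → (∀ i, Face i θ1 (ϑ1 i.succ)) →
      top θ1 - top θ0 = ∑ j, ε j * tint (ϑ0 j) (ϑ1 j) := by
  refine ⟨fun j => -(-1) ^ (j : ℕ), fun θ0 θ1 ϑ0 ϑ1 h0 h1 f0 f1 k0 k1 => ?_⟩
  rw [top_sub_eq h0 h1, Fin.sum_univ_succ (fun j => -(-1) ^ (j : ℕ) * tint (ϑ0 j) (ϑ1 j)),
    Fin.sum_univ_castSucc (fun j : Fin (N + 1) =>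
      -(-1) ^ (j.succ : ℕ) * tint (ϑ0 j.succ) (ϑ1 j.succ)),
    tint_zero h0 h1 f0 f1, tint_last h0 h1 (k0 _) (k1 _)]
  simp only [mul_sub, Finset.sum_sub_distrib]
  rw [Fin.sum_univ_castSucc, Fin.sum_univ_succ
    (fun i : Fin (N + 1) => (-1 : ℝ) ^ (i : ℕ) * G θ0 θ1 i i.castSucc)]
  simp only [tint_mid h0 h1 (k0 _) (k1 _), mul_add, Finset.sum_add_distrib, Fin.val_succ,
    Fin.val_castSucc, Fin.val_zero, Fin.val_last, pow_succ, pow_zero, mul_neg, mul_one, neg_neg,
    neg_mul, one_mul, Finset.sum_neg_distrib, Fin.castSucc_zero]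
  ring

end Vale.Agent.P184Z
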