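import Vale.Agent.P184Z.Cal

/-!
# The tautological form and the normalisation
-/

open scoped ContDiff
open MeasureTheory

set_option linter.unusedSectionVars false

noncomputable section

namespace Vale.Agent.P184Z.SB

variable {N : ℕ}

theorem rots_last (s : Vn (N + 1)) : rots s (Fin.last N) = s 0 + 1 := by simp [rots]

theorem rots_castSucc (s : Vn (N + 1)) (i : Fin N) : rots s i.castSucc = s i.succ := by
  simp [rots, Fin.tail]

theorem rotv_last (s : Vn (N + 1)) : rotv s (Fin.last N) = s 0 := by simp [rotv]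

theorem rotv_castSucc (s : Vn (N + 1)) (i : Fin N) : rotv s i.castSucc = s i.succ := by
  simp [rotv, Fin.tail]

theorem rots_eq (s : Vn (N + 1)) : rots s = rotv s + Pi.single (Fin.last N) 1 := by
  funext i
  refine Fin.lastCases ?_ (fun i => ?_) i
  · simp [rots_last, rotv_last]
  · simp [rots_castSucc, rotv_castSucc, (Fin.castSucc_lt_last i).ne]

/-- The rotation as a linear map. -/
def rotL (N : ℕ) : Vn (N + 1) →L[ℝ] Vn (N + 1) :=
  ContinuousLinearMap.pi fun i => ContinuousLinearMap.proj (finRotate (N + 1) i)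

theorem rotL_apply (v : Vn (N + 1)) : rotL N v = rotv v := by
  funext i
  refine Fin.lastCases ?_ (fun i => ?_) i
  · simp [rotL, rotv_last]
  · rw [rotv_castSucc]
    change v (finRotate (N + 1) i.castSucc) = _
    congr 1
    ext
    rw [coe_finRotate_of_ne_last (Fin.castSucc_lt_last i).ne]
    simp

theorem rots_eq_rotL (s : Vn (N + 1)) : rots s = rotL N s + Pi.single (Fin.last N) 1 := by
  rw [rotL_apply, rots_eq]

theorem rotv_one : rotv (one (N + 1)) = one (N + 1) := by
  rw [← rotL_apply]
  rfl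

theorem rots_add_one (s : Vn (N + 1)) (a : ℝ) : rots (s + a • one _) = rots s + a • one _ := by
  rw [rots_eq_rotL, rots_eq_rotL, map_add, map_smul, rotL_apply (one _), rotv_one, add_right_comm]

theorem sum_rotv (s : Vn (N + 1)) : ∑ i, rotv s i = ∑ i, s i := by
  rw [← rotL_apply]
  exact Equiv.sum_comp (finRotate (N + 1)) s

theorem sum_rots (s : Vn (N + 1)) : ∑ i, rots s i = ∑ i, s i + 1 := by
  simp [rots_eq, Finset.sum_add_distrib, sum_rotv]

theorem thK_apply (s v : Vn (N + 1)) : thK N s v = ∑ i, (rots s i - s i) * v i := by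
  simp [thK, sum_apply]

theorem thK_smooth : ContDiff ℝ ∞ (thK N) := by
  refine ContDiff.sum fun i _ => ContDiff.smul_const ?_ _
  simp only [rots_eq_rotL, Pi.add_apply]
  exact (((contDiff_apply ℝ ℝ i).comp (rotL N).contDiff).add contDiff_const).sub
    (contDiff_apply ℝ ℝ i)

theorem thK_adm : Adm (thK N) where
  smooth := thK_smooth
  trans s a := by
    unfold thK
    simp only [rots_add_one, Pi.add_apply, add_sub_add_right_eq_sub]
  norm s := by simp [thK_apply, one, sum_rots]

theorem cur_thK (s v w : Vn (N + 1)) :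
    cur (thK N) s v w = ∑ i, (rotv v i * w i - rotv w i * v i) := by
  have h1 : ∀ v w : Vn (N + 1), Par.D v (fun s => thK N s w) s = ∑ i, (rotv v i - v i) * w i := by
    intro v w
    have h2 : ∀ i, HasFDerivAt (fun s : Vn (N + 1) => (rots s i - s i) * w i)
        (w i • ((ContinuousLinearMap.proj i).comp (rotL N) - ContinuousLinearMap.proj i)) s := by
      intro i
      simp only [rots_eq_rotL, Pi.add_apply]
      exact ((((ContinuousLinearMap.proj i).comp (rotL N)).hasFDerivAt.add_const _).sub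
        (ContinuousLinearMap.proj (R := ℝ) (φ := fun _ : Fin (N + 1) => ℝ) i).hasFDerivAt).mul_const
          (w i)
    simp only [thK_apply]
    rw [Par.D_of_hasF (HasFDerivAt.fun_sum fun i _ => h2 i)]
    simp [sum_apply, rotL_apply, mul_comm]
  rw [cur_eq_D thK_smooth, h1, h1, ← Finset.sum_sub_distrib]
  exact Finset.sum_congr rfl fun i _ => by ring

theorem thK_rot : Rot (thK N) (thK N) := by
  intro s v
  rw [thK_apply, thK_apply, 
    ← Equiv.sum_comp (finRotate (N + 1)) fun i => (rots s i - s i) * v i]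
  refine Finset.sum_congr rfl fun i _ => ?_
  have h1 : ∀ w : Vn (N + 1), rotv w i = w (finRotate (N + 1) i) := fun w => by
    rw [← rotL_apply]; rfl
  rw [rots_eq (rots s), Pi.add_apply, h1, h1, ← h1 s]
  conv_lhs => rw [show rots s i = rotv s i + (Pi.single (Fin.last N) 1 : Vn (N + 1)) i by
    rw [rots_eq]; rfl]
  ring

theorem fc_succAbove (i : Fin (N + 1)) (s : Vn (N + 1)) (k : Fin (N + 1)) :
    fc i s (i.castSucc.succAbove k) = s k := by
  rw [fc, Fin.predAbove_succAbove]

theorem fc_castSucc (i : Fin (N + 1)) (s : Vn (N + 1)) : fc i s i.castSucc = s i := by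
  rw [fc, Fin.predAbove_castSucc_self]

theorem fc_succ (i : Fin (N + 1)) (s : Vn (N + 1)) : fc i s i.succ = s i := by
  rw [fc, Fin.predAbove_succ_self]

theorem fc_zero (i : Fin (N + 1)) (s : Vn (N + 1)) : fc i s 0 = s 0 := by
  rw [fc, Fin.predAbove_right_zero]

theorem rots_fc (i : Fin (N + 1)) (s : Vn (N + 1)) (k : Fin (N + 1)) :
    rots (fc i s) (i.castSucc.succAbove k) = rots s k := by
  by_cases h : k < i
  · rw [Fin.succAbove_of_castSucc_lt _ _ (by simpa using h), rots_castSucc]
    obtain ⟨k, rfl⟩ := Fin.exists_castSucc_eq.2 (h.trans_le (Fin.le_last i)).ne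
    rw [rots_castSucc, fc, Fin.predAbove_of_le_castSucc _ _ (by
      rw [Fin.le_def]; rw [Fin.lt_def] at h; simp at h ⊢; omega)]
    rfl
  · rw [Fin.succAbove_of_le_castSucc _ _ (by simpa using h)]
    revert h
    refine Fin.lastCases ?_ (fun k => ?_) k
    · intro _
      rw [Fin.succ_last, rots_last, rots_last, fc_zero]
    · intro h
      rw [Fin.succ_castSucc, rots_castSucc, rots_castSucc, fc, Fin.predAbove_of_castSucc_lt _ _ (by
        rw [Fin.lt_def]; rw [Fin.lt_def] at h; simp at h ⊢; omega)]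
      rfl

theorem thK_face (i : Fin (N + 1)) : Face i (thK (N + 1)) (thK N) := by
  intro s v
  rw [thK_apply, thK_apply, Fin.sum_univ_succAbove _ i.castSucc, rots_castSucc, fc_succ,
    fc_castSucc, sub_self, zero_mul, zero_add]
  simp only [rots_fc, fc_succAbove]

theorem thK_face0 : Face0 (thK (N + 1)) (thK N) := by
  intro s v
  have h : ∀ i : Fin N, rots (Fin.cons (s (Fin.last N) - 1) s : Vn (N + 2)) i.castSucc.succ =
      s i.succ := fun i => by
    rw [Fin.succ_castSucc, rots_castSucc, Fin.cons_succ]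
  have h0 : rots (Fin.cons (s (Fin.last N) - 1) s : Vn (N + 2)) 0 = s 0 := by
    rw [← Fin.castSucc_zero, rots_castSucc, Fin.cons_succ]
  have h1 : rots (Fin.cons (s (Fin.last N) - 1) s : Vn (N + 2)) (Fin.last N).succ =
      s (Fin.last N) - 1 + 1 := by
    rw [Fin.succ_last, rots_last, Fin.cons_zero]
  rw [thK_apply, thK_apply, Fin.sum_univ_succ (n := N + 1), Fin.sum_univ_castSucc (n := N),
    Fin.sum_univ_castSucc (n := N), h0, h1, rots_last]
  simp only [h, rots_castSucc, Fin.cons_succ, Fin.cons_zero]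
  ring

/-- The face maps as linear maps. -/
def fcL (i : Fin (N + 1)) : Vn (N + 1) →L[ℝ] Vn (N + 2) :=
  ContinuousLinearMap.pi fun j => ContinuousLinearMap.proj (i.predAbove j)

theorem fcL_apply (i : Fin (N + 1)) (v : Vn (N + 1)) : fcL i v = fc i v := rfl

/-- The linear part of the face map, where the first point disappears. -/
def fc0L (N : ℕ) : Vn (N + 1) →L[ℝ] Vn (N + 2) :=
  ContinuousLinearMap.pi fun j =>
    ContinuousLinearMap.proj ((Fin.cons (Fin.last N) id : Fin (N + 2) → Fin (N + 1)) j)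

theorem fc0L_apply (v : Vn (N + 1)) : fc0L N v = Fin.cons (v (Fin.last N)) v := by
  funext j
  refine Fin.cases rfl (fun j => rfl) j

theorem fc0L_add (s : Vn (N + 1)) :
    fc0L N s + Pi.single 0 (-1) = Fin.cons (s (Fin.last N) - 1) s := by
  rw [fc0L_apply]
  funext j
  refine Fin.cases ?_ (fun j => ?_) j
  · simp [sub_eq_add_neg]
  · simp

/-! ### The normalisation -/

theorem cς_smooth : ContDiff ℝ ∞ cς :=
  Real.smoothTransition.contDiff.comp (by fun_prop)

theorem cς_zero {x : ℝ} (h : x ≤ 1 / 8) : cς x = 0 :=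
  Real.smoothTransition.zero_of_nonpos (by linarith)

theorem cς_one {x : ℝ} (h : 3 / 16 ≤ x) : cς x = 1 :=
  Real.smoothTransition.one_of_one_le (by linarith)

theorem cς_nonneg (x : ℝ) : 0 ≤ cς x := Real.smoothTransition.nonneg _

theorem cς_le_one (x : ℝ) : cς x ≤ 1 := Real.smoothTransition.le_one _

theorem ch_smooth : ContDiff ℝ ∞ ch := by
  refine contDiff_iff_contDiffAt.2 fun x => ?_
  by_cases hx : x = 0
  · refine (contDiffAt_const (c := (0 : ℝ))).congr_of_eventuallyEq ?_
    filter_upwards [Iio_mem_nhds (show x < 1 / 8 by rw [hx]; norm_num)] with y hy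
    rw [ch, cς_zero (le_of_lt hy), zero_div]
  · exact cς_smooth.contDiffAt.div contDiffAt_id hx

theorem ch_mul (x : ℝ) : ch x * x = cς x := by
  by_cases hx : x = 0
  · rw [hx, mul_zero, cς_zero (by norm_num)]
  · exact div_mul_cancel₀ _ hx

theorem ch_nonneg (x : ℝ) : 0 ≤ ch x := by
  by_cases hx : x ≤ 1 / 8
  · rw [ch, cς_zero hx, zero_div]
  · exact div_nonneg (cς_nonneg x) (by linarith)

theorem ch_le (x : ℝ) : ch x ≤ 8 := by
  by_cases hx : x ≤ 1 / 8
  · rw [ch, cς_zero hx, zero_div]; norm_num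
  · rw [ch, div_le_iff₀ (by linarith)]
    linarith [cς_le_one x]

theorem nrm_apply (β : Form (N + 1)) (s v : Vn (N + 1)) :
    nrm β s v = ch (β s (one _)) * β s v + (1 - cς (β s (one _))) * thK N s v := rfl

theorem nrm_smooth {β : Form (N + 1)} (h : ContDiff ℝ ∞ β) : ContDiff ℝ ∞ (nrm β) :=
  ((ch_smooth.comp (sm_form_apply h _)).smul h).add
    ((contDiff_const.sub (cς_smooth.comp (sm_form_apply h _))).smul thK_smooth)

theorem nrm_adm {β : Form (N + 1)} (h : ContDiff ℝ ∞ β)
    (ht : ∀ s (a : ℝ), β (s + a • one _) = β s) : Adm (nrm β) where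
  smooth := nrm_smooth h
  trans s a := by rw [nrm, nrm, ht, thK_adm.trans]
  norm s := by rw [nrm_apply, ch_mul, thK_adm.norm]; ring

theorem nrm_face {i : Fin (N + 1)} {β : Form (N + 2)} {β' : Form (N + 1)} (h : Face i β β') :
    Face i (nrm β) (nrm β') := by
  intro s v
  rw [nrm_apply, nrm_apply, h, h, thK_face i s v]
  rfl

theorem nrm_face0 {β : Form (N + 2)} {β' : Form (N + 1)} (h : Face0 β β') :
    Face0 (nrm β) (nrm β') := by
  intro s v
  have h1 : (Fin.cons (one (N + 1) (Fin.last N)) (one (N + 1)) : Vn (N + 2)) = one _ := by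
    funext j
    refine Fin.cases rfl (fun j => rfl) j
  rw [nrm_apply, nrm_apply, h, h, thK_face0 s v, h1]

theorem nrm_rot {β β' : Form (N + 1)} (h : Rot β β') : Rot (nrm β) (nrm β') := by
  intro s v
  rw [nrm_apply, nrm_apply, h, ← h s (one _), rotv_one, thK_rot s v]

/-- The curvature of the normalised form. -/
theorem cur_nrm {β : Form (N + 1)} (h : ContDiff ℝ ∞ β) (s v w : Vn (N + 1)) :
    cur (nrm β) s v w = ch (β s (one _)) * cur β s v w +
      (1 - cς (β s (one _))) * cur (thK N) s v w +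
      (fderiv ℝ (fun s => β s (one _)) s v *
          (deriv ch (β s (one _)) * β s w - deriv cς (β s (one _)) * thK N s w) -
        fderiv ℝ (fun s => β s (one _)) s w *
          (deriv ch (β s (one _)) * β s v - deriv cς (β s (one _)) * thK N s v)) := by
  have h1 := sm_form_apply h (one (N + 1))
  have h2 : Par.Sm fun s => ch (β s (one _)) := ch_smooth.comp h1
  have h3 : Par.Sm fun s => 1 - cς (β s (one _)) := contDiff_const.sub (cς_smooth.comp h1)
  have h4 : ∀ v, fderiv ℝ (fun s => ch (β s (one _))) s v =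
      deriv ch (β s (one _)) * fderiv ℝ (fun s => β s (one _)) s v := fun v =>
    Par.D_comp_real h1 v s (Par.Sm.diff ch_smooth _).hasDerivAt
  have h5 : ∀ v, fderiv ℝ (fun s => 1 - cς (β s (one _))) s v =
      -deriv cς (β s (one _)) * fderiv ℝ (fun s => β s (one _)) s v := fun v =>
    Par.D_comp_real (φ := fun x => 1 - cς x) h1 v s
      ((Par.Sm.diff cς_smooth _).hasDerivAt.const_sub 1)
  refine (cur_add (h2.smul h) (h3.smul thK_smooth) s v w).trans ?_
  refine (congrArg₂ (· + ·) (cur_smul h2 h s v w) (cur_smul h3 thK_smooth s v w)).trans ?_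
  rw [h4, h4, h5, h5]
  ring

end Vale.Agent.P184Z.SB
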