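import Vale.Agent.P184Z.Bia
import Vale.Agent.P184Z.Stk
import Vale.Agent.P184Z.Cal
import Vale.Agent.P184Z.StrB
import Vale.Agent.P184Z.CWa.A

/-!
# Rotation of the transgression, bounds, the tautological form
-/

open scoped ContDiff
open MeasureTheory

noncomputable section

namespace Vale.Agent.P184Z

open Vale.Agent.P184.H38

universe u

variable {N : ℕ}

namespace CWb

open CWa Bia Vale.Agent.P184.H460

theorem sl_last (t : Vn N) : sl t (Fin.last N) = 1 := by simp [sl]

theorem sl_castSucc (t : Vn N) (i : Fin N) : sl t i.castSucc = t i := by simp [sl]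

theorem alt_rot {V : Type} [AddCommGroup V] [Module ℝ V] {n : ℕ} (hn : Even n)
    (g : V [⋀^Fin (n + 1)]→ₗ[ℝ] ℝ) (e : Fin (n + 1) → V) (o : V)
    (ho : ∀ w, g (Matrix.vecCons o w) = 0) :
    g (Matrix.vecCons (o - ∑ i, e i) fun k => e k.castSucc) = -g e := by
  have h1 : ∀ k : Fin n, g (Matrix.vecCons (e k.castSucc) fun k => e k.castSucc) = 0 := fun k =>
    g.map_eq_zero_of_eq _ (i := 0) (j := k.succ) rfl (Fin.succ_ne_zero k).symm
  have h2 : g (Matrix.vecCons (e (Fin.last n)) fun k => e k.castSucc) = g e := by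
    have h3 : e = (Matrix.vecCons (e (Fin.last n)) fun k => e k.castSucc) ∘ finRotate (n + 1) := by
      funext i
      refine Fin.lastCases ?_ (fun k => ?_) i
      · simp
      · simp [Fin.coeSucc_eq_succ]
    conv_rhs => rw [h3, g.map_perm, sign_finRotate, Nat.add_sub_cancel, hn.neg_one_pow, one_smul]
  rw [← AlternatingMap.curryLeft_apply_apply, map_sub, map_sum, AlternatingMap.sub_apply,
    AlternatingMap.curryLeft_apply_apply, ho, zero_sub, Fin.sum_univ_castSucc,
    AlternatingMap.add_apply, AlternatingMap.curryLeft_apply_apply, h2]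
  have h4 : ∀ s : Finset (Fin n), (∑ k ∈ s, g.curryLeft (e k.castSucc)) (fun k => e k.castSucc) = 0 := by
    intro s
    induction s using Finset.induction_on with
    | empty => simp
    | insert a s ha ih =>
        rw [Finset.sum_insert ha, AlternatingMap.add_apply, ih,
          AlternatingMap.curryLeft_apply_apply, h1, add_zero]
  rw [h4, zero_add]

/-- The transgression form as an alternating map. -/
def Wa {n : ℕ} (θ0 θ1 : Form n) (k : ℕ) (z : ℝ × Vn n) : Vn n [⋀^Fin k]→ₗ[ℝ] ℝ :=
  ((pfA (altF (fderiv ℝ (Th θ0 θ1) z)) (altF_alt _) (k + 1)).curryLeft (1, 0)).compLinearMap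
    (LinearMap.inr ℝ ℝ (Vn n))

theorem Wa_apply {n : ℕ} (θ0 θ1 : Form n) {k : ℕ} (z : ℝ × Vn n) (u : Fin k → Vn n) :
    Wa θ0 θ1 k z u = W θ0 θ1 u z := by
  rw [W_eq_pfA]
  rfl

theorem cur_one {n : ℕ} {θ : Form n} (h : Adm θ) (s v : Vn n) : cur θ s v (one n) = 0 := by
  rw [← fderiv_one h.smooth h.trans, funext h.norm]
  simp

theorem W_one {n : ℕ} {θ0 θ1 : Form n} (h0 : Adm θ0) (h1 : Adm θ1) {k : ℕ} (w : Fin k → Vn n)
    (z : ℝ × Vn n) : W θ0 θ1 (Matrix.vecCons (one n) w) z = 0 := by
  obtain ⟨a, s⟩ := z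
  have key : ∀ x : Option (Vn n), Sc θ0 θ1 (a, s) (em x) (em (some (one n))) = 0 := by
    intro x
    rw [Sc_em h0.smooth h1.smooth]
    rcases x with _ | x
    · simp [ext, h0.norm, h1.norm]
    · simp [ext, cur_one h0, cur_one h1]
  rw [W_eq_pfA, pfA_apply, ← pow_eq_zero_iff two_ne_zero, pf_sq]
  refine Matrix.det_eq_zero_of_column_eq_zero (0 : Fin (k + 1)).succ fun i => ?_
  refine Fin.cases ?_ (fun j => ?_) i
  · exact key none
  · exact key (some _)

theorem cur_trans {n : ℕ} {θ : Form n} (h : Adm θ) (s : Vn n) (a : ℝ) :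
    cur θ (s + a • one n) = cur θ s := by
  have h1 : fderiv ℝ θ (s + a • one n) = fderiv ℝ θ s := by
    rw [← fderiv_comp_add_right, funext fun s => h.trans s a]
  funext v w
  rw [cur, cur, h1]

theorem ext_trans {n : ℕ} {θ0 θ1 : Form n} (h0 : Adm θ0) (h1 : Adm θ1) (a : ℝ) (s : Vn n)
    (c : ℝ) : ext θ0 θ1 a (s + c • one n) = ext θ0 θ1 a s := by
  funext x y
  rcases x with _ | x <;> rcases y with _ | y <;>
    simp only [ext, h0.trans, h1.trans, cur_trans h0, cur_trans h1]

theorem sl_srot (t : Vn (N + 1)) : sl (srot t) = rots (sl t) + (-t 0) • one _ := by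
  funext j
  refine Fin.lastCases ?_ (fun k => ?_) j
  · rw [sl_last, Pi.add_apply, SB.rots_last, ← Fin.castSucc_zero, sl_castSucc]
    simp [one]
  · rw [sl_castSucc, Pi.add_apply, SB.rots_castSucc]
    simp [one, srot, sub_eq_add_neg]

theorem rotv_ev : (fun i : Fin (N + 1) => rotv (ev i)) =
    Matrix.vecCons (one _ - ∑ i, ev i) fun k : Fin N => ev k.castSucc := by
  funext i j
  refine Fin.cases ?_ (fun i => ?_) i
  · refine Fin.lastCases ?_ (fun k => ?_) j
    · simp [SB.rotv_last, ev, one, Finset.sum_apply, (Fin.castSucc_lt_last _).ne']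
    · simp [SB.rotv_castSucc, ev, one, Finset.sum_apply, Pi.single_apply]
  · refine Fin.lastCases ?_ (fun k => ?_) j
    · simp [SB.rotv_last, ev, Pi.single_apply, Fin.ext_iff]
      omega
    · simp [SB.rotv_castSucc, ev, Pi.single_apply, Fin.ext_iff]

theorem abs_wk_le {V : Type} (S : V → V → ℝ) {C : ℝ} (hC : 0 ≤ C) (L : List V)
    (h : ∀ a ∈ L, ∀ b ∈ L, |S a b| ≤ C) : |wk S L| ≤ L.length.factorial * (1 + C) ^ L.length := by
  induction hn : L.length using Nat.strong_induction_on generalizing L with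
  | _ n ih =>
    cases L with
    | nil =>
        rw [wk_nil, ← hn]
        simp
    | cons v L =>
        rw [List.length_cons] at hn
        subst hn
        rw [wk_cons]
        have h1 : ∀ k ∈ (Finset.univ : Finset (Fin L.length)),
            |(-1 : ℝ) ^ (k : ℕ) * S v (L.get k) * wk S (L.eraseIdx k)| ≤
              (1 + C) * (L.length.factorial * (1 + C) ^ L.length) := by
          intro k _
          have h2 := ih (L.eraseIdx k).length (by rw [length_erase_lt]; omega) (L.eraseIdx k)
            (fun a ha b hb => h a (List.mem_cons_of_mem _ (List.mem_of_mem_eraseIdx ha)) b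
              (List.mem_cons_of_mem _ (List.mem_of_mem_eraseIdx hb))) rfl
          rw [length_erase_lt] at h2
          rw [abs_mul, abs_mul, abs_pow, abs_neg, abs_one, one_pow, one_mul]
          refine mul_le_mul ((h v (by simp) _ (by simp)).trans (by linarith)) (h2.trans ?_)
            (abs_nonneg _) (by linarith)
          exact mul_le_mul (by exact_mod_cast Nat.factorial_le (Nat.sub_le _ _))
            (pow_le_pow_right₀ (by linarith) (Nat.sub_le _ _)) (by positivity) (by positivity)
        refine (Finset.abs_sum_le_sum_abs _ _).trans ((Finset.sum_le_sum h1).trans ?_)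
        rw [Finset.sum_const, Finset.card_univ, Fintype.card_fin, nsmul_eq_mul, Nat.factorial_succ,
          pow_succ]
        push_cast
        have h3 : 0 ≤ (1 + C) * (L.length.factorial * (1 + C) ^ L.length) := by positivity
        nlinarith only [h3]

theorem abs_setInt_le (F : Vn N → ℝ) (B : ℝ) (h : ∀ t ∈ simplex N, |F t| ≤ B) :
    |∫ t in simplex N, F t| ≤ B * (volume (simplex N)).toReal :=
  (Real.norm_eq_abs _).symm.trans_le (norm_setIntegral_le_of_norm_le_const (μ := volume) (f := F)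
    (isCompact_simplex N).measure_lt_top h)

/-- The pairing of the tautological form. -/
def S0 (a b : ℕ) : ℝ := (if b + 1 = a then 1 else 0) - if a + 1 = b then 1 else 0

theorem wk_S0 (k a : ℕ) : wk S0 (List.range' a (2 * k)) = (-1) ^ k := by
  induction k generalizing a with
  | zero => simp [wk_nil]
  | succ k ih =>
      rw [Nat.mul_succ, List.range'_succ, List.range'_succ, wk_cons]
      simp only [List.length_cons]
      rw [Fin.sum_univ_succ, Finset.sum_eq_zero, add_zero]
      · simp only [Fin.val_zero, pow_zero, one_mul, List.get_cons_zero, List.eraseIdx_cons_zero, ih]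
        rw [S0, if_neg (by omega), if_pos rfl]
        ring
      · intro j _
        have h : S0 a (((a + 1) :: List.range' (a + 1 + 1) (2 * k)).get j.succ) = 0 := by
          have h1 : ((a + 1) :: List.range' (a + 1 + 1) (2 * k)).get j.succ = a + 1 + 1 + j := by
            simp
          rw [h1, S0, if_neg (by omega), if_neg (by omega), sub_self]
        rw [h, mul_zero, zero_mul]

theorem cur_thK_single (s : Vn (N + 1)) (i j : Fin (N + 1)) :
    cur (thK N) s (Pi.single i 1) (Pi.single j 1) =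
      rotv (Pi.single i 1) j - rotv (Pi.single j 1) i := by
  rw [SB.cur_thK, Finset.sum_sub_distrib]
  simp [Pi.single_apply]

theorem cur_thK_ev (s : Vn (N + 1)) (i j : Fin N) : cur (thK N) s (ev i) (ev j) = S0 i j := by
  rw [ev, ev, cur_thK_single, SB.rotv_castSucc, SB.rotv_castSucc]
  simp [S0, Pi.single_apply, Fin.ext_iff]

end CWb

open CWb

/-- The rotation reverses the orientation. -/
theorem tint_rot (hN : Odd N) {θ0 θ1 ϑ0 ϑ1 : Form (N + 1)} (h0 : Adm θ0) (h1 : Adm θ1)
    (k0 : Adm ϑ0) (k1 : Adm ϑ1) (r0 : Rot θ0 ϑ0) (r1 : Rot θ1 ϑ1) :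
    tint ϑ0 ϑ1 = - tint θ0 θ1 := by
  obtain ⟨n, rfl⟩ : ∃ n, N = n + 1 := ⟨N - 1, by obtain ⟨m, hm⟩ := hN; omega⟩
  have hn : Even n := by
    rw [← Nat.not_odd_iff_even]
    intro h
    exact Nat.not_even_iff_odd.2 hN h.add_one
  have _h := And.intro h0 h1
  unfold tint
  rw [← intervalIntegral.integral_neg]
  refine intervalIntegral.integral_congr fun a _ => ?_
  rw [← integral_neg, ← integral_srot]
  refine integral_congr_ae (Filter.Eventually.of_forall fun t => ?_)
  have e1 := CWa.W_pull k0.smooth k1.smooth (SB.rotL (n + 1)) (Pi.single (Fin.last (n + 1)) 1)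
    (fun s v => by rw [← SB.rots_eq_rotL, SB.rotL_apply]; exact (r0 s v).symm)
    (fun s v => by rw [← SB.rots_eq_rotL, SB.rotL_apply]; exact (r1 s v).symm) a (sl t) ev
  have e2 := CWa.W_pull k0.smooth k1.smooth (ϑ0 := ϑ0) (ϑ1 := ϑ1) (ContinuousLinearMap.id ℝ _) 0
    (fun s v => by simp) (fun s v => by simp) a (rots (sl t)) ev
  simp only [← SB.rots_eq, SB.rotL_apply, ContinuousLinearMap.id_apply, add_zero] at e1 e2
  simp only [sl_srot, ext_trans k0 k1]
  rw [e1, e2, rotv_ev, ← Wa_apply, ← Wa_apply,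
    alt_rot hn _ _ _ fun w => (Wa_apply _ _ _ _).trans (W_one k0 k1 w _), neg_neg]

theorem tint_bound (N : ℕ) (B : ℝ) : ∃ K : ℝ, ∀ θ0 θ1 : Form (N + 1), Crude θ0 B → Crude θ1 B →
    |tint θ0 θ1| ≤ K := by
  refine ⟨(N + 1).factorial * (1 + 2 * |B|) ^ (N + 1) * (volume (simplex N)).toReal * |1 - 0|,
    fun θ0 θ1 h0 h1 => ?_⟩
  refine (Real.norm_eq_abs _).symm.trans_le
    (intervalIntegral.norm_integral_le_of_norm_le_const fun a ha => ?_)
  rw [Set.uIoc_of_le zero_le_one] at ha
  refine (Real.norm_eq_abs _).trans_le (abs_setInt_le _ _ fun t ht => ?_)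
  have hB := le_abs_self B
  have hB0 := abs_nonneg B
  have h := abs_wk_le (ext θ0 θ1 a (sl t)) (C := 2 * |B|) (by positivity)
    (none :: List.ofFn fun i => some (ev i)) (by
      simp only [List.mem_cons, List.mem_ofFn]
      rintro x (rfl | ⟨i, rfl⟩) y (rfl | ⟨j, rfl⟩)
      · simp [ext]
      · refine (abs_sub _ _).trans ?_
        linarith only [(h0 t ht).1 j, (h1 t ht).1 j, hB]
      · refine (abs_sub _ _).trans ?_
        linarith only [(h0 t ht).1 i, (h1 t ht).1 i, hB]
      · refine (abs_add_le _ _).trans ?_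
        rw [abs_mul, abs_mul, abs_of_nonneg (sub_nonneg.2 ha.2), abs_of_pos ha.1]
        have e1 := mul_le_mul_of_nonneg_left (((h0 t ht).2 i j).trans hB) (sub_nonneg.2 ha.2)
        have e2 := mul_le_mul_of_nonneg_left (((h1 t ht).2 i j).trans hB) ha.1.le
        linarith only [e1, e2, hB0])
  simpa only [List.length_cons, List.length_ofFn] using h

theorem top_bound (θ : Form (N + 1)) (B : ℝ)
    (h : ∀ t ∈ simplex N, |wk (cur θ (sl t)) (List.ofFn ev)| ≤ B) :
    |top θ| ≤ B * (volume (simplex N)).toReal := abs_setInt_le _ B h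

theorem face0_of_rot {θ θ' : Form (N + 2)} {ϑ : Form (N + 1)} (h : Rot θ θ')
    (h' : Face (Fin.last N) θ' ϑ) : Face0 θ ϑ := by
  intro s v
  rw [h', ← h]
  congr 2
  · funext j
    refine Fin.lastCases ?_ (fun k => ?_) j
    · rw [SB.rots_last, ← Fin.succ_last, SB.fc_succ]
      simp
    · rw [SB.rots_castSucc, fc, Fin.predAbove_last_castSucc]
      rfl
  · funext j
    refine Fin.lastCases ?_ (fun k => ?_) j
    · rw [SB.rotv_last, ← Fin.succ_last, SB.fc_succ]
      rfl
    · rw [SB.rotv_castSucc, fc, Fin.predAbove_last_castSucc]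
      rfl

theorem succAbove_last_rotp {X : Type*} (σ : X → X) (p : Fin (N + 2) → X) :
    (rotp σ p) ∘ (Fin.last N).succ.succAbove = p ∘ (0 : Fin (N + 2)).succAbove := by
  funext i
  simp [rotp, Fin.tail]

theorem thK_apply (s v : Vn (N + 1)) : thK N s v = ∑ i, (rots s i - s i) * v i :=
  SB.thK_apply s v

theorem thK_adm : Adm (thK N) := SB.thK_adm

theorem thK_face (i : Fin (N + 1)) : Face i (thK (N + 1)) (thK N) := SB.thK_face i

theorem thK_rot : Rot (thK N) (thK N) := SB.thK_rot

theorem cur_thK (s v w : Vn (N + 1)) :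
    cur (thK N) s v w = ∑ i, (rotv v i * w i - rotv w i * v i) := SB.cur_thK s v w

theorem abs_thK_single {s : Vn (N + 1)} (hs : Ord s) (i : Fin (N + 1)) :
    |thK N s (Pi.single i 1)| ≤ 1 := by
  have h : thK N s (Pi.single i 1) = rots s i - s i := by
    rw [thK_apply]
    simp [Pi.single_apply]
  rw [h, abs_le]
  have h2 := hs.2
  refine Fin.lastCases ?_ (fun k => ?_) i
  · have h3 := hs.1 (Fin.zero_le (Fin.last N))
    rw [SB.rots_last]
    constructor <;> linarith
  · have h3 := hs.1 (Fin.zero_le k.castSucc)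
    have h4 := hs.1 (Fin.le_last k.succ)
    have h5 := hs.1 (Fin.castSucc_lt_succ (i := k)).le
    rw [SB.rots_castSucc]
    constructor <;> linarith

theorem ord_sl {t : Vn N} (ht : t ∈ simplex N) : Ord (sl t) ∧ ∀ i, 0 ≤ sl t i ∧ sl t i ≤ 1 := by
  have h : ∀ i, 0 ≤ sl t i ∧ sl t i ≤ 1 := by
    intro i
    refine Fin.lastCases ?_ (fun k => ?_) i
    · rw [sl_last]
      exact ⟨zero_le_one, le_rfl⟩
    · rw [sl_castSucc]
      exact ht.2 k
  refine ⟨⟨fun a b hab => ?_, ?_⟩, h⟩
  · induction b using Fin.lastCases with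
    | last =>
        rw [sl_last]
        exact (h a).2
    | cast k =>
        obtain ⟨j, rfl⟩ := Fin.exists_castSucc_eq.2 (hab.trans_lt (Fin.castSucc_lt_last k)).ne
        rw [sl_castSucc, sl_castSucc]
        exact ht.1 (Fin.castSucc_le_castSucc_iff.1 hab)
  · rw [sl_last]
    linarith only [(h 0).1]

theorem thK_crude : Crude (thK N) 2 := by
  intro t ht
  refine ⟨fun i => (abs_thK_single (ord_sl ht).1 _).trans one_le_two, fun i j => ?_⟩
  rw [cur_thK_ev, S0]
  split_ifs <;> norm_num

theorem top_thK (hN : Even N) : |top (thK N)| = (volume (simplex N)).toReal := by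
  obtain ⟨k, hk⟩ := hN
  have h : ∀ s : Vn (N + 1), wk (cur (thK N) s) (List.ofFn ev) = (-1) ^ k := by
    intro s
    have h1 := wk_map (fun i j : Fin N => S0 i j) (cur (thK N) s) ev (List.ofFn id)
      fun a _ b _ => cur_thK_ev s a b
    have h2 := wk_map (fun i j : Fin N => S0 i j) S0 Fin.val (List.ofFn id) fun a _ b _ => rfl
    rw [List.map_ofFn] at h1 h2
    have h3 : List.ofFn (Fin.val ∘ id : Fin N → ℕ) = List.range' 0 (2 * k) := by
      apply List.ext_getElem
      · simp
        omega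
      · intro m _ _
        simp
    rw [h3, wk_S0] at h2
    exact h1.trans h2.symm
  simp only [top, h]
  rw [setIntegral_const, smul_eq_mul, abs_mul, abs_pow, abs_neg, abs_one, one_pow, mul_one,
    abs_of_nonneg measureReal_nonneg]
  rfl

end Vale.Agent.P184Z
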