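import Vale.Agent.P184Z.Str
import Vale.Agent.P184Z.PrimB

/-!
# The form does not vanish on the generator of the translations
-/

open scoped ContDiff
open MeasureTheory

noncomputable section

namespace Vale.Agent.P184Z

open Vale.Agent.P184.H38

universe u

variable {X : Type u} {M : ℕ} [NeZero M] {g : Geo X M} {P : Sp} {η0 η : ℝ} (κ : Kit M η0 η)
  {N : ℕ} {C : Type} [Fintype C] {lab : X → Lb M C}

/-- The pointwise bound for the integrand. -/
theorem cover_pt (hP : Ok g P) (hl : IsLab g lab) (p : Fin (N + 1) → X) {s : Vn (N + 1)}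
    (hs : Ord s) {Y : Finset X} (h0 : Fld g (prim g κ.k0.Φ 1 p) Y)
    (h1 : Fld g (prim g κ.k1.Φ 1 p) Y) (τ V : ℝ) {y0 : X}
    (hV : prim g κ.k0.Φ 1 p y0 (s, τ) ≤ V) :
    3 / 8 - V / P.R0 ≤
      (∑ y ∈ Y, 1 / P.ρ * gF P.b P.R0 (prim g κ.k0.Φ 1 p) y (s, τ) ^ 2 *
        (prim g κ.k2.Φ 1 p y (s, τ) - prim g κ.k0.Φ 1 p y (s, τ))) +
      (∑ l, uu g P κ (prim g κ.k1.Φ 1 p) lab l (s, τ) ^ 2) / 2 := by
  obtain ⟨hρ, hR0, -, -, hR0b, -⟩ := hP.pos
  have hb : 0 ≤ P.b := zero_le_one.trans hP.one_le_b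
  have hU : 0 ≤ ∑ l, uu g P κ (prim g κ.k1.Φ 1 p) lab l (s, τ) ^ 2 :=
    Finset.sum_nonneg fun _ _ => sq_nonneg _
  have hV0 : 0 ≤ V / P.R0 :=
    div_nonneg ((prim_nonneg g κ.k0 κ.M_pos p hs y0 τ).trans hV) hR0.le
  have hle := h0.sum_gF_le P.b hR0 hR0b (s, τ)
  have hq : P.R0 / P.ρ ≤ 1 / 8 := by
    rw [div_le_iff₀ hρ]
    linarith [hP.R0_le]
  have hq0 : 0 ≤ P.R0 / P.ρ := div_nonneg hR0.le hρ.le
  have key : ∀ a : ℝ, (∀ y, a ≤ prim g κ.k2.Φ 1 p y (s, τ)) →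
      (a / P.ρ - P.R0 / P.ρ) * ∑ y ∈ Y, gF P.b P.R0 (prim g κ.k0.Φ 1 p) y (s, τ) ^ 2 ≤
        ∑ y ∈ Y, 1 / P.ρ * gF P.b P.R0 (prim g κ.k0.Φ 1 p) y (s, τ) ^ 2 *
          (prim g κ.k2.Φ 1 p y (s, τ) - prim g κ.k0.Φ 1 p y (s, τ)) := by
    intro a ha
    rw [Finset.mul_sum]
    refine Finset.sum_le_sum fun y _ => ?_
    by_cases hz : gF P.b P.R0 (prim g κ.k0.Φ 1 p) y (s, τ) = 0
    · simp [hz]
    · have h2 := lt_of_gF_ne_zero hR0 hz
      have h3 : 0 ≤ 1 / P.ρ * gF P.b P.R0 (prim g κ.k0.Φ 1 p) y (s, τ) ^ 2 := by positivity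
      calc _ = 1 / P.ρ * gF P.b P.R0 (prim g κ.k0.Φ 1 p) y (s, τ) ^ 2 * (a - P.R0) := by ring
        _ ≤ _ := mul_le_mul_of_nonneg_left (by linarith [ha y]) h3
  have k0 := key 0 fun y => prim_nonneg g κ.k2 κ.M_pos p hs y τ
  have k0' : -(1 / 8) ≤ ∑ y ∈ Y, 1 / P.ρ * gF P.b P.R0 (prim g κ.k0.Φ 1 p) y (s, τ) ^ 2 *
      (prim g κ.k2.Φ 1 p y (s, τ) - prim g κ.k0.Φ 1 p y (s, τ)) := by
    refine le_trans ?_ k0
    rw [zero_div, zero_sub]
    nlinarith [mul_le_mul_of_nonneg_left hle hq0]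
  by_cases hc : V ≤ P.R0 / 2
  · have he := h0.sum_gF_eq hb hR0 hR0b (s, τ) (hV.trans hc)
    by_cases hy : ∃ y, prim g κ.k2.Φ 1 p y (s, τ) ≤ P.ρ
    · obtain ⟨y, hy⟩ := hy
      have hD := Fld.D1_le κ hP h1 y s τ
        (fun r y y' => prim_tri g κ.k1 κ.M_pos p hs y y' r) fun r hr => by
          have := prim_cmp g κ p hs y τ r hr
          unfold Sp.R
          linarith
      rw [Fld.sum_uu_eq κ hP h1 hl (s, τ) hD]
      linarith
    · have k1 := key P.ρ fun y => (not_le.1 fun h => hy ⟨y, h⟩).le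
      rw [he, div_self hρ.ne'] at k1
      linarith
  · have : 1 / 2 ≤ V / P.R0 := by
      rw [le_div_iff₀ hR0]
      linarith [not_le.1 hc]
    linarith

theorem cover (hP : Ok g P) (hl : IsLab g lab) (p : Fin (N + 1) → X) {s : Vn (N + 1)}
    (hs : Ord s) (hgood : 48 * η0 * ∑ j, len g p j ≤ P.R0) :
    1 / 4 ≤ betp g P κ p lab s (one _) := by
  obtain ⟨hρ, hR0, -, -, hR0b, -⟩ := hP.pos
  obtain ⟨Y, hY⟩ := exists_fld g p
  obtain ⟨V, hVi, hVI, hV⟩ := exists_V g κ p hs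
  have h0 := hY _ κ.k0.smooth
  have h1 := hY _ κ.k1.smooth
  have hE : ∀ y, ContDiff ℝ ∞ (prim g κ.Ψ κ.c p y) := fun y => contDiff_prim g κ.smooth _ p y
  have hG : ∀ y, ContDiff ℝ ∞ fun z =>
      1 / P.ρ * gF P.b P.R0 (prim g κ.k0.Φ 1 p) y z ^ 2 := fun y =>
    contDiff_const.mul ((h0.gF_smooth P.b hR0 hR0b y).pow 2)
  have hu := fun l => Fld.uu_smooth κ hP h1 lab l
  have hW := fun l => Fld.WW_smooth κ hP h1 lab l
  have hsl := slow_one κ hP hl p s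
  have ht : Continuous fun τ : ℝ => ((s, τ) : En (N + 1)) := by fun_prop
  have cA : Continuous fun τ : ℝ =>
      ∑ y ∈ Y, 1 / P.ρ * gF P.b P.R0 (prim g κ.k0.Φ 1 p) y (s, τ) ^ 2 *
        (prim g κ.k2.Φ 1 p y (s, τ) - prim g κ.k0.Φ 1 p y (s, τ)) :=
    continuous_finsetSum _ fun y _ => ((hG y).continuous.comp ht).mul
      (((contDiff_prim g κ.k2.smooth _ p y).continuous.comp ht).sub
        ((contDiff_prim g κ.k0.smooth _ p y).continuous.comp ht))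
  have cU : Continuous fun τ : ℝ =>
      (∑ l, uu g P κ (prim g κ.k1.Φ 1 p) lab l (s, τ) ^ 2) / 2 :=
    (continuous_finsetSum _ fun l _ => ((hu l).continuous.comp ht).pow 2).div_const _
  have hI := intervalIntegral.integral_mono_on (μ := volume) zero_le_one
    (intervalIntegrable_const.sub (hVi.div_const P.R0))
    ((cA.intervalIntegrable 0 1).add (cU.intervalIntegrable 0 1)) fun τ _ => by
      obtain ⟨y0, hy0⟩ := hV τ
      exact cover_pt κ hP hl p hs h0 h1 τ (V τ) hy0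
  rw [intervalIntegral.integral_sub intervalIntegrable_const (hVi.div_const P.R0),
    intervalIntegral.integral_add (cA.intervalIntegrable 0 1) (cU.intervalIntegrable 0 1),
    intervalIntegral.integral_const, intervalIntegral.integral_div,
    intervalIntegral.integral_div] at hI
  have hq : (∫ τ in (0 : ℝ)..1, V τ) / P.R0 ≤ 1 / 8 := by
    rw [div_le_iff₀ hR0]
    linarith
  rw [betp, bet_eq κ hP h0 h1 hE lab, add_apply,
    form_int_apply Y _ _ hG hE, form_int_apply Finset.univ _ _ hW hu]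
  simp only [pd_primE_one]
  simp only [sub_zero, one_smul] at hI
  linarith

end Vale.Agent.P184Z
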