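import Mathlib

/-!
# Smooth Gibbs weights with an absolute gradient bound

For `D : X → ℝ` the vector `uu b R D : X → ℝ` is supported where `D < R`, has norm at most one, and
norm one as soon as some `D x ≤ R / 2`.  Its derivative is bounded in `ℓ²` by the weighted `ℓ²` norm of
the derivative of `D`, for weights `WW` of total mass at most `CG * b ^ 2`, provided at most
`exp (b R / 4)` points have `D x < R`.
-/

open Finset

namespace Vale.Agent.P184Z.Gb

noncomputable section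

/-- The smooth step. -/
abbrev sT : ℝ → ℝ := Real.smoothTransition

theorem sT_diff : Differentiable ℝ sT :=
  (Real.smoothTransition.contDiff (n := 1)).differentiable (by simp)

theorem deriv_sT_of_nonpos {x : ℝ} (h : x ≤ 0) : deriv sT x = 0 := by
  refine IsLocalMin.deriv_eq_zero (Filter.Eventually.of_forall fun y => ?_)
  rw [show sT x = 0 from Real.smoothTransition.zero_of_nonpos h]
  exact Real.smoothTransition.nonneg y

theorem deriv_sT_of_one_le {x : ℝ} (h : 1 ≤ x) : deriv sT x = 0 := by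
  refine IsLocalMax.deriv_eq_zero (Filter.Eventually.of_forall fun y => ?_)
  rw [show sT x = 1 from Real.smoothTransition.one_of_one_le h]
  exact Real.smoothTransition.le_one y

theorem continuous_deriv_sT : Continuous (deriv sT) :=
  (Real.smoothTransition.contDiff (n := 1)).continuous_deriv (by simp)

theorem exists_cT : ∃ c : ℝ, 1 ≤ c ∧ ∀ x, |deriv sT x| ≤ c := by
  obtain ⟨c, hc⟩ := (isCompact_Icc (a := (0 : ℝ)) (b := 1)).exists_bound_of_continuousOn
    continuous_deriv_sT.continuousOn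
  refine ⟨max c 1, le_max_right _ _, fun x => ?_⟩
  by_cases h0 : x ≤ 0
  · rw [deriv_sT_of_nonpos h0]; simp
  by_cases h1 : 1 ≤ x
  · rw [deriv_sT_of_one_le h1]; simp
  exact (hc x ⟨(not_le.1 h0).le, (not_le.1 h1).le⟩).trans (le_max_left _ _)

/-- An absolute bound of the derivative of the smooth step. -/
def cT : ℝ := Classical.choose exists_cT

theorem one_le_cT : 1 ≤ cT := (Classical.choose_spec exists_cT).1

theorem abs_deriv_sT_le (x : ℝ) : |deriv sT x| ≤ cT := (Classical.choose_spec exists_cT).2 x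

/-- The absolute constant of the Gibbs bounds. -/
def CG : ℝ := 65 * cT ^ 2

theorem one_le_CG : 1 ≤ CG := by
  have := one_le_cT
  unfold CG; nlinarith

theorem CG_pos : 0 < CG := zero_lt_one.trans_le one_le_CG

/-- The square root of the cut off Boltzmann factor. -/
def gg (b R t : ℝ) : ℝ := Real.exp (-(b * t) / 2) * sT (4 - 4 * t / R)

/-- The derivative of `gg`. -/
def g1 (b R t : ℝ) : ℝ :=
  Real.exp (-(b * t) / 2) * (-(b / 2) * sT (4 - 4 * t / R) - 4 / R * deriv sT (4 - 4 * t / R))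

/-- The cut off normalisation `z ↦ z ^ (-1/2)`. -/
def ph (a z : ℝ) : ℝ := sT (2 * Real.exp (a / 2) * z - 1) / √z

theorem gg_nonneg (b R t : ℝ) : 0 ≤ gg b R t :=
  mul_nonneg (Real.exp_pos _).le (Real.smoothTransition.nonneg _)

theorem arg_nonpos {R t : ℝ} (hR : 0 < R) (h : R ≤ t) : 4 - 4 * t / R ≤ 0 := by
  have : 4 ≤ 4 * t / R := by rw [le_div_iff₀ hR]; linarith
  linarith

theorem one_le_arg {R t : ℝ} (hR : 0 < R) (h : t ≤ 3 * R / 4) : 1 ≤ 4 - 4 * t / R := by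
  have : 4 * t / R ≤ 3 := by rw [div_le_iff₀ hR]; linarith
  linarith

theorem gg_eq_zero {b R t : ℝ} (hR : 0 < R) (h : R ≤ t) : gg b R t = 0 := by
  unfold gg
  rw [show sT (4 - 4 * t / R) = 0 from Real.smoothTransition.zero_of_nonpos (arg_nonpos hR h),
    mul_zero]

theorem g1_eq_zero {b R t : ℝ} (hR : 0 < R) (h : R ≤ t) : g1 b R t = 0 := by
  unfold g1
  rw [show sT (4 - 4 * t / R) = 0 from Real.smoothTransition.zero_of_nonpos (arg_nonpos hR h),
    deriv_sT_of_nonpos (arg_nonpos hR h)]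
  simp

theorem gg_sq_of_le {b R t : ℝ} (hR : 0 < R) (h : t ≤ 3 * R / 4) :
    gg b R t ^ 2 = Real.exp (-(b * t)) := by
  unfold gg
  rw [show sT (4 - 4 * t / R) = 1 from Real.smoothTransition.one_of_one_le (one_le_arg hR h),
    mul_one, sq, ← Real.exp_add]
  congr 1; ring

theorem contDiff_gg (b R : ℝ) {n : ℕ∞} : ContDiff ℝ n (gg b R) := by
  unfold gg
  refine ContDiff.mul (by fun_prop) (Real.smoothTransition.contDiff.comp (by fun_prop))

theorem hasDerivAt_gg (b R t : ℝ) : HasDerivAt (gg b R) (g1 b R t) t := by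
  have h1 : HasDerivAt (fun t : ℝ => -(b * t) / 2) (-(b / 2)) t := by
    have := (((hasDerivAt_id' t).const_mul b).neg).div_const 2
    exact this.congr_deriv (by ring)
  have h2 : HasDerivAt (fun t : ℝ => 4 - 4 * t / R) (-(4 / R)) t := by
    have := (((hasDerivAt_id' t).const_mul 4).div_const R).const_sub 4
    exact this.congr_deriv (by ring)
  have h3 := (sT_diff (4 - 4 * t / R)).hasDerivAt.comp t h2
  have h4 := h1.exp.mul h3
  exact h4.congr_deriv (by simp only [g1, Function.comp]; ring)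

theorem continuous_g1 (b R : ℝ) : Continuous (g1 b R) := by
  unfold g1
  have h1 := Real.smoothTransition.continuous
  have h2 := continuous_deriv_sT
  fun_prop

theorem g1_sq_le {b R t : ℝ} (hR : 0 < R) (hb : 1 ≤ b * R) :
    g1 b R t ^ 2 ≤ b ^ 2 / 2 * gg b R t ^ 2 +
      if t < R then 32 * cT ^ 2 * b ^ 2 * Real.exp (-(3 * (b * R) / 4)) else 0 := by
  have hb0 : 0 < b := by by_contra h; nlinarith [not_lt.1 h]
  by_cases h : t < R
  swap
  · rw [g1_eq_zero hR (not_lt.1 h), if_neg h, gg_eq_zero hR (not_lt.1 h)]; simp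
  rw [if_pos h]
  set E := Real.exp (-(b * t) / 2) with hE
  set s := sT (4 - 4 * t / R)
  set d := deriv sT (4 - 4 * t / R) with hd
  have h1 : g1 b R t ^ 2 ≤ b ^ 2 / 2 * gg b R t ^ 2 + 2 * (E * (4 / R * d)) ^ 2 := by
    have e1 : g1 b R t = -(b / 2 * gg b R t) - E * (4 / R * d) := by
      simp only [g1, gg]; ring
    rw [e1]
    nlinarith [sq_nonneg (b / 2 * gg b R t - E * (4 / R * d))]
  refine h1.trans (add_le_add le_rfl ?_)
  by_cases h3 : t ≤ 3 * R / 4
  · rw [hd, deriv_sT_of_one_le (one_le_arg hR h3)]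
    have : (0 : ℝ) ≤ 32 * cT ^ 2 * b ^ 2 * Real.exp (-(3 * (b * R) / 4)) := by positivity
    simpa using this
  have h4 : E ^ 2 ≤ Real.exp (-(3 * (b * R) / 4)) := by
    rw [hE, sq, ← Real.exp_add]
    apply Real.exp_le_exp.2
    nlinarith [not_le.1 h3]
  have h5 : d ^ 2 ≤ cT ^ 2 := sq_le_sq' (abs_le.1 (abs_deriv_sT_le _)).1 (abs_le.1 (abs_deriv_sT_le _)).2
  have h6 : (4 / R) ^ 2 ≤ 16 * b ^ 2 := by
    have : 4 / R ≤ 4 * b := by rw [div_le_iff₀ hR]; linarith
    have h0 : 0 ≤ 4 / R := by positivity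
    nlinarith
  calc 2 * (E * (4 / R * d)) ^ 2 = 2 * (E ^ 2 * ((4 / R) ^ 2 * d ^ 2)) := by ring
    _ ≤ 2 * (Real.exp (-(3 * (b * R) / 4)) * (16 * b ^ 2 * cT ^ 2)) := by gcongr
    _ = _ := by ring

theorem ph_nonneg (a z : ℝ) : 0 ≤ ph a z :=
  div_nonneg (Real.smoothTransition.nonneg _) (Real.sqrt_nonneg _)

theorem ph_eq_zero {a z : ℝ} (h : z ≤ Real.exp (-(a / 2)) / 2) : ph a z = 0 := by
  unfold ph
  have h1 : Real.exp (a / 2) * Real.exp (-(a / 2)) = 1 := by rw [← Real.exp_add]; simp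
  have h2 : 2 * Real.exp (a / 2) * z - 1 ≤ 0 := by nlinarith [Real.exp_pos (a / 2)]
  rw [show sT _ = 0 from Real.smoothTransition.zero_of_nonpos h2, zero_div]

theorem ph_eq {a z : ℝ} (h : Real.exp (-(a / 2)) ≤ z) : ph a z = 1 / √z := by
  unfold ph
  have h1 : Real.exp (a / 2) * Real.exp (-(a / 2)) = 1 := by rw [← Real.exp_add]; simp
  have h2 : 1 ≤ 2 * Real.exp (a / 2) * z - 1 := by nlinarith [Real.exp_pos (a / 2)]
  rw [show sT _ = 1 from Real.smoothTransition.one_of_one_le h2]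

theorem contDiff_ph (a : ℝ) {n : ℕ∞} : ContDiff ℝ n (ph a) := by
  refine contDiff_iff_contDiffAt.2 fun z => ?_
  by_cases hz : 0 < z
  · unfold ph
    refine ContDiffAt.div (Real.smoothTransition.contDiffAt.comp z (by fun_prop))
      (Real.contDiffAt_sqrt hz.ne') (Real.sqrt_pos.2 hz).ne'
  · have h0 : z < Real.exp (-(a / 2)) / 2 := (not_lt.1 hz).trans_lt (by positivity)
    refine (contDiffAt_const (c := (0 : ℝ))).congr_of_eventuallyEq ?_
    filter_upwards [Iio_mem_nhds h0] with y hy using ph_eq_zero (le_of_lt hy)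

theorem ph_sq_le (a z : ℝ) : ph a z ^ 2 ≤ 1 / max z (Real.exp (-(a / 2)) / 2) := by
  by_cases h : z ≤ Real.exp (-(a / 2)) / 2
  · rw [ph_eq_zero h]; simp only [ne_eq, OfNat.ofNat_ne_zero, not_false_eq_true, zero_pow]
    positivity
  have h1 := not_le.1 h
  have hz : 0 < z := lt_trans (by positivity) h1
  rw [max_eq_left h1.le, ph, div_pow, Real.sq_sqrt hz.le]
  gcongr
  have := Real.smoothTransition.nonneg (2 * Real.exp (a / 2) * z - 1)
  have := Real.smoothTransition.le_one (2 * Real.exp (a / 2) * z - 1)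
  nlinarith

theorem deriv_ph_sq_le (a z : ℝ) :
    (z * deriv (ph a) z) ^ 2 ≤ 7 * cT ^ 2 / max z (Real.exp (-(a / 2)) / 2) := by
  have hc := one_le_cT
  by_cases h : z ≤ Real.exp (-(a / 2)) / 2
  · have : deriv (ph a) z = 0 := by
      refine IsLocalMin.deriv_eq_zero (Filter.Eventually.of_forall fun y => ?_)
      rw [ph_eq_zero h]; exact ph_nonneg a y
    rw [this]; simp only [mul_zero, ne_eq, OfNat.ofNat_ne_zero, not_false_eq_true, zero_pow]
    positivity
  have h1 := not_le.1 h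
  have hz : 0 < z := lt_trans (by positivity) h1
  have hs : 0 < √z := Real.sqrt_pos.2 hz
  have hs2 : √z * √z = z := Real.mul_self_sqrt hz.le
  have h2 : HasDerivAt (fun z : ℝ => 2 * Real.exp (a / 2) * z - 1) (2 * Real.exp (a / 2)) z := by
    simpa using ((hasDerivAt_id z).const_mul (2 * Real.exp (a / 2))).sub_const 1
  have h3 := ((sT_diff _).hasDerivAt.comp z h2).div (Real.hasDerivAt_sqrt hz.ne') hs.ne'
  have h4 : deriv (ph a) z = _ := h3.deriv
  set s := sT (2 * Real.exp (a / 2) * z - 1) with hsdef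
  set d := deriv sT (2 * Real.exp (a / 2) * z - 1) with hd
  have h5 : z * deriv (ph a) z = (d * (2 * Real.exp (a / 2) * z) - s / 2) / √z := by
    rw [h4]
    simp only [Function.comp, ← hsdef]
    rw [Real.sq_sqrt hz.le]
    field_simp
    rw [Real.sq_sqrt hz.le]; ring
  have hs0 : 0 ≤ s := Real.smoothTransition.nonneg _
  have hs1 : s ≤ 1 := Real.smoothTransition.le_one _
  have h6 : |d * (2 * Real.exp (a / 2) * z)| ≤ 2 * cT := by
    by_cases h7 : 1 ≤ 2 * Real.exp (a / 2) * z - 1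
    · rw [hd, deriv_sT_of_one_le h7]; simp; linarith
    · rw [abs_mul, abs_of_nonneg (by positivity : 0 ≤ 2 * Real.exp (a / 2) * z), mul_comm 2 cT]
      exact mul_le_mul (abs_deriv_sT_le _) (by linarith) (by positivity) (by linarith)
  rw [max_eq_left h1.le, h5, div_pow, Real.sq_sqrt hz.le]
  gcongr
  have := abs_le.1 h6
  nlinarith

variable {X Y : Type*}

/-- The partition function. -/
def ZZ (b R : ℝ) (D : X → ℝ) : ℝ := ∑ᶠ x, gg b R (D x) ^ 2

/-- The square roots of the Gibbs weights. -/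
def uu (b R : ℝ) (D : X → ℝ) (x : X) : ℝ := gg b R (D x) * ph (b * R) (ZZ b R D)

/-- The Gibbs weights. -/
def lam (b R : ℝ) (D : X → ℝ) (x : X) : ℝ := uu b R D x ^ 2

/-- The weights which control the derivative of `uu`. -/
def WW (b R : ℝ) (D : X → ℝ) (y : X) : ℝ :=
  g1 b R (D y) ^ 2 / max (ZZ b R D) (Real.exp (-(b * R / 2)) / 2)

theorem ZZ_comp (b R : ℝ) (D : X → ℝ) (σ : Y ≃ X) : ZZ b R (fun y => D (σ y)) = ZZ b R D :=
  finsum_comp_equiv σ (f := fun x => gg b R (D x) ^ 2)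

theorem uu_comp (b R : ℝ) (D : X → ℝ) (σ : Y ≃ X) (y : Y) :
    uu b R (fun y => D (σ y)) y = uu b R D (σ y) := by
  simp only [uu, ZZ_comp]

theorem lam_comp (b R : ℝ) (D : X → ℝ) (σ : Y ≃ X) (y : Y) :
    lam b R (fun y => D (σ y)) y = lam b R D (σ y) := by
  simp only [lam, uu_comp]

theorem WW_comp (b R : ℝ) (D : X → ℝ) (σ : Y ≃ X) (y : Y) :
    WW b R (fun y => D (σ y)) y = WW b R D (σ y) := by
  simp only [WW, ZZ_comp]

theorem ZZ_nonneg (b R : ℝ) (D : X → ℝ) : 0 ≤ ZZ b R D := finsum_nonneg fun _ => sq_nonneg _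

theorem uu_nonneg (b R : ℝ) (D : X → ℝ) (x : X) : 0 ≤ uu b R D x :=
  mul_nonneg (gg_nonneg _ _ _) (ph_nonneg _ _)

theorem lam_nonneg (b R : ℝ) (D : X → ℝ) (x : X) : 0 ≤ lam b R D x := sq_nonneg _

theorem WW_nonneg (b R : ℝ) (D : X → ℝ) (y : X) : 0 ≤ WW b R D y := by
  unfold WW; positivity

variable {b R : ℝ} {D : X → ℝ} {T : Finset X}

theorem uu_eq_zero (hR : 0 < R) {x : X} (h : R ≤ D x) : uu b R D x = 0 := by
  rw [uu, gg_eq_zero hR h, zero_mul]

theorem lam_eq_zero (hR : 0 < R) {x : X} (h : R ≤ D x) : lam b R D x = 0 := by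
  rw [lam, uu_eq_zero hR h]; simp

theorem WW_eq_zero (hR : 0 < R) {x : X} (h : R ≤ D x) : WW b R D x = 0 := by
  rw [WW, g1_eq_zero hR h]; simp

theorem lt_of_uu_ne_zero (hR : 0 < R) {x : X} (h : uu b R D x ≠ 0) : D x < R :=
  not_le.1 fun h' => h (uu_eq_zero hR h')

theorem lt_of_lam_ne_zero (hR : 0 < R) {x : X} (h : lam b R D x ≠ 0) : D x < R :=
  not_le.1 fun h' => h (lam_eq_zero hR h')

theorem ZZ_eq (hR : 0 < R) (hT : ∀ x ∉ T, R ≤ D x) : ZZ b R D = ∑ x ∈ T, gg b R (D x) ^ 2 := by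
  refine finsum_eq_sum_of_support_subset _ fun x hx => ?_
  by_contra h
  exact hx (by simp only [gg_eq_zero hR (hT x h)]; simp)

theorem max_pos (b R : ℝ) (D : X → ℝ) : 0 < max (ZZ b R D) (Real.exp (-(b * R / 2)) / 2) :=
  lt_max_of_lt_right (by positivity)

theorem sum_lam_eq (hR : 0 < R) (hT : ∀ x ∉ T, R ≤ D x) :
    ∑ x ∈ T, lam b R D x = ZZ b R D * ph (b * R) (ZZ b R D) ^ 2 := by
  simp only [lam, uu, mul_pow, ← Finset.sum_mul, ← ZZ_eq hR hT]

/-- The Gibbs weights have total mass at most one. -/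
theorem sum_lam_le_one (hR : 0 < R) (hT : ∀ x ∉ T, R ≤ D x) : ∑ x ∈ T, lam b R D x ≤ 1 := by
  rw [sum_lam_eq hR hT]
  have h1 := max_pos b R D
  calc _ ≤ max (ZZ b R D) (Real.exp (-(b * R / 2)) / 2) *
        (1 / max (ZZ b R D) (Real.exp (-(b * R / 2)) / 2)) :=
        mul_le_mul (le_max_left _ _) (ph_sq_le _ _) (sq_nonneg _) h1.le
    _ = 1 := by field_simp

/-- The Gibbs weights are a probability vector if some `D x` is at most `R / 2`. -/
theorem sum_lam_eq_one (hR : 0 < R) (hb : 0 ≤ b) (hT : ∀ x ∉ T, R ≤ D x) {x₀ : X}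
    (h : D x₀ ≤ R / 2) : ∑ x ∈ T, lam b R D x = 1 := by
  have hx : x₀ ∈ T := by by_contra h'; linarith [hT x₀ h']
  have h1 : Real.exp (-(b * R / 2)) ≤ ZZ b R D := by
    rw [ZZ_eq hR hT]
    refine le_trans ?_ (Finset.single_le_sum (f := fun x => gg b R (D x) ^ 2)
      (fun _ _ => sq_nonneg _) hx)
    rw [gg_sq_of_le hR (by linarith)]
    apply Real.exp_le_exp.2
    nlinarith
  have h2 : 0 < ZZ b R D := (Real.exp_pos _).trans_le h1
  rw [sum_lam_eq hR hT, ph_eq h1, div_pow, Real.sq_sqrt h2.le]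
  field_simp

/-- The weights `WW` have total mass at most `CG * b ^ 2`. -/
theorem sum_WW_le (hR : 0 < R) (hb : 1 ≤ b * R) (hT : ∀ x ∉ T, R ≤ D x)
    (hN : (((T.filter fun x => D x < R).card : ℕ) : ℝ) ≤ Real.exp (b * R / 4)) :
    ∑ y ∈ T, WW b R D y ≤ CG * b ^ 2 := by
  have hM := max_pos b R D
  have hc := one_le_cT
  set M := max (ZZ b R D) (Real.exp (-(b * R / 2)) / 2) with hMd
  have h1 : ∑ y ∈ T, g1 b R (D y) ^ 2 ≤ b ^ 2 / 2 * ZZ b R D +
      Real.exp (b * R / 4) * (32 * cT ^ 2 * b ^ 2 * Real.exp (-(3 * (b * R) / 4))) := by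
    refine (Finset.sum_le_sum fun y _ => g1_sq_le (t := D y) hR hb).trans ?_
    rw [Finset.sum_add_distrib, ← Finset.mul_sum, ← ZZ_eq hR hT, ← Finset.sum_filter,
      Finset.sum_const, nsmul_eq_mul]
    gcongr
  have h2 : Real.exp (b * R / 4) * Real.exp (-(3 * (b * R) / 4)) = Real.exp (-(b * R / 2)) := by
    rw [← Real.exp_add]; congr 1; ring
  have h3 : ZZ b R D ≤ M := le_max_left _ _
  have h4 : Real.exp (-(b * R / 2)) ≤ 2 * M := by
    have : Real.exp (-(b * R / 2)) / 2 ≤ M := le_max_right _ _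
    linarith
  simp only [WW, ← hMd, ← Finset.sum_div]
  rw [div_le_iff₀ hM]
  refine h1.trans ?_
  calc _ = b ^ 2 / 2 * ZZ b R D + 32 * cT ^ 2 * b ^ 2 *
        (Real.exp (b * R / 4) * Real.exp (-(3 * (b * R) / 4))) := by ring
    _ ≤ b ^ 2 / 2 * M + 32 * cT ^ 2 * b ^ 2 * (2 * M) := by rw [h2]; gcongr
    _ = (1 / 2 + 64 * cT ^ 2) * (b ^ 2 * M) := by ring
    _ ≤ CG * (b ^ 2 * M) := by
        gcongr; unfold CG; nlinarith
    _ = _ := by ring

section families

variable {E : Type*}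

theorem continuous_ZZ [TopologicalSpace E] {D : E → X → ℝ} (hR : 0 < R)
    (hT : ∀ e, ∀ x ∉ T, R ≤ D e x) (hD : ∀ x, Continuous fun e => D e x) :
    Continuous fun e => ZZ b R (D e) := by
  simp only [fun e => ZZ_eq (b := b) hR (hT e)]
  exact continuous_finsetSum _ fun x _ => ((contDiff_gg b R (n := 0)).continuous.comp (hD x)).pow 2

theorem continuous_uu [TopologicalSpace E] {D : E → X → ℝ} (hR : 0 < R)
    (hT : ∀ e, ∀ x ∉ T, R ≤ D e x) (hD : ∀ x, Continuous fun e => D e x) (x : X) :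
    Continuous fun e => uu b R (D e) x :=
  ((contDiff_gg b R (n := 0)).continuous.comp (hD x)).mul
    ((contDiff_ph (b * R) (n := 0)).continuous.comp (continuous_ZZ hR hT hD))

theorem continuous_lam [TopologicalSpace E] {D : E → X → ℝ} (hR : 0 < R)
    (hT : ∀ e, ∀ x ∉ T, R ≤ D e x) (hD : ∀ x, Continuous fun e => D e x) (x : X) :
    Continuous fun e => lam b R (D e) x := (continuous_uu hR hT hD x).pow 2

theorem continuous_WW [TopologicalSpace E] {D : E → X → ℝ} (hR : 0 < R)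
    (hT : ∀ e, ∀ x ∉ T, R ≤ D e x) (hD : ∀ x, Continuous fun e => D e x) (y : X) :
    Continuous fun e => WW b R (D e) y :=
  (((continuous_g1 b R).comp (hD y)).pow 2).div ((continuous_ZZ hR hT hD).max continuous_const)
    fun e => (max_pos b R (D e)).ne'

variable [NormedAddCommGroup E] [NormedSpace ℝ E] {D : E → X → ℝ}

theorem contDiff_ZZ {n : ℕ∞} (hR : 0 < R) (hT : ∀ e, ∀ x ∉ T, R ≤ D e x)
    (hD : ∀ x, ContDiff ℝ n fun e => D e x) : ContDiff ℝ n fun e => ZZ b R (D e) := by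
  simp only [fun e => ZZ_eq (b := b) hR (hT e)]
  exact ContDiff.sum fun x _ => ((contDiff_gg b R).comp (hD x)).pow 2

theorem contDiff_uu {n : ℕ∞} (hR : 0 < R) (hT : ∀ e, ∀ x ∉ T, R ≤ D e x)
    (hD : ∀ x, ContDiff ℝ n fun e => D e x) (x : X) : ContDiff ℝ n fun e => uu b R (D e) x :=
  ((contDiff_gg b R).comp (hD x)).mul ((contDiff_ph (b * R)).comp (contDiff_ZZ hR hT hD))

theorem contDiff_lam {n : ℕ∞} (hR : 0 < R) (hT : ∀ e, ∀ x ∉ T, R ≤ D e x)
    (hD : ∀ x, ContDiff ℝ n fun e => D e x) (x : X) : ContDiff ℝ n fun e => lam b R (D e) x :=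
  (contDiff_uu hR hT hD x).pow 2

theorem hasFDerivAt_ZZ (hR : 0 < R) (hT : ∀ e, ∀ x ∉ T, R ≤ D e x) {e : E}
    (hD : ∀ x, DifferentiableAt ℝ (fun e => D e x) e) :
    HasFDerivAt (fun e => ZZ b R (D e))
      (∑ y ∈ T, (2 * gg b R (D e y) * g1 b R (D e y)) • fderiv ℝ (fun e => D e y) e) e := by
  simp only [fun e => ZZ_eq (b := b) hR (hT e)]
  refine HasFDerivAt.fun_sum fun y _ => ?_
  have h1 : HasDerivAt (fun t => gg b R t ^ 2) (2 * gg b R (D e y) * g1 b R (D e y)) (D e y) :=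
    ((hasDerivAt_gg b R (D e y)).pow 2).congr_deriv (by simp)
  exact h1.comp_hasFDerivAt e (hD y).hasFDerivAt

theorem hasFDerivAt_uu (hR : 0 < R) (hT : ∀ e, ∀ x ∉ T, R ≤ D e x) {e : E}
    (hD : ∀ x, DifferentiableAt ℝ (fun e => D e x) e) (x : X) :
    HasFDerivAt (fun e => uu b R (D e) x)
      (gg b R (D e x) • (deriv (ph (b * R)) (ZZ b R (D e)) •
          ∑ y ∈ T, (2 * gg b R (D e y) * g1 b R (D e y)) • fderiv ℝ (fun e => D e y) e) +
        ph (b * R) (ZZ b R (D e)) • (g1 b R (D e x) • fderiv ℝ (fun e => D e x) e)) e := by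
  have h1 := (hasDerivAt_gg b R (D e x)).comp_hasFDerivAt e (hD x).hasFDerivAt
  have h2 := (((contDiff_ph (b * R) (n := 1)).differentiable (by simp))
    (ZZ b R (D e))).hasDerivAt.comp_hasFDerivAt e (hasFDerivAt_ZZ hR hT hD)
  exact h1.mul h2

theorem differentiableAt_uu (hR : 0 < R) (hT : ∀ e, ∀ x ∉ T, R ≤ D e x) {e : E}
    (hD : ∀ x, DifferentiableAt ℝ (fun e => D e x) e) (x : X) :
    DifferentiableAt ℝ (fun e => uu b R (D e) x) e := (hasFDerivAt_uu hR hT hD x).differentiableAt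

theorem differentiableAt_lam (hR : 0 < R) (hT : ∀ e, ∀ x ∉ T, R ≤ D e x) {e : E}
    (hD : ∀ x, DifferentiableAt ℝ (fun e => D e x) e) (x : X) :
    DifferentiableAt ℝ (fun e => lam b R (D e) x) e := (differentiableAt_uu hR hT hD x).pow 2

theorem fderiv_lam (hR : 0 < R) (hT : ∀ e, ∀ x ∉ T, R ≤ D e x) {e : E}
    (hD : ∀ x, DifferentiableAt ℝ (fun e => D e x) e) (x : X) (v : E) :
    fderiv ℝ (fun e => lam b R (D e) x) e v =
      2 * uu b R (D e) x * fderiv ℝ (fun e => uu b R (D e) x) e v := by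
  have h1 : HasDerivAt (fun t : ℝ => t ^ 2) (2 * uu b R (D e) x) (uu b R (D e) x) :=
    (hasDerivAt_pow 2 _).congr_deriv (by simp)
  have h2 := h1.comp_hasFDerivAt e (differentiableAt_uu hR hT hD x).hasFDerivAt
  have h3 : fderiv ℝ (fun e => lam b R (D e) x) e = _ := h2.fderiv
  rw [h3]; simp

/-- The derivative of `uu` vanishes at the points with `R ≤ D e x`. -/
theorem fderiv_uu_eq_zero (hR : 0 < R) {e : E} {x : X} (h : R ≤ D e x) :
    fderiv ℝ (fun e => uu b R (D e) x) e = 0 := by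
  refine IsLocalMin.fderiv_eq_zero (Filter.Eventually.of_forall fun y => ?_)
  simp only [uu_eq_zero hR h]
  exact uu_nonneg _ _ _ _

theorem fderiv_lam_eq_zero (hR : 0 < R) {e : E} {x : X} (h : R ≤ D e x) :
    fderiv ℝ (fun e => lam b R (D e) x) e = 0 := by
  refine IsLocalMin.fderiv_eq_zero (Filter.Eventually.of_forall fun y => ?_)
  simp only [lam_eq_zero hR h]
  exact lam_nonneg _ _ _ _

/-- **The `ℓ²` gradient bound.** -/
theorem sum_sq_fderiv_uu_le (hR : 0 < R) (hT : ∀ e, ∀ x ∉ T, R ≤ D e x) {e : E}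
    (hD : ∀ x, DifferentiableAt ℝ (fun e => D e x) e) (v : E) :
    ∑ x ∈ T, (fderiv ℝ (fun e => uu b R (D e) x) e v) ^ 2 ≤
      CG * ∑ y ∈ T, WW b R (D e) y * (fderiv ℝ (fun e => D e y) e v) ^ 2 := by
  have hM := max_pos b R (D e)
  have hc := one_le_cT
  have hZ0 := ZZ_nonneg b R (D e)
  have hp := ph_sq_le (b * R) (ZZ b R (D e))
  have hq := deriv_ph_sq_le (b * R) (ZZ b R (D e))
  have hZ := ZZ_eq (b := b) hR (hT e)
  set M := max (ZZ b R (D e)) (Real.exp (-(b * R / 2)) / 2) with hMd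
  set Z := ZZ b R (D e) with hZd
  set p := ph (b * R) Z
  set q := deriv (ph (b * R)) Z
  set d : X → ℝ := fun y => fderiv ℝ (fun e => D e y) e v with hd
  set S := ∑ y ∈ T, (g1 b R (D e y) * d y) ^ 2 with hS
  set dZ := ∑ y ∈ T, gg b R (D e y) * (g1 b R (D e y) * d y) with hdZ
  have hS0 : 0 ≤ S := Finset.sum_nonneg fun _ _ => sq_nonneg _
  have h1 : dZ ^ 2 ≤ Z * S := by rw [hZ]; exact Finset.sum_mul_sq_le_sq_mul_sq _ _ _
  have h2 (x : X) : fderiv ℝ (fun e => uu b R (D e) x) e v =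
      gg b R (D e x) * (q * (2 * dZ)) + p * (g1 b R (D e x) * d x) := by
    rw [(hasFDerivAt_uu hR hT hD x).fderiv]
    simp only [add_apply, smul_apply, _root_.sum_apply, smul_eq_mul, hdZ, hd, Finset.mul_sum]
    congr 1
    exact Finset.sum_congr rfl fun y _ => by ring
  have h3 : ∑ y ∈ T, WW b R (D e) y * d y ^ 2 = S / M := by
    rw [hS, Finset.sum_div]
    refine Finset.sum_congr rfl fun y _ => ?_
    simp only [WW, ← hZd, ← hMd]; ring
  have h4 : ∑ x ∈ T, (fderiv ℝ (fun e => uu b R (D e) x) e v) ^ 2 ≤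
      2 * (q * (2 * dZ)) ^ 2 * Z + 2 * p ^ 2 * S := by
    rw [hZ, hS, Finset.mul_sum _ _ (2 * (q * (2 * dZ)) ^ 2), Finset.mul_sum _ _ (2 * p ^ 2),
      ← Finset.sum_add_distrib]
    refine Finset.sum_le_sum fun x _ => ?_
    rw [h2]
    nlinarith [sq_nonneg (gg b R (D e x) * (q * (2 * dZ)) - p * (g1 b R (D e x) * d x))]
  refine h4.trans ?_
  change _ ≤ CG * ∑ y ∈ T, WW b R (D e) y * d y ^ 2
  rw [h3]
  calc _ = 8 * q ^ 2 * Z * dZ ^ 2 + 2 * p ^ 2 * S := by ring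
    _ ≤ 8 * q ^ 2 * Z * (Z * S) + 2 * p ^ 2 * S := by gcongr
    _ = 8 * (Z * q) ^ 2 * S + 2 * p ^ 2 * S := by ring
    _ ≤ 8 * (7 * cT ^ 2 / M) * S + 2 * (1 / M) * S := by gcongr
    _ = (56 * cT ^ 2 + 2) * (S / M) := by ring
    _ ≤ CG * (S / M) := by
        gcongr; unfold CG; nlinarith

/-- **The `ℓ¹` gradient bound**, for the Euclidean norm of the gradient in a finite family of
directions. -/
theorem sq_sum_sqrt_fderiv_lam_le {ι : Type*} (J : Finset ι) (hR : 0 < R)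
    (hT : ∀ e, ∀ x ∉ T, R ≤ D e x) {e : E}
    (hD : ∀ x, DifferentiableAt ℝ (fun e => D e x) e) (v : ι → E) :
    (∑ x ∈ T, √(∑ j ∈ J, (fderiv ℝ (fun e => lam b R (D e) x) e (v j)) ^ 2)) ^ 2 ≤
      4 * CG * ∑ j ∈ J, ∑ y ∈ T, WW b R (D e) y * (fderiv ℝ (fun e => D e y) e (v j)) ^ 2 := by
  have h1 (x : X) : √(∑ j ∈ J, (fderiv ℝ (fun e => lam b R (D e) x) e (v j)) ^ 2) =
      uu b R (D e) x * (2 * √(∑ j ∈ J, (fderiv ℝ (fun e => uu b R (D e) x) e (v j)) ^ 2)) := by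
    have h0 := uu_nonneg b R (D e) x
    have : ∑ j ∈ J, (fderiv ℝ (fun e => lam b R (D e) x) e (v j)) ^ 2 = (2 * uu b R (D e) x) ^ 2 *
        ∑ j ∈ J, (fderiv ℝ (fun e => uu b R (D e) x) e (v j)) ^ 2 := by
      rw [Finset.mul_sum]
      exact Finset.sum_congr rfl fun j _ => by rw [fderiv_lam hR hT hD]; ring
    rw [this, Real.sqrt_mul (sq_nonneg _), Real.sqrt_sq (by positivity)]; ring
  simp only [h1]
  refine (Finset.sum_mul_sq_le_sq_mul_sq _ _ _).trans ?_
  have h2 : ∑ x ∈ T, uu b R (D e) x ^ 2 ≤ 1 := sum_lam_le_one hR (hT e)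
  have h3 : ∑ x ∈ T, (2 * √(∑ j ∈ J, (fderiv ℝ (fun e => uu b R (D e) x) e (v j)) ^ 2)) ^ 2 =
      4 * ∑ j ∈ J, ∑ x ∈ T, (fderiv ℝ (fun e => uu b R (D e) x) e (v j)) ^ 2 := by
    rw [Finset.sum_comm, Finset.mul_sum]
    refine Finset.sum_congr rfl fun x _ => ?_
    rw [mul_pow, Real.sq_sqrt (Finset.sum_nonneg fun _ _ => sq_nonneg _)]; norm_num
  rw [h3]
  have h4 : ∑ j ∈ J, ∑ x ∈ T, (fderiv ℝ (fun e => uu b R (D e) x) e (v j)) ^ 2 ≤
      CG * ∑ j ∈ J, ∑ y ∈ T, WW b R (D e) y * (fderiv ℝ (fun e => D e y) e (v j)) ^ 2 := by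
    rw [Finset.mul_sum]
    exact Finset.sum_le_sum fun j _ => sum_sq_fderiv_uu_le hR hT hD (v j)
  have h5 : 0 ≤ ∑ j ∈ J, ∑ x ∈ T, (fderiv ℝ (fun e => uu b R (D e) x) e (v j)) ^ 2 :=
    Finset.sum_nonneg fun _ _ => Finset.sum_nonneg fun _ _ => sq_nonneg _
  nlinarith

/-- **The `ℓ¹` gradient bound** in one direction. -/
theorem sq_sum_abs_fderiv_lam_le (hR : 0 < R) (hT : ∀ e, ∀ x ∉ T, R ≤ D e x) {e : E}
    (hD : ∀ x, DifferentiableAt ℝ (fun e => D e x) e) (v : E) :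
    (∑ x ∈ T, |fderiv ℝ (fun e => lam b R (D e) x) e v|) ^ 2 ≤
      4 * CG * ∑ y ∈ T, WW b R (D e) y * (fderiv ℝ (fun e => D e y) e v) ^ 2 := by
  simpa [Real.sqrt_sq_eq_abs] using
    sq_sum_sqrt_fderiv_lam_le (b := b) ({()} : Finset Unit) hR hT hD fun _ => v

end families

/-- The weighted square norm of a family bounded on the support of the weights. -/
theorem sum_WW_mul_le (hR : 0 < R) (hb : 1 ≤ b * R) (hT : ∀ x ∉ T, R ≤ D x)
    (hN : (((T.filter fun x => D x < R).card : ℕ) : ℝ) ≤ Real.exp (b * R / 4)) {f : X → ℝ} {A : ℝ}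
    (hA : 0 ≤ A) (hf : ∀ y ∈ T, D y < R → f y ≤ A) :
    ∑ y ∈ T, WW b R D y * f y ≤ CG * b ^ 2 * A := by
  refine le_trans (Finset.sum_le_sum (g := fun y => WW b R D y * A) fun y hy => ?_) ?_
  · by_cases h : D y < R
    · exact mul_le_mul_of_nonneg_left (hf y hy h) (WW_nonneg _ _ _ _)
    · rw [WW_eq_zero hR (not_lt.1 h)]; simp
  · rw [← Finset.sum_mul]
    exact mul_le_mul_of_nonneg_right (sum_WW_le hR hb hT hN) hA

end

end Vale.Agent.P184Z.Gb
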