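import Vale.Agent.P184.H38.PfD
import Vale.Agent.P184Z.Gibbs

/-!
# Definitions for the proof of the `ℓ¹`-Bass conjecture for all groups
-/

open scoped ContDiff
open MeasureTheory

noncomputable section

namespace Vale.Agent.P184Z

open Vale.Agent.P184.H38

universe u

/-! ### Bounds of product type for all Pfaffian minors -/

/-- All Pfaffian minors of `A` are bounded by `C` times the product of the weights. -/
def PT {N : ℕ} (A : Fin N → Fin N → ℝ) (C : ℝ) (a : Fin N → ℝ) : Prop :=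
  ∀ l : List (Fin N), l.Pairwise (· < ·) → |wk A l| ≤ C * (l.map a).prod

/-! ### One-forms on the space of jump times -/

/-- Jump times. -/
abbrev Vn (n : ℕ) := Fin n → ℝ

/-- One-forms. -/
abbrev Form (n : ℕ) := Vn n → Vn n →L[ℝ] ℝ

/-- The exterior derivative of a one-form. -/
def cur {n : ℕ} (θ : Form n) (s v w : Vn n) : ℝ := fderiv ℝ θ s v w - fderiv ℝ θ s w v

/-- The order simplex. -/
def simplex (N : ℕ) : Set (Vn N) := {t | Monotone t ∧ ∀ i, 0 ≤ t i ∧ t i ≤ 1}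

/-- The slice: the last jump happens at time one. -/
def sl {N : ℕ} (t : Vn N) : Vn (N + 1) := Fin.snoc (α := fun _ => ℝ) t 1

/-- The coordinate vectors of the slice. -/
def ev {N : ℕ} (i : Fin N) : Vn (N + 1) := Pi.single i.castSucc 1

/-- The generator of the translations. -/
def one (n : ℕ) : Vn n := fun _ => 1

/-- The face maps: the jumps `i` and `i + 1` happen at the same time. -/
def fc {N : ℕ} (i : Fin (N + 1)) (s : Vn (N + 1)) : Vn (N + 2) := fun j => s (i.predAbove j)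

/-- Rotation of the tangent vectors. -/
def rotv {N : ℕ} (v : Vn (N + 1)) : Vn (N + 1) := Fin.snoc (α := fun _ => ℝ) (Fin.tail v) (v 0)

/-- Rotation of the jump times. -/
def rots {N : ℕ} (s : Vn (N + 1)) : Vn (N + 1) :=
  Fin.snoc (α := fun _ => ℝ) (Fin.tail s) (s 0 + 1)

/-- Rotation of the points of a twisted loop. -/
def rotp {X : Type*} (σ : X → X) {N : ℕ} (p : Fin (N + 1) → X) : Fin (N + 1) → X :=
  Fin.snoc (α := fun _ => X) (Fin.tail p) (σ (p 0))

/-- Connection forms for the translation flow. -/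
structure Adm {n : ℕ} (θ : Form n) : Prop where
  smooth : ContDiff ℝ ∞ θ
  trans : ∀ s (a : ℝ), θ (s + a • one n) = θ s
  norm : ∀ s, θ s (one n) = 1

/-- `ϑ` is the restriction of `θ` to the face `i`. -/
def Face {N : ℕ} (i : Fin (N + 1)) (θ : Form (N + 2)) (ϑ : Form (N + 1)) : Prop :=
  ∀ s v, ϑ s v = θ (fc i s) (fc i v)

/-- `ϑ` is the rotation of `θ`. -/
def Rot {N : ℕ} (θ ϑ : Form (N + 1)) : Prop := ∀ s v, ϑ (rots s) (rotv v) = θ s v

/-- `ϑ` is the restriction of `θ` to the face, where the first point disappears. -/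
def Face0 {N : ℕ} (θ : Form (N + 2)) (ϑ : Form (N + 1)) : Prop :=
  ∀ s v, ϑ s v = θ (Fin.cons (α := fun _ => ℝ) (s (Fin.last N) - 1) s)
    (Fin.cons (α := fun _ => ℝ) (v (Fin.last N)) v)

/-- The integral of the Pfaffian of the curvature. -/
def top {N : ℕ} (θ : Form (N + 1)) : ℝ :=
  ∫ t in simplex N, wk (cur θ (sl t)) (List.ofFn ev)

/-- The bordered curvature of the segment between two forms. -/
def ext {n : ℕ} (θ0 θ1 : Form n) (a : ℝ) (s : Vn n) : Option (Vn n) → Option (Vn n) → ℝ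
  | none, none => 0
  | none, some w => θ1 s w - θ0 s w
  | some v, none => θ0 s v - θ1 s v
  | some v, some w => (1 - a) * cur θ0 s v w + a * cur θ1 s v w

/-- The integral of the transgression form. -/
def tint {N : ℕ} (θ0 θ1 : Form (N + 1)) : ℝ :=
  ∫ a in (0 : ℝ)..1, ∫ t in simplex N,
    wk (ext θ0 θ1 a (sl t)) (none :: List.ofFn fun i => some (ev i))

/-- The tautological connection form. -/
def thK (N : ℕ) : Form (N + 1) := fun s =>
  ∑ i, (rots s i - s i) • ContinuousLinearMap.proj (R := ℝ) (φ := fun _ : Fin (N + 1) => ℝ) i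

/-- Entries of the form and of its curvature are bounded on the simplex. -/
def Crude {N : ℕ} (θ : Form (N + 1)) (B : ℝ) : Prop :=
  ∀ t ∈ simplex N, (∀ i, |θ (sl t) (ev i)| ≤ B) ∧ ∀ i j, |cur θ (sl t) (ev i) (ev j)| ≤ B

/-! ### Kernels -/

/-- A smooth staircase of period `M` and width `η`, with derivative `K`. -/
structure Ker (M : ℕ) (η : ℝ) where
  Φ : ℝ → ℝ
  K : ℝ → ℝ
  smooth : ContDiff ℝ ∞ Φ
  deriv : ∀ r, HasDerivAt Φ (K r) r
  per : ∀ r, Φ (r + M) = Φ r + 1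
  K_nonneg : ∀ r, 0 ≤ K r
  K_le : ∀ r, K r ≤ 1 / η
  K_zero : ∀ r : ℝ, (∀ k : ℤ, η ≤ |r - k * M|) → K r = 0
  K_ge : ∀ (r : ℝ) (k : ℤ), |r - k * M| ≤ η / 2 → 1 / (2 * η) ≤ K r
  val : ∀ (r : ℝ) (k : ℤ), (k - 1) * M + η ≤ r → r ≤ k * M - η → Φ r = k

/-- The three staircases and the primitive of a difference. -/
structure Kit (M : ℕ) (η0 η : ℝ) where
  k0 : Ker M η0
  k1 : Ker M η
  k2 : Ker M (4 * η)
  Ψ : ℝ → ℝ
  c : ℝ
  smooth : ContDiff ℝ ∞ Ψ
  deriv : ∀ r, HasDerivAt Ψ (k0.Φ r - k2.Φ r) r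
  per : ∀ r, Ψ (r + M) = Ψ r + c
  pos : 0 < η0
  le : η0 ≤ η
  small : 16 * η ≤ 1
  M_pos : 0 < M

/-- The kernel, summed over the translates by `0, …, M - 1`. -/
def Ker.K1 {M : ℕ} {η : ℝ} (k : Ker M η) (r : ℝ) : ℝ := ∑ j ∈ Finset.range M, k.K (r - j)

/-- The difference of the staircases, summed over the translates by `0, …, M - 1`. -/
def Kit.k1abs {M : ℕ} {η0 η : ℝ} (κ : Kit M η0 η) (r : ℝ) : ℝ :=
  ∑ j ∈ Finset.range M, |κ.k0.Φ (r - j) - κ.k2.Φ (r - j)|

/-! ### Constants and cut-off functions -/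

/-- The constant in the gradient bound of the soft choice of nearby points. -/
def cb (b : ℝ) : ℝ := Gb.CG ^ 2 * b ^ 2

/-- The cut-off of the normalisation. -/
def cς (x : ℝ) : ℝ := Real.smoothTransition (16 * x - 2)

/-- The inverse, cut off near zero. -/
def ch (x : ℝ) : ℝ := cς x / x

/-! ### The space with a periodic isometry -/

/-- A bounded pseudo-metric space with finite balls and an isometry of period `M`. -/
structure Geo (X : Type u) (M : ℕ) where
  d : X → X → ℝ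
  Rb : ℝ
  σ : Equiv.Perm X
  d_self : ∀ y, d y y = 0
  d_symm : ∀ y z, d y z = d z y
  d_tri : ∀ y z w, d y w ≤ d y z + d z w
  d_le : ∀ y z, d y z ≤ Rb
  σ_d : ∀ y z, d (σ y) (σ z) = d y z
  σ_pow : σ ^ M = 1
  fin : ∀ y, {z | d y z < Rb}.Finite

/-- Labels. -/
abbrev Lb (M : ℕ) (C : Type) := ZMod M × C

/-- The shift of the labels. -/
def shf {M : ℕ} {C : Type} (l : Lb M C) : Lb M C := (l.1 + 1, l.2)

/-- Admissible labellings. -/
structure IsLab {X : Type u} {M : ℕ} (g : Geo X M) {C : Type} (lab : X → Lb M C) : Prop where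
  shift : ∀ y, lab (g.σ y) = shf (lab y)
  inj : ∀ y z, g.d y z < g.Rb → lab y = lab z → y = z
  fib : ∀ U : Finset X, (∀ y ∈ U, ∀ z ∈ U, g.d y z < g.Rb ∧ (lab y).2 = (lab z).2) →
    2 * U.card ≤ M

/-- The parameters, which do not depend on the number of jumps. -/
structure Sp where
  ρ : ℝ
  R0 : ℝ
  b : ℝ

/-- The radius of the first layer. -/
def Sp.R (P : Sp) : ℝ := 16 * P.ρ

/-- The radius of the second layer. -/
def Sp.R1 (P : Sp) : ℝ := 48 * P.ρ

/-- Sets of diameter less than `2 R` have at most `exp (b R / 4)` points. -/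
def Cnt {X : Type u} {M : ℕ} (g : Geo X M) (b R : ℝ) : Prop :=
  ∀ U : Finset X, (∀ y ∈ U, ∀ z ∈ U, g.d y z < 2 * R) → (U.card : ℝ) ≤ Real.exp (b * R / 4)

/-- The relations between the parameters. -/
structure Ok {X : Type u} {M : ℕ} (g : Geo X M) (P : Sp) : Prop where
  one_le_b : 1 ≤ P.b
  one_le_R0 : 1 ≤ P.R0
  R0_le : 8 * P.R0 ≤ P.ρ
  Rb_eq : g.Rb = 96 * P.ρ
  c0 : Cnt g P.b P.R0
  c : Cnt g P.b P.R
  c1 : Cnt g P.b P.R1

/-- Jump times and the time. -/
abbrev En (n : ℕ) := Vn n × ℝ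

/-- The derivative in the direction of the jump times. -/
def pd {n : ℕ} (f : En n → ℝ) (z : En n) : Vn n →L[ℝ] ℝ :=
  (fderiv ℝ f z).comp (ContinuousLinearMap.inl ℝ (Vn n) ℝ)

/-- The jump times are ordered. -/
def Ord {N : ℕ} (s : Vn (N + 1)) : Prop := Monotone s ∧ s (Fin.last N) ≤ s 0 + 1

section

variable {X : Type u} {M : ℕ} (g : Geo X M)

/-- The lengths of the jumps. -/
def len {N : ℕ} (p : Fin (N + 1) → X) (j : Fin (N + 1)) : ℝ := g.d (p j) (rotp g.σ p j)

/-- Time averages of the distance from the loop to `y`. -/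
def prim (Φ : ℝ → ℝ) (c : ℝ) {N : ℕ} (p : Fin (N + 1) → X) (y : X) (z : En (N + 1)) : ℝ :=
  c * g.d (p 0) y + ∑ k ∈ Finset.range M, ∑ j,
    (g.d ((g.σ ^ k) (rotp g.σ p j)) y - g.d ((g.σ ^ k) (p j)) y) * Φ (z.2 - k - z.1 j)

/-- A smooth field, which is equal to `Rb` outside of `Y`. -/
structure Fld {n : ℕ} (F : X → En n → ℝ) (Y : Finset X) : Prop where
  smooth : ∀ y, ContDiff ℝ ∞ (F y)
  off : ∀ y ∉ Y, ∀ z, F y z = g.Rb

variable (P : Sp) {η0 η : ℝ} (κ : Kit M η0 η) {n : ℕ}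

/-- The unit vector field of a field of distances. -/
def gF (b R : ℝ) (F : X → En n → ℝ) (y : X) (z : En n) : ℝ := Gb.uu b R (fun y' => F y' z) y

/-- The distances of the second layer. -/
def D1 (F1 : X → En n → ℝ) (y : X) (z : En n) : ℝ :=
  g.Rb - ∫ r in (-η)..η, κ.k1.K r *
    ∑ᶠ y', (gF P.b P.R F1 y' (z.1, z.2 - r)) ^ 2 * (g.Rb - g.d y' y)

variable {C : Type}

open Classical in
/-- The field of the second layer, in the space of the labels. -/
def uu (F1 : X → En n → ℝ) (lab : X → Lb M C) (l : Lb M C) (z : En n) : ℝ :=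
  ∑ᶠ y, if lab y = l then gF P.b P.R1 (D1 g P κ F1) y z else 0

/-- The primitive in time. -/
def WW (F1 : X → En n → ℝ) (lab : X → Lb M C) (l : Lb M C) (z : En n) : ℝ :=
  ∫ r in (0 : ℝ)..M, (r / M - 1 / 2) * uu g P κ F1 lab l (z.1, z.2 + r)

variable [NeZero M] [Fintype C]

/-- The integrand of the form. -/
def bint (F0 F1 FE : X → En n → ℝ) (lab : X → Lb M C) (z : En n) : Vn n →L[ℝ] ℝ :=
  (1 / P.ρ) • (∑ᶠ y, (gF P.b P.R0 F0 y z) ^ 2 • pd (FE y) z) +
    ∑ l, WW g P κ F1 lab l z • pd (uu g P κ F1 lab l) z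

/-- The form before normalisation. -/
def bet (F0 F1 FE : X → En n → ℝ) (lab : X → Lb M C) : Form n := fun s =>
  ∫ τ in (0 : ℝ)..1, bint g P κ F0 F1 FE lab (s, τ)

end

/-- The normalisation of a form. -/
def nrm {N : ℕ} (β : Form (N + 1)) : Form (N + 1) := fun s =>
  ch (β s (one _)) • β s + (1 - cς (β s (one _))) • thK N s

section

variable {X : Type u} {M : ℕ} [NeZero M] (g : Geo X M) (P : Sp) {η0 η : ℝ} (κ : Kit M η0 η)
  {C : Type} [Fintype C] {N : ℕ}

/-- The form of a loop before normalisation. -/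
def betp (p : Fin (N + 1) → X) (lab : X → Lb M C) : Form (N + 1) :=
  bet g P κ (prim g κ.k0.Φ 1 p) (prim g κ.k1.Φ 1 p) (prim g κ.Ψ κ.c p) lab

/-- The connection form of a loop. -/
def thp (p : Fin (N + 1) → X) (lab : X → Lb M C) : Form (N + 1) := nrm (betp g P κ p lab)

/-- The `L¹`-norm in time of the derivative of the second layer. -/
def Lv (p : Fin (N + 1) → X) (lab : X → Lb M C) (s v : Vn (N + 1)) : ℝ :=
  ∫ τ in (0 : ℝ)..1, √(∑ l, (pd (uu g P κ (prim g κ.k1.Φ 1 p) lab l) (s, τ) v) ^ 2)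

end

end Vale.Agent.P184Z
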