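import Vale.Agent.P184.Ex.Lab2

/-!
# P184Z, block LABELS: the space `⟨g ^ M⟩ \ G` of labels, its distance and its colourings
-/

open Finset
open scoped Pointwise RealInnerProductSpace

namespace Vale.Agent.P184Z.Lab

open Vale.Agent.P184.H428

/-- a length function whose balls have at most `K ^ r` elements -/
structure Len (G : Type*) [Group G] (K : ℕ) where
  L : G → ℕ
  one : L 1 = 0
  inv : ∀ g, L g⁻¹ = L g
  mul : ∀ g h, L (g * h) ≤ L g + L h
  ball : ℕ → Finset G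
  mem_ball : ∀ r g, g ∈ ball r ↔ L g ≤ r
  card_ball : ∀ r, (ball r).card ≤ K ^ r

variable {G : Type*} [Group G]

/-- the word length for a finite symmetric generating set containing `1` -/
theorem exists_len (S : Finset G) (h1 : (1 : G) ∈ S) (hS : ∀ s ∈ S, s⁻¹ ∈ S)
    (hg : ∀ g : G, ∃ n : ℕ, g ∈ (S : Set G) ^ n) :
    ∃ ℓ : Len G S.card, ∀ g, ℓ.L g = sInf {n : ℕ | g ∈ (S : Set G) ^ n} := by
  classical
  have hm : ∀ g : G, g ∈ (S : Set G) ^ sInf {n : ℕ | g ∈ (S : Set G) ^ n} := fun g =>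
    Nat.sInf_mem (hg g)
  have hi : ∀ (g : G) (n : ℕ), g ∈ (S : Set G) ^ n → g⁻¹ ∈ (S : Set G) ^ n := fun g n h => by
    have e1 : (S : Set G)⁻¹ = S := by
      ext s
      rw [Set.mem_inv]
      exact ⟨fun h => by simpa using hS _ h, fun h => hS _ h⟩
    have e2 : ((S : Set G) ^ n)⁻¹ = (S : Set G) ^ n := by rw [← inv_pow, e1]
    rw [← e2, Set.mem_inv, inv_inv]
    exact h
  refine ⟨⟨fun g => sInf {n : ℕ | g ∈ (S : Set G) ^ n}, ?_, fun g => ?_, fun g h => ?_,
    fun r => S ^ r, fun r g => ?_, fun r => card_pow_le⟩, fun _ => rfl⟩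
  · exact Nat.le_zero.1 (Nat.sInf_le (by rw [Set.mem_ofPred_eq, pow_zero]; exact Set.mem_one.2 rfl))
  · refine le_antisymm (Nat.sInf_le (hi _ _ (hm g))) (Nat.sInf_le ?_)
    have := hi _ _ (hm g⁻¹)
    rwa [inv_inv] at this
  · exact Nat.sInf_le (by rw [Set.mem_ofPred_eq, pow_add]; exact Set.mul_mem_mul (hm g) (hm h))
  · rw [← mem_coe, coe_pow]
    exact ⟨fun h => Nat.sInf_le h, fun h => Set.pow_subset_pow_right h1 h (hm g)⟩

/-- a generating set can be made symmetric -/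
theorem exists_gen (S : Finset G) (hS : Subgroup.closure (S : Set G) = ⊤) :
    ∃ S' : Finset G, S ⊆ S' ∧ (1 : G) ∈ S' ∧ (∀ s ∈ S', s⁻¹ ∈ S') ∧
      ∀ g : G, ∃ n : ℕ, g ∈ (S' : Set G) ^ n := by
  classical
  refine ⟨insert 1 (S ∪ S⁻¹), fun s hs => by simp [hs], mem_insert_self _ _, fun s hs => ?_,
    fun g => ?_⟩
  · simp only [mem_insert, mem_union, mem_inv', inv_eq_one, inv_inv] at hs ⊢
    tauto
  · have hg : g ∈ Subgroup.closure (S : Set G) := hS ▸ Subgroup.mem_top g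
    induction hg using Subgroup.closure_induction'' with
    | mem x hx => exact ⟨1, by simp [mem_coe.1 hx]⟩
    | inv_mem x hx => exact ⟨1, by simp [mem_coe.1 hx]⟩
    | one => exact ⟨0, by simp⟩
    | mul x y _ _ hx hy =>
      obtain ⟨m, hm⟩ := hx
      obtain ⟨n, hn⟩ := hy
      exact ⟨m + n, by rw [pow_add]; exact Set.mul_mem_mul hm hn⟩

/-! ### the space of labels -/

/-- the relation of being in the same orbit of `g ^ M` -/
def rel (g : G) (M : ℕ) : Setoid G where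
  r a b := ∃ j : ℤ, b = (g ^ M) ^ j * a
  iseqv :=
    ⟨fun a => ⟨0, by simp⟩, fun ⟨j, h⟩ => ⟨-j, by rw [h, zpow_neg, inv_mul_cancel_left]⟩,
      fun ⟨i, h⟩ ⟨j, h'⟩ => ⟨j + i, by rw [h', h, zpow_add, mul_assoc]⟩⟩

/-- the labels -/
def XX (g : G) (M : ℕ) : Type _ := Quotient (rel g M)

variable {g : G} {M : ℕ}

/-- the projection -/
def pr (g : G) (M : ℕ) (a : G) : XX g M := Quotient.mk (rel g M) a

theorem pr_surj (x : XX g M) : ∃ a, pr g M a = x := Quotient.exists_rep x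

theorem pr_eq {a b : G} : pr g M a = pr g M b ↔ ∃ j : ℤ, b = (g ^ M) ^ j * a := Quotient.eq

theorem pr_zpow_mul (j : ℤ) (a : G) : pr g M ((g ^ M) ^ j * a) = pr g M a :=
  (pr_eq.2 ⟨j, rfl⟩).symm

theorem pr_pow_mul (a : G) : pr g M (g ^ M * a) = pr g M a := by
  simpa using pr_zpow_mul (g := g) (M := M) 1 a

theorem comm_zpow {c : G} (hc : c * g = g * c) (j : ℤ) : c * (g ^ M) ^ j = (g ^ M) ^ j * c :=
  ((Commute.pow_right (show Commute c g from hc) M).zpow_right j).eq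

theorem inv_comm' {c : G} (hc : c * g = g * c) : c⁻¹ * g = g * c⁻¹ :=
  (Commute.inv_left (show Commute c g from hc)).eq

/-- left translation by an element of the centralizer -/
def actF' (c : G) (hc : c * g = g * c) : XX g M → XX g M :=
  Quotient.map (fun a => c * a) fun _ _ ⟨j, h⟩ => ⟨j, by
    rw [h, ← mul_assoc, comm_zpow hc, mul_assoc]⟩

/-- the action of the centralizer on the labels -/
def act (M : ℕ) (c : G) (hc : c * g = g * c) : XX g M ≃ XX g M where
  toFun := actF' c hc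
  invFun := actF' c⁻¹ (inv_comm' hc)
  left_inv x := by
    obtain ⟨a, rfl⟩ := pr_surj x
    exact congrArg (pr g M) (inv_mul_cancel_left c a)
  right_inv x := by
    obtain ⟨a, rfl⟩ := pr_surj x
    exact congrArg (pr g M) (mul_inv_cancel_left c a)

theorem act_pr {c : G} (hc : c * g = g * c) (a : G) : act M c hc (pr g M a) = pr g M (c * a) := rfl

theorem act_symm_pr {c : G} (hc : c * g = g * c) (a : G) :
    (act M c hc).symm (pr g M a) = pr g M (c⁻¹ * a) := rfl

theorem act_symm {c : G} (hc : c * g = g * c) :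
    (act M c hc).symm = act M c⁻¹ (inv_comm' hc) := Equiv.ext fun _ => rfl

/-- the translation by `g` -/
def sg (g : G) (M : ℕ) : XX g M ≃ XX g M := act M g rfl

theorem sg_pr (a : G) : sg g M (pr g M a) = pr g M (g * a) := rfl

theorem sg_iter_pr (n : ℕ) (a : G) : (sg g M)^[n] (pr g M a) = pr g M (g ^ n * a) := by
  induction n with
  | zero => simp
  | succ n ih => rw [Function.iterate_succ_apply', ih, sg_pr, pow_succ', mul_assoc]

theorem sg_iter (x : XX g M) : (sg g M)^[M] x = x := by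
  obtain ⟨a, rfl⟩ := pr_surj x
  rw [sg_iter_pr, pr_pow_mul]

theorem act_sg {c : G} (hc : c * g = g * c) (x : XX g M) :
    act M c hc (sg g M x) = sg g M (act M c hc x) := by
  obtain ⟨a, rfl⟩ := pr_surj x
  rw [sg_pr, act_pr, act_pr, sg_pr, ← mul_assoc, hc, mul_assoc]

/-! ### the distance -/

variable {K : ℕ} (ℓ : Len G K)

/-- the distance of two labels -/
noncomputable def dX (x y : XX g M) : ℕ :=
  sInf {n | ∃ a s, pr g M a = x ∧ pr g M (a * s) = y ∧ ℓ.L s = n}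

theorem dX_le (a s : G) : dX ℓ (pr g M a) (pr g M (a * s)) ≤ ℓ.L s :=
  Nat.sInf_le ⟨a, s, rfl, rfl, rfl⟩

theorem dX_le' (a b : G) : dX ℓ (pr g M a) (pr g M b) ≤ ℓ.L (a⁻¹ * b) := by
  simpa using dX_le (g := g) (M := M) ℓ a (a⁻¹ * b)

theorem exists_dX (a : G) (y : XX g M) :
    ∃ s, pr g M (a * s) = y ∧ ℓ.L s = dX ℓ (pr g M a) y := by
  obtain ⟨b, rfl⟩ := pr_surj y
  have hne : {n | ∃ a' s, pr g M a' = pr g M a ∧ pr g M (a' * s) = pr g M b ∧ ℓ.L s = n}.Nonempty :=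
    ⟨_, a, a⁻¹ * b, rfl, by rw [mul_inv_cancel_left], rfl⟩
  obtain ⟨a', s, h1, h2, h3⟩ := Nat.sInf_mem hne
  obtain ⟨j, hj⟩ := pr_eq.1 h1
  exact ⟨s, by rw [hj, mul_assoc, pr_zpow_mul, h2], h3⟩

theorem dX_self (x : XX g M) : dX ℓ x x = 0 := by
  obtain ⟨a, rfl⟩ := pr_surj x
  have := dX_le (g := g) (M := M) ℓ a 1
  rw [mul_one, ℓ.one] at this
  omega

theorem dX_comm (x y : XX g M) : dX ℓ x y = dX ℓ y x := by
  have key : ∀ x y : XX g M, dX ℓ x y ≤ dX ℓ y x := fun x y => by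
    obtain ⟨b, rfl⟩ := pr_surj y
    obtain ⟨s, rfl, h⟩ := exists_dX ℓ b x
    have := dX_le (g := g) (M := M) ℓ (b * s) s⁻¹
    rwa [mul_inv_cancel_right, ℓ.inv, h] at this
  exact le_antisymm (key x y) (key y x)

theorem dX_tri (x y z : XX g M) : dX ℓ x z ≤ dX ℓ x y + dX ℓ y z := by
  obtain ⟨a, rfl⟩ := pr_surj x
  obtain ⟨s, rfl, h⟩ := exists_dX ℓ a y
  obtain ⟨t, rfl, h'⟩ := exists_dX ℓ (a * s) z
  rw [← h, ← h', mul_assoc]
  exact (dX_le ℓ a (s * t)).trans (ℓ.mul s t)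

theorem dX_act {c : G} (hc : c * g = g * c) (x y : XX g M) :
    dX ℓ (act M c hc x) (act M c hc y) = dX ℓ x y := by
  have key : ∀ (c : G) (hc : c * g = g * c) (x y : XX g M),
      dX ℓ (act M c hc x) (act M c hc y) ≤ dX ℓ x y := fun c hc x y => by
    obtain ⟨a, rfl⟩ := pr_surj x
    obtain ⟨s, rfl, h⟩ := exists_dX ℓ a y
    rw [← h, act_pr, act_pr, ← mul_assoc]
    exact dX_le ℓ _ _
  refine le_antisymm (key c hc x y) ?_
  have := key c⁻¹ (inv_comm' hc) (act M c hc x) (act M c hc y)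
  rwa [← act_symm hc, Equiv.symm_apply_apply, Equiv.symm_apply_apply] at this

theorem dX_sg (x y : XX g M) : dX ℓ (sg g M x) (sg g M y) = dX ℓ x y := dX_act ℓ rfl x y

open Classical in
/-- the ball of radius `r` -/
noncomputable def nb (x : XX g M) (r : ℕ) : Finset (XX g M) :=
  (ℓ.ball r).image fun s => pr g M ((pr_surj x).choose * s)

theorem mem_nb {x y : XX g M} {r : ℕ} : y ∈ nb ℓ x r ↔ dX ℓ x y ≤ r := by
  have hx := (pr_surj x).choose_spec
  simp only [nb, mem_image, ℓ.mem_ball]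
  constructor
  · rintro ⟨s, hs, rfl⟩
    have := dX_le (g := g) (M := M) ℓ (pr_surj x).choose s
    rw [hx] at this
    exact this.trans hs
  · intro h
    obtain ⟨s, h1, h2⟩ := exists_dX ℓ (pr_surj x).choose y
    rw [hx] at h2
    exact ⟨s, h2 ▸ h, h1⟩

theorem card_nb (x : XX g M) (r : ℕ) : (nb ℓ x r).card ≤ (ℓ.ball r).card := by
  classical
  exact card_image_le

/-- sets of diameter at most `r` -/
theorem card_le_of_diam {T : Finset (XX g M)} {r : ℕ} (h : ∀ x ∈ T, ∀ y ∈ T, dX ℓ x y ≤ r) :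
    T.card ≤ (ℓ.ball r).card := by
  rcases T.eq_empty_or_nonempty with rfl | ⟨x, hx⟩
  · simp
  · exact (card_le_card fun y hy => (mem_nb ℓ).2 (h x hx y hy)).trans (card_nb ℓ x r)

/-- the truncated distance -/
noncomputable def dt (R : ℝ) (x y : XX g M) : ℝ := min (dX ℓ x y : ℝ) R

theorem dt_nonneg {R : ℝ} (hR : 0 ≤ R) (x y : XX g M) : 0 ≤ dt ℓ R x y :=
  le_min (Nat.cast_nonneg _) hR

theorem dt_le (R : ℝ) (x y : XX g M) : dt ℓ R x y ≤ R := min_le_right _ _

theorem dt_le_dX (R : ℝ) (x y : XX g M) : dt ℓ R x y ≤ dX ℓ x y := min_le_left _ _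

theorem dt_self {R : ℝ} (hR : 0 ≤ R) (x : XX g M) : dt ℓ R x x = 0 := by
  rw [dt, dX_self, Nat.cast_zero, min_eq_left hR]

theorem dt_comm (R : ℝ) (x y : XX g M) : dt ℓ R x y = dt ℓ R y x := by rw [dt, dt, dX_comm]

theorem dt_tri {R : ℝ} (hR : 0 ≤ R) (x y z : XX g M) : dt ℓ R x z ≤ dt ℓ R x y + dt ℓ R y z := by
  have h : (dX ℓ x z : ℝ) ≤ dX ℓ x y + dX ℓ y z := by exact_mod_cast dX_tri ℓ x y z
  have h1 := dt_nonneg ℓ hR x y
  have h2 := dt_nonneg ℓ hR y z
  have h3 := dt_le ℓ R x z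
  have h4 := dt_le_dX ℓ R x z
  rcases min_choice (dX ℓ x y : ℝ) R with e | e
  · rcases min_choice (dX ℓ y z : ℝ) R with e' | e'
    · rw [show dt ℓ R x y = _ from e, show dt ℓ R y z = _ from e']; linarith
    · rw [show dt ℓ R y z = _ from e']; linarith
  · rw [show dt ℓ R x y = _ from e]; linarith

theorem dt_act (R : ℝ) {c : G} (hc : c * g = g * c) (x y : XX g M) :
    dt ℓ R (act M c hc x) (act M c hc y) = dt ℓ R x y := by rw [dt, dt, dX_act]

theorem dt_sg (R : ℝ) (x y : XX g M) : dt ℓ R (sg g M x) (sg g M y) = dt ℓ R x y :=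
  dt_act ℓ R rfl x y

theorem dt_pr_le (R : ℝ) (a b : G) : dt ℓ R (pr g M a) (pr g M b) ≤ ℓ.L (a⁻¹ * b) :=
  (dt_le_dX ℓ R _ _).trans (by exact_mod_cast dX_le' ℓ a b)

theorem abs_dt_sub_le {R : ℝ} (hR : 0 ≤ R) (x y z : XX g M) :
    |dt ℓ R x z - dt ℓ R y z| ≤ dt ℓ R x y := by
  have h1 := dt_tri ℓ hR x y z
  have h2 := dt_tri ℓ hR y x z
  rw [dt_comm ℓ R y x] at h2
  exact abs_le.2 ⟨by linarith, by linarith⟩

theorem dX_eq_of_dt_lt {R : ℝ} {x y : XX g M} (h : dt ℓ R x y < R) : dt ℓ R x y = dX ℓ x y := by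
  rcases min_choice (dX ℓ x y : ℝ) R with e | e
  · exact e
  · exact absurd e h.ne

theorem dt_eq_of_notMem {R : ℝ} {r : ℕ} (hr : R ≤ r + 1) {x y : XX g M} (h : y ∉ nb ℓ x r) :
    dt ℓ R x y = R := by
  have h1 : r + 1 ≤ dX ℓ x y := not_le.1 fun h' => h ((mem_nb ℓ).2 h')
  have h2 : (r : ℝ) + 1 ≤ dX ℓ x y := by exact_mod_cast h1
  exact min_eq_right (hr.trans h2)

theorem dX_le_of_dt_lt {R ρ : ℝ} {r : ℕ} (hρ : ρ ≤ R) (hr : ρ ≤ r + 1) {x y : XX g M}
    (h : dt ℓ R x y < ρ) : dX ℓ x y ≤ r := by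
  rw [dX_eq_of_dt_lt ℓ (h.trans_le hρ)] at h
  have : (dX ℓ x y : ℝ) < (r + 1 : ℕ) := by push_cast; linarith
  exact Nat.lt_succ_iff.1 (by exact_mod_cast this)

/-- sets of truncated diameter less than `ρ` have at most `K ^ ρ` elements -/
theorem card_le_exp (hK : 1 ≤ K) {R ρ : ℝ} (hρ0 : 0 ≤ ρ) (hρ : ρ ≤ R) {T : Finset (XX g M)}
    (h : ∀ x ∈ T, ∀ y ∈ T, dt ℓ R x y < ρ) : (T.card : ℝ) ≤ Real.exp (ρ * Real.log K) := by
  have h1 : T.card ≤ K ^ ⌊ρ⌋₊ := (card_le_of_diam ℓ fun x hx y hy =>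
    dX_le_of_dt_lt ℓ hρ (Nat.lt_floor_add_one ρ).le (h x hx y hy)).trans (ℓ.card_ball _)
  have hK' : (1 : ℝ) ≤ K := by exact_mod_cast hK
  calc (T.card : ℝ) ≤ (K : ℝ) ^ ⌊ρ⌋₊ := by exact_mod_cast h1
    _ = Real.exp (⌊ρ⌋₊ * Real.log K) := by
        rw [Real.exp_nat_mul, Real.exp_log (by linarith)]
    _ ≤ _ := Real.exp_le_exp.2
        (mul_le_mul_of_nonneg_right (Nat.floor_le hρ0) (Real.log_nonneg hK'))

/-! ### colourings -/

section col

variable {F : Finset G}

theorem om_zpow (ω : Om g M F) (i : ℤ) (a : G) :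
    ω.1 (g ^ i * a) = ((ω.1 a).1 + i, (ω.1 a).2) := by
  have h := ω.2.1
  induction i using Int.induction_on with
  | zero => simp
  | succ n ih =>
    rw [add_comm (n : ℤ) 1, zpow_add, zpow_one, mul_assoc, h, ih]
    push_cast
    exact Prod.ext (by ring) rfl
  | pred n ih =>
    have e := h (g ^ (-(n : ℤ) - 1) * a)
    rw [← mul_assoc, ← zpow_one_add, show 1 + (-(n : ℤ) - 1) = -n by ring, ih] at e
    have e1 := congrArg Prod.fst e
    have e2 := congrArg Prod.snd e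
    simp only at e1 e2
    refine Prod.ext ?_ e2.symm
    push_cast at e1 ⊢
    linear_combination -e1

/-- the colour of a label -/
def col (ω : Om g M F) : XX g M → Kl M (2 * F.card) :=
  Quotient.lift ω.1 fun a _ ⟨j, h⟩ => by
    rw [h, ← zpow_natCast, ← zpow_mul, om_zpow]
    simp

theorem col_pr (ω : Om g M F) (a : G) : col ω (pr g M a) = ω.1 a := rfl

theorem col_sg (ω : Om g M F) (x : XX g M) : col ω (sg g M x) = ((col ω x).1 + 1, (col ω x).2) := by
  obtain ⟨a, rfl⟩ := pr_surj x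
  exact ω.2.1 a

theorem col_actO (ω : Om g M F) {c : G} (hc : c * g = g * c) (x : XX g M) :
    col (actO g M F c hc ω) (act M c hc x) = col ω x := by
  obtain ⟨a, rfl⟩ := pr_surj x
  change ω.1 (c⁻¹ * (c * a)) = ω.1 a
  rw [inv_mul_cancel_left]

theorem continuous_col (x : XX g M) : Continuous fun ω : Om g M F => col ω x := by
  obtain ⟨a, rfl⟩ := pr_surj x
  exact (continuous_apply a).comp continuous_subtype_val

/-- the colours of finitely many labels are locally constant -/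
theorem eventually_col_eq (T : Finset (XX g M)) (ω : Om g M F) :
    ∀ᶠ ω' in nhds ω, ∀ x ∈ T, col ω' x = col ω x := by
  rw [Filter.eventually_all_finset]
  exact fun x _ => (continuous_col x).continuousAt.eventually
    ((isOpen_discrete {col ω x}).mem_nhds rfl)

/-- functions of the colours of finitely many labels are continuous -/
theorem continuous_of_col {Y : Type*} [TopologicalSpace Y] (T : Finset (XX g M))
    (f : Om g M F → Y) (hf : ∀ ω ω', (∀ x ∈ T, col ω' x = col ω x) → f ω' = f ω) :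
    Continuous f :=
  continuous_iff_continuousAt.2 fun ω => (continuousAt_const (y := f ω)).congr
    ((eventually_col_eq T ω).mono fun ω' h => (hf ω ω' h).symm)

end col

variable {r : ℕ}

theorem same_orbit (ω : Om g M (ℓ.ball r)) {a : G} {y : XX g M} (hd : dX ℓ (pr g M a) y ≤ r)
    (h : (col ω (pr g M a)).2 = (col ω y).2) :
    ∃ i : ℤ, y = pr g M (g ^ i * a) ∧ (col ω y).1 = (col ω (pr g M a)).1 + i := by
  obtain ⟨s, rfl, hs⟩ := exists_dX ℓ a y
  by_contra hc
  refine ω.2.2 a s ((ℓ.mem_ball r s).2 (hs ▸ hd)) (fun i hi => hc ⟨i, by rw [hi], ?_⟩) h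
  rw [hi, col_pr, col_pr, om_zpow]

theorem pr_zpow_congr {i j : ℤ} (h : (i : ZMod M) = j) (a : G) :
    pr g M (g ^ i * a) = pr g M (g ^ j * a) := by
  obtain ⟨k, hk⟩ := (ZMod.intCast_eq_intCast_iff_dvd_sub i j M).1 h
  exact pr_eq.2 ⟨k, by
    rw [← zpow_natCast, ← zpow_mul, ← mul_assoc, ← zpow_add, ← hk, sub_add_cancel]⟩

/-- the colouring is injective at distance at most `r` -/
theorem col_inj (ω : Om g M (ℓ.ball r)) {x y : XX g M} (hd : dX ℓ x y ≤ r)
    (h : col ω x = col ω y) : x = y := by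
  obtain ⟨a, rfl⟩ := pr_surj x
  obtain ⟨i, h1, h2⟩ := same_orbit ℓ ω hd (by rw [h])
  rw [h, left_eq_add] at h2
  rw [h1, pr_zpow_congr (j := 0) (by simpa using h2), zpow_zero, one_mul]

/-- the two cases in which small sets have at most `M / 2` residues for each colour -/
def Half (g : G) (M r : ℕ) : Prop :=
  2 * (ℓ.ball r).card ≤ M ∨ (g ^ M = 1 ∧ ∀ a, r < ℓ.L (a⁻¹ * g * a))

theorem card_res_le [NeZero M] (hH : Half ℓ g M r) (ω : Om g M (ℓ.ball r)) (T : Finset (XX g M))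
    (hT : ∀ x ∈ T, ∀ y ∈ T, dX ℓ x y ≤ r) (k : Fin (2 * (ℓ.ball r).card + 1))
    (A : Finset (ZMod M)) (hA : ∀ i ∈ A, ∃ x ∈ T, col ω x = (i, k)) : 2 * A.card ≤ M := by
  classical
  rcases hH with h | ⟨h1, h2⟩
  · have : A ⊆ T.image fun x => (col ω x).1 := fun i hi => by
      obtain ⟨x, hx, e⟩ := hA i hi
      exact mem_image.2 ⟨x, hx, by rw [e]⟩
    have := (card_le_card this).trans (card_image_le.trans (card_le_of_diam ℓ hT))
    omega
  · have hd : Disjoint A (A.image fun i => i + 1) := by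
      rw [disjoint_left]
      intro i hi hi'
      obtain ⟨j, hj, rfl⟩ := mem_image.1 hi'
      obtain ⟨x, hx, e⟩ := hA j hj
      obtain ⟨y, hy, e'⟩ := hA _ hi
      obtain ⟨a, rfl⟩ := pr_surj x
      obtain ⟨t, t1, t2⟩ := same_orbit ℓ ω (hT _ hx _ hy) (by rw [e, e'])
      rw [e, e', add_right_inj] at t2
      rw [pr_zpow_congr (j := 1) (by simpa using t2.symm), zpow_one] at t1
      obtain ⟨s, s1, s2⟩ := exists_dX ℓ a y
      obtain ⟨u, hu⟩ := pr_eq.1 (t1.symm.trans s1.symm)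
      rw [h1, one_zpow, one_mul] at hu
      have := h2 a
      rw [mul_assoc, ← hu, inv_mul_cancel_left, s2] at this
      exact absurd (hT _ hx _ hy) (not_le.2 this)
    have h3 := card_le_univ (A.disjUnion _ hd)
    rw [card_disjUnion, card_image_of_injective _ (add_left_injective 1), ZMod.card] at h3
    omega

/-- the choice of the period `M` -/
theorem exists_M (g : G) (r : ℕ) (h : ¬ IsOfFinOrder g ∨ ∀ a, r < ℓ.L (a⁻¹ * g * a)) :
    ∃ M : ℕ, M ≠ 0 ∧ (∀ i : ℤ, g ^ i = 1 → (M : ℤ) ∣ i) ∧ Half ℓ g M r := by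
  by_cases hg : IsOfFinOrder g
  · exact ⟨orderOf g, hg.orderOf_pos.ne', fun i hi => orderOf_dvd_iff_zpow_eq_one.2 hi,
      Or.inr ⟨pow_orderOf_eq_one g, h.resolve_left (not_not.2 hg)⟩⟩
  · refine ⟨2 * (ℓ.ball r).card + 1, by omega, fun i hi => ?_, Or.inl (by omega)⟩
    have := orderOf_dvd_iff_zpow_eq_one.2 hi
    rw [orderOf_eq_zero hg, Nat.cast_zero, zero_dvd_iff] at this
    simp [this]

/-! ### the image of a family of weights under the colouring -/

section push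

variable [NeZero M]

/-- the Euclidean space on the colours -/
abbrev VV (M d : ℕ) : Type := EuclideanSpace ℝ (Kl M d)

/-- the shift of the colours -/
def shE (M d : ℕ) : Kl M d ≃ Kl M d := (Equiv.addRight 1).prodCongr (Equiv.refl _)

/-- the shift as an isometry -/
noncomputable def sig (M d : ℕ) [NeZero M] : VV M d →ₗᵢ[ℝ] VV M d :=
  (LinearIsometryEquiv.piLpCongrLeft 2 ℝ ℝ (shE M d)).toLinearIsometry

theorem sig_apply {d : ℕ} (y : VV M d) (k : Kl M d) : sig M d y (k.1 + 1, k.2) = y k := by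
  change y ((shE M d).symm (shE M d k)) = y k
  rw [Equiv.symm_apply_apply]

variable {F : Finset G}

open Classical in
/-- the image of the weights `u` -/
noncomputable def push (ω : Om g M F) (u : XX g M → ℝ) : VV M (2 * F.card) :=
  WithLp.toLp 2 fun k => ∑ᶠ x, if col ω x = k then u x else 0

omit [NeZero M] in
theorem push_apply (ω : Om g M F) {u : XX g M → ℝ} {T : Finset (XX g M)} (hT : ∀ x ∉ T, u x = 0)
    (k : Kl M (2 * F.card)) : push ω u k = ∑ x ∈ T, if col ω x = k then u x else 0 := by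
  refine (finsum_eq_sum_of_support_subset _ fun x hx => ?_).trans (sum_congr rfl fun x _ => ?_)
  · by_contra h
    exact hx (by simp [hT x h])
  · congr

omit [NeZero M] in
theorem push_eq (ω : Om g M F) {u : XX g M → ℝ} {T : Finset (XX g M)} (hT : ∀ x ∉ T, u x = 0) :
    push ω u = ∑ x ∈ T, u x • EuclideanSpace.single (col ω x) (1 : ℝ) := by
  ext k
  rw [push_apply ω hT, WithLp.ofLp_sum, Finset.sum_apply]
  refine sum_congr rfl fun x _ => ?_
  by_cases h : col ω x = k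
  · simp [h]
  · simp [h, Ne.symm h]

omit [NeZero M] in
theorem push_congr {ω ω' : Om g M F} {u : XX g M → ℝ} {T : Finset (XX g M)}
    (hT : ∀ x ∉ T, u x = 0) (h : ∀ x ∈ T, col ω' x = col ω x) : push ω' u = push ω u := by
  ext k
  rw [push_apply ω hT, push_apply ω' hT]
  exact sum_congr rfl fun x hx => by rw [h x hx]

/-- translation of the weights by `g` shifts the image -/
theorem push_sg (ω : Om g M F) (u u' : XX g M → ℝ) (h : ∀ x, u' (sg g M x) = u x) :
    push ω u' = sig M _ (push ω u) := by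
  classical
  ext k
  obtain ⟨k, rfl⟩ := (shE M _).surjective k
  change push ω u' (k.1 + 1, k.2) = sig M _ (push ω u) (k.1 + 1, k.2)
  rw [sig_apply]
  change (∑ᶠ x, _) = ∑ᶠ x, _
  rw [← finsum_comp_equiv (sg g M)]
  refine finsum_congr fun x => ?_
  have : col ω (sg g M x) = (k.1 + 1, k.2) ↔ col ω x = k := by
    rw [col_sg, Prod.ext_iff, Prod.ext_iff, add_left_inj]
  simp only [h, this]

omit [NeZero M] in
/-- invariance under the centralizer -/
theorem push_act (ω : Om g M F) {c : G} (hc : c * g = g * c) (u u' : XX g M → ℝ)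
    (h : ∀ x, u' (act M c hc x) = u x) : push (actO g M F c hc ω) u' = push ω u := by
  classical
  ext k
  change (∑ᶠ x, _) = ∑ᶠ x, _
  rw [← finsum_comp_equiv (act M c hc)]
  exact finsum_congr fun x => by simp only [h, col_actO]

theorem inner_push_right (ω : Om g M F) {u : XX g M → ℝ} {T : Finset (XX g M)}
    (hT : ∀ x ∉ T, u x = 0) (y : VV M (2 * F.card)) :
    ⟪y, push ω u⟫ = ∑ x ∈ T, u x * y (col ω x) := by
  rw [push_eq ω hT, inner_sum]
  exact sum_congr rfl fun x _ => by rw [real_inner_smul_right, EuclideanSpace.inner_single_right]; simp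

theorem inner_push (ω : Om g M (ℓ.ball r)) {u v : XX g M → ℝ} {T : Finset (XX g M)}
    (hu : ∀ x ∉ T, u x = 0) (hv : ∀ x ∉ T, v x = 0)
    (hd : ∀ x y, u x ≠ 0 → v y ≠ 0 → dX ℓ x y ≤ r) :
    ⟪push ω u, push ω v⟫ = ∑ x ∈ T, u x * v x := by
  rw [inner_push_right ω hv]
  refine sum_congr rfl fun y hy => ?_
  by_cases h0 : v y = 0
  · simp [h0]
  rw [push_apply ω hu, sum_eq_single y, if_pos rfl, mul_comm]
  · intro x _ hxy
    by_cases h1 : u x = 0
    · simp [h1]
    · exact if_neg fun e => hxy (col_inj ℓ ω (hd x y h1 h0) e)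
  · exact fun h => absurd hy h

theorem norm_push_sq (ω : Om g M (ℓ.ball r)) {u : XX g M → ℝ} {T : Finset (XX g M)}
    (hu : ∀ x ∉ T, u x = 0) (hd : ∀ x y, u x ≠ 0 → u y ≠ 0 → dX ℓ x y ≤ r) :
    ‖push ω u‖ ^ 2 = ∑ x ∈ T, u x ^ 2 := by
  rw [← real_inner_self_eq_norm_sq, inner_push ℓ ω hu hu hd]
  simp only [sq]

omit [NeZero M] in
theorem inv_const {d : ℕ} [NeZero M] {y : VV M d} (hy : sig M d y = y) (i : ZMod M)
    (k : Fin (d + 1)) : y (i, k) = y (0, k) := by
  obtain ⟨n, rfl⟩ := ZMod.natCast_zmod_surjective i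
  induction n with
  | zero => simp
  | succ n ih =>
    have := sig_apply y ((n : ZMod M), k)
    rw [hy] at this
    rw [Nat.cast_succ, this, ih]

/-- the image of weights of small support is far from the invariant vectors -/
theorem half (hH : Half ℓ g M r) (ω : Om g M (ℓ.ball r)) {u : XX g M → ℝ} {T : Finset (XX g M)}
    (hu : ∀ x ∉ T, u x = 0) (hd : ∀ x y, u x ≠ 0 → u y ≠ 0 → dX ℓ x y ≤ r)
    (y : VV M (2 * (ℓ.ball r).card)) (hy : sig M _ y = y) :
    ⟪y, push ω u⟫ ^ 2 ≤ ‖y‖ ^ 2 * ‖push ω u‖ ^ 2 / 2 := by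
  classical
  set T' := T.filter fun x => u x ≠ 0 with hT'
  have hu' : ∀ x ∉ T', u x = 0 := fun x hx => by
    by_contra h
    exact hx (mem_filter.2 ⟨by by_contra h'; exact h (hu x h'), h⟩)
  have hd' : ∀ x ∈ T', ∀ z ∈ T', dX ℓ x z ≤ r := fun x hx z hz =>
    hd x z (mem_filter.1 hx).2 (mem_filter.1 hz).2
  have h1 : ∑ x ∈ T', y (col ω x) ^ 2 ≤ ‖y‖ ^ 2 / 2 := by
    rw [← sum_image (f := fun k => y k ^ 2) fun x hx z hz e => col_inj ℓ ω (hd' x hx z hz) e,
      EuclideanSpace.real_norm_sq_eq, Fintype.sum_prod_type_right, sum_div,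
      ← sum_fiberwise_of_maps_to (t := univ) (g := Prod.snd) fun _ _ => mem_univ _]
    refine sum_le_sum fun k _ => ?_
    set B := (T'.image (col ω)).filter fun p => p.2 = k with hB
    have e1 : ∑ p ∈ B, y p ^ 2 = B.card * y (0, k) ^ 2 := by
      rw [← nsmul_eq_mul, ← sum_const]
      refine sum_congr rfl fun p hp => ?_
      rw [← (mem_filter.1 hp).2, ← inv_const hy p.1 p.2]
    have e2 : ∑ i : ZMod M, y (i, k) ^ 2 = M * y (0, k) ^ 2 := by
      simp only [inv_const hy _ k, sum_const, card_univ, ZMod.card, nsmul_eq_mul]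
    have e3 : 2 * (B.image Prod.fst).card ≤ M :=
      card_res_le ℓ hH ω T' hd' k _ fun i hi => by
        obtain ⟨p, hp, rfl⟩ := mem_image.1 hi
        obtain ⟨x, hx, e⟩ := mem_image.1 (mem_filter.1 hp).1
        exact ⟨x, hx, by rw [e, ← (mem_filter.1 hp).2]⟩
    rw [card_image_of_injOn fun p hp q hq e =>
      Prod.ext e ((mem_filter.1 hp).2.trans (mem_filter.1 hq).2.symm)] at e3
    have e4 : 2 * (B.card : ℝ) ≤ M := by exact_mod_cast e3
    rw [e1, e2]
    nlinarith [sq_nonneg (y (0, k))]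
  rw [inner_push_right ω hu', norm_push_sq ℓ ω hu' hd]
  have h2 := sum_mul_sq_le_sq_mul_sq T' u fun x => y (col ω x)
  have h3 : 0 ≤ ∑ x ∈ T', u x ^ 2 := sum_nonneg fun x _ => sq_nonneg _
  nlinarith [mul_le_mul_of_nonneg_left h1 h3]

variable {E : Type*} [NormedAddCommGroup E] [NormedSpace ℝ E]

theorem contDiff_push {n : WithTop ℕ∞} (ω : Om g M F) {u : E → XX g M → ℝ} {T : Finset (XX g M)}
    (hT : ∀ e, ∀ x ∉ T, u e x = 0) (hu : ∀ x, ContDiff ℝ n fun e => u e x) :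
    ContDiff ℝ n fun e => push ω (u e) := by
  simp only [fun e => push_eq ω (hT e)]
  exact ContDiff.sum fun x _ => (hu x).smul contDiff_const

theorem fderiv_eq_zero_off {X : Type*} {u : E → X → ℝ} {T : Finset X}
    (hT : ∀ e, ∀ x ∉ T, u e x = 0) (e v : E) : ∀ x ∉ T, fderiv ℝ (fun e => u e x) e v = 0 := by
  intro x hx
  simp [fun e => hT e x hx]

theorem fderiv_push (ω : Om g M F) {u : E → XX g M → ℝ} {T : Finset (XX g M)}
    (hT : ∀ e, ∀ x ∉ T, u e x = 0) {e : E} (hu : ∀ x, DifferentiableAt ℝ (fun e => u e x) e)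
    (v : E) : fderiv ℝ (fun e => push ω (u e)) e v =
      push ω fun x => fderiv ℝ (fun e => u e x) e v := by
  rw [push_eq ω (fderiv_eq_zero_off hT e v)]
  simp only [fun e => push_eq ω (hT e)]
  rw [(HasFDerivAt.fun_sum fun x _ => (hu x).hasFDerivAt.smul_const _).fderiv]
  simp

end push

end Vale.Agent.P184Z.Lab
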