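import Vale.Agent.P184Z.Glue
import Vale.Agent.P184.H250.Decay2
import Vale.Agent.P184Z.Lab

/-!
# The labelled quotient space of a group element
-/

open scoped ContDiff
open MeasureTheory

noncomputable section

namespace Vale.Agent.P184Z

open Vale.Agent.P184.H38

universe u

open Vale.Agent.P184.H250

open Classical in
/-- The truncated word length. -/
def tl {G : Type u} [Group G] (S : Finset G) (Rb : ℕ) (a : G) : ℝ :=
  if ∃ n, IsWd S n a then min (wl S a : ℝ) Rb else Rb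

/-- The geometric model at `x`. -/
structure Mod {G : Type u} [Group G] (S : Finset G) (Rb : ℕ) (x : G) (M : ℕ) (C : Type)
    (X Ω : Type u) [TopologicalSpace Ω] [CompactSpace Ω] where
  g : Geo X M
  A : Avg x Ω
  π : G → X
  α : ∀ c : G, c * x = x * c → X ≃ X
  lab : Ω → X → Lb M C
  Rb_eq : g.Rb = Rb
  π_x : ∀ a, π (x * a) = g.σ (π a)
  π_α : ∀ c hc a, π (c * a) = α c hc (π a)
  α_d : ∀ c hc y z, g.d (α c hc y) (α c hc z) = g.d y z
  α_σ : ∀ c hc y, α c hc (g.σ y) = g.σ (α c hc y)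
  d_le : ∀ a a', g.d (π a) (π a') ≤ tl S Rb (a⁻¹ * a')
  cnt : ∀ R : ℝ, 0 ≤ R → 2 * R ≤ Rb → Cnt g (8 * S.card) R
  isLab : ∀ o, IsLab g (lab o)
  lab_act : ∀ c hc o y, lab (A.act c hc o) (α c hc y) = lab o y
  lab_lc : ∀ y, IsLocallyConstant fun o => lab o y

namespace GeoI

open Lab Vale.Agent.P184.H428
open scoped Pointwise

variable {G : Type u} [Group G]

open Classical in
/-- The truncated word length, as a natural number. -/
def tn (S : Finset G) (Rb : ℕ) (a : G) : ℕ := if ∃ n, IsWd S n a then min (wl S a) Rb else Rb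

theorem tl_eq (S : Finset G) (Rb : ℕ) (a : G) : tl S Rb a = tn S Rb a := by
  unfold tl tn
  split_ifs <;> simp

variable {S : Finset G} {Rb : ℕ}

theorem tn_le (a : G) : tn S Rb a ≤ Rb := by
  unfold tn
  split_ifs <;> simp

theorem tn_le_of {a : G} {n : ℕ} (h : IsWd S n a) : tn S Rb a ≤ n := by
  unfold tn
  rw [if_pos ⟨n, h⟩]
  exact (min_le_left _ _).trans (wl_le h)

theorem isWd_tn {a : G} (h : tn S Rb a < Rb) : IsWd S (tn S Rb a) a := by
  unfold tn at h ⊢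
  split_ifs at h ⊢ with h1
  · rw [min_eq_left (by omega)]
    exact wl_spec h1
  · omega

theorem tn_one : tn S Rb 1 = 0 := Nat.le_zero.1 (tn_le_of (isWd_one S))

theorem tn_inv (hS : ∀ s ∈ S, s⁻¹ ∈ S) (a : G) : tn S Rb a⁻¹ = tn S Rb a := by
  unfold tn
  rw [exWd_inv hS, wl_inv hS]

theorem tn_mul (a b : G) : tn S Rb (a * b) ≤ tn S Rb a + tn S Rb b := by
  have h0 := tn_le (S := S) (Rb := Rb) (a * b)
  by_cases ha : tn S Rb a < Rb
  · by_cases hb : tn S Rb b < Rb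
    · exact tn_le_of ((isWd_tn ha).mul (isWd_tn hb))
    · omega
  · omega

theorem finite_tn (S : Finset G) (Rb : ℕ) : {a : G | tn S Rb a < Rb}.Finite := by
  classical
  refine ((Finset.range Rb).biUnion fun n => S ^ n).finite_toSet.subset fun a ha => ?_
  simp only [Finset.coe_biUnion, Finset.mem_coe, Finset.mem_range, Set.mem_iUnion, Finset.coe_pow]
  exact ⟨_, ha, isWd_iff.1 (isWd_tn ha)⟩

variable {x : G} {M : ℕ}

/-- The distance on the quotient. -/
def dN (S : Finset G) (Rb : ℕ) (y z : XX x M) : ℕ :=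
  sInf {n | ∃ a s, pr x M a = y ∧ pr x M (a * s) = z ∧ tn S Rb s = n}

theorem dN_le (a s : G) : dN S Rb (pr x M a) (pr x M (a * s)) ≤ tn S Rb s :=
  Nat.sInf_le ⟨a, s, rfl, rfl, rfl⟩

theorem exists_dN (a : G) (y : XX x M) :
    ∃ s, pr x M (a * s) = y ∧ tn S Rb s = dN S Rb (pr x M a) y := by
  obtain ⟨b, rfl⟩ := pr_surj y
  have hne : {n | ∃ a' s, pr x M a' = pr x M a ∧ pr x M (a' * s) = pr x M b ∧
      tn S Rb s = n}.Nonempty := ⟨_, a, a⁻¹ * b, rfl, by rw [mul_inv_cancel_left], rfl⟩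
  obtain ⟨a', s, h1, h2, h3⟩ := Nat.sInf_mem hne
  obtain ⟨j, hj⟩ := pr_eq.1 h1
  exact ⟨s, by rw [hj, mul_assoc, pr_zpow_mul, h2], h3⟩

theorem dN_self (y : XX x M) : dN S Rb y y = 0 := by
  obtain ⟨a, rfl⟩ := pr_surj y
  have := dN_le (S := S) (Rb := Rb) (x := x) (M := M) a 1
  rw [mul_one, tn_one] at this
  omega

theorem dN_comm (hS : ∀ s ∈ S, s⁻¹ ∈ S) (y z : XX x M) : dN S Rb y z = dN S Rb z y := by
  have key : ∀ y z : XX x M, dN S Rb y z ≤ dN S Rb z y := fun y z => by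
    obtain ⟨b, rfl⟩ := pr_surj z
    obtain ⟨s, rfl, h⟩ := exists_dN (S := S) (Rb := Rb) b y
    have := dN_le (S := S) (Rb := Rb) (x := x) (M := M) (b * s) s⁻¹
    rwa [mul_inv_cancel_right, tn_inv hS, h] at this
  exact le_antisymm (key y z) (key z y)

theorem dN_tri (y z w : XX x M) : dN S Rb y w ≤ dN S Rb y z + dN S Rb z w := by
  obtain ⟨a, rfl⟩ := pr_surj y
  obtain ⟨s, rfl, h⟩ := exists_dN (S := S) (Rb := Rb) a z
  obtain ⟨t, rfl, h'⟩ := exists_dN (S := S) (Rb := Rb) (a * s) w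
  rw [← h, ← h', mul_assoc]
  exact (dN_le a (s * t)).trans (tn_mul s t)

theorem dN_le_Rb (y z : XX x M) : dN S Rb y z ≤ Rb := by
  obtain ⟨a, rfl⟩ := pr_surj y
  obtain ⟨s, -, h⟩ := exists_dN (S := S) (Rb := Rb) a z
  exact h ▸ tn_le s

theorem dN_act {c : G} (hc : c * x = x * c) (y z : XX x M) :
    dN S Rb (act M c hc y) (act M c hc z) = dN S Rb y z := by
  have key : ∀ (c : G) (hc : c * x = x * c) (y z : XX x M),
      dN S Rb (act M c hc y) (act M c hc z) ≤ dN S Rb y z := fun c hc y z => by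
    obtain ⟨a, rfl⟩ := pr_surj y
    obtain ⟨s, rfl, h⟩ := exists_dN (S := S) (Rb := Rb) a z
    rw [← h, act_pr, act_pr, ← mul_assoc]
    exact dN_le _ _
  refine le_antisymm (key c hc y z) ?_
  have := key c⁻¹ (inv_comm' hc) (act M c hc y) (act M c hc z)
  rwa [← act_symm hc, Equiv.symm_apply_apply, Equiv.symm_apply_apply] at this

/-- Counting of the points near a given point. -/
theorem card_le (B : Finset G) (r : ℕ) (hB : ∀ s, tn S Rb s < r → s ∈ B) (U : Finset (XX x M))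
    (hU : ∀ y ∈ U, ∀ z ∈ U, dN S Rb y z < r) : U.card ≤ B.card := by
  classical
  rcases U.eq_empty_or_nonempty with rfl | ⟨y, hy⟩
  · simp
  obtain ⟨a, rfl⟩ := pr_surj y
  refine (Finset.card_le_card (t := B.image fun s => pr x M (a * s)) fun z hz => ?_).trans
    Finset.card_image_le
  obtain ⟨s, h1, h2⟩ := exists_dN (S := S) (Rb := Rb) a z
  exact Finset.mem_image.2 ⟨s, hB s (h2 ▸ hU _ hy z hz), h1⟩

/-- The space. -/
def geo (hS : ∀ s ∈ S, s⁻¹ ∈ S) (Rb : ℕ) (x : G) (M : ℕ) : Geo (XX x M) M where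
  d y z := dN S Rb y z
  Rb := Rb
  σ := sg x M
  d_self y := by rw [dN_self, Nat.cast_zero]
  d_symm y z := by rw [dN_comm hS]
  d_tri y z w := by exact_mod_cast dN_tri y z w
  d_le y z := by exact_mod_cast dN_le_Rb y z
  σ_d y z := by exact_mod_cast dN_act rfl y z
  σ_pow := Equiv.ext fun y => by
    rw [Equiv.Perm.coe_pow]
    exact sg_iter y
  fin y := by
    obtain ⟨a, rfl⟩ := pr_surj y
    refine ((finite_tn S Rb).image fun s => pr x M (a * s)).subset fun z hz => ?_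
    obtain ⟨s, h1, h2⟩ := exists_dN (S := S) (Rb := Rb) a z
    refine ⟨s, ?_, h1⟩
    rw [Set.mem_ofPred_eq, h2]
    exact_mod_cast hz

theorem cnt (h1 : 1 ∈ S) (hS : ∀ s ∈ S, s⁻¹ ∈ S) (R : ℝ) (hR : 0 ≤ R) (h2 : 2 * R ≤ Rb) :
    Cnt (geo hS Rb x M) (8 * S.card) R := by
  classical
  intro U hU
  have h3 := card_le (S := S) (Rb := Rb) (S ^ ⌈2 * R⌉₊.pred) ⌈2 * R⌉₊ (fun s hs => by
    have h4 : tn S Rb s < Rb := hs.trans_le (Nat.ceil_le.2 h2)
    rw [← Finset.mem_coe, Finset.coe_pow]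
    exact Set.pow_subset_pow_right h1 (Nat.le_pred_of_lt hs) (isWd_iff.1 (isWd_tn h4))) U
    fun y hy z hz => Nat.lt_ceil.2 (hU y hy z hz)
  have h5 : ((⌈2 * R⌉₊.pred : ℕ) : ℝ) ≤ 2 * R := by
    rcases Nat.eq_zero_or_pos ⌈2 * R⌉₊ with h | h
    · rw [h]; simpa using hR
    · exact (Nat.lt_ceil.1 (Nat.pred_lt h.ne')).le
  have h6 : (S.card : ℝ) ≤ Real.exp S.card := by linarith [Real.add_one_le_exp (S.card : ℝ)]
  calc (U.card : ℝ) ≤ (S.card : ℝ) ^ ⌈2 * R⌉₊.pred := by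
        exact_mod_cast h3.trans Finset.card_pow_le
    _ ≤ Real.exp S.card ^ ⌈2 * R⌉₊.pred := by gcongr
    _ ≤ _ := by
        rw [← Real.exp_nat_mul, Real.exp_le_exp]
        nlinarith [Nat.cast_nonneg (α := ℝ) S.card]

/-- The set of the short elements. -/
def FF (S : Finset G) (Rb : ℕ) : Finset G := (finite_tn S Rb).toFinset

theorem mem_FF {s : G} : s ∈ FF S Rb ↔ tn S Rb s < Rb := (finite_tn S Rb).mem_toFinset

theorem same (o : Om x M (FF S Rb)) {a : G} {y : XX x M} (hd : dN S Rb (pr x M a) y < Rb)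
    (h : (col o (pr x M a)).2 = (col o y).2) :
    ∃ i : ℤ, y = pr x M (x ^ i * a) ∧ (col o y).1 = (col o (pr x M a)).1 + i := by
  obtain ⟨s, rfl, hs⟩ := exists_dN (S := S) (Rb := Rb) a y
  by_contra hc
  refine o.2.2 a s (mem_FF.2 (hs ▸ hd)) (fun i hi => hc ⟨i, by rw [hi], ?_⟩) h
  rw [hi, col_pr, col_pr, om_zpow]

theorem inj (o : Om x M (FF S Rb)) {y z : XX x M} (hd : dN S Rb y z < Rb)
    (h : col o y = col o z) : y = z := by
  obtain ⟨a, rfl⟩ := pr_surj y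
  obtain ⟨i, h1, h2⟩ := same o hd (by rw [h])
  rw [h, left_eq_add] at h2
  rw [h1, pr_zpow_congr (j := 0) (by simpa using h2), zpow_zero, one_mul]

theorem fib [NeZero M]
    (hH : 2 * (FF S Rb).card ≤ M ∨ (x ^ M = 1 ∧ ∀ a, ¬ tn S Rb (a⁻¹ * x * a) < Rb))
    (o : Om x M (FF S Rb)) (U : Finset (XX x M))
    (hU : ∀ y ∈ U, ∀ z ∈ U, dN S Rb y z < Rb ∧ (col o y).2 = (col o z).2) : 2 * U.card ≤ M := by
  classical
  rcases hH with h | ⟨h1, h2⟩
  · have := card_le (FF S Rb) Rb (fun s hs => mem_FF.2 hs) U fun y hy z hz => (hU y hy z hz).1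
    omega
  · set A := U.image fun y => (col o y).1 with hA
    have hc : A.card = U.card := Finset.card_image_of_injOn fun y hy z hz e =>
      inj o (hU y hy z hz).1 (Prod.ext e (hU y hy z hz).2)
    have hd : Disjoint A (A.image fun i => i + 1) := by
      rw [Finset.disjoint_left]
      intro i hi hi'
      obtain ⟨j, hj, rfl⟩ := Finset.mem_image.1 hi'
      obtain ⟨y, hy, e⟩ := Finset.mem_image.1 hj
      obtain ⟨z, hz, e'⟩ := Finset.mem_image.1 hi
      obtain ⟨a, rfl⟩ := pr_surj y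
      obtain ⟨t, t1, t2⟩ := same o (hU _ hy _ hz).1 (hU _ hy _ hz).2
      rw [e, e', add_right_inj] at t2
      rw [pr_zpow_congr (j := 1) (by simpa using t2.symm), zpow_one] at t1
      obtain ⟨s, s1, s2⟩ := exists_dN (S := S) (Rb := Rb) a z
      obtain ⟨u, hu⟩ := pr_eq.1 (t1.symm.trans s1.symm)
      rw [h1, one_zpow, one_mul] at hu
      have := h2 a
      rw [mul_assoc, ← hu, inv_mul_cancel_left, s2] at this
      exact this (hU _ hy _ hz).1
    have h3 := Finset.card_le_univ (A.disjUnion _ hd)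
    rw [Finset.card_disjUnion, Finset.card_image_of_injective _ (add_left_injective 1),
      ZMod.card] at h3
    omega

theorem exists_M (S : Finset G) (Rb : ℕ) (x : G)
    (h : ¬ IsOfFinOrder x ∨ ∀ a, ¬ tn S Rb (a⁻¹ * x * a) < Rb) :
    ∃ M : ℕ, M ≠ 0 ∧ (∀ i : ℤ, x ^ i = 1 → (M : ℤ) ∣ i) ∧
      (2 * (FF S Rb).card ≤ M ∨ (x ^ M = 1 ∧ ∀ a, ¬ tn S Rb (a⁻¹ * x * a) < Rb)) := by
  by_cases hg : IsOfFinOrder x
  · exact ⟨orderOf x, hg.orderOf_pos.ne', fun i hi => orderOf_dvd_iff_zpow_eq_one.2 hi,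
      Or.inr ⟨pow_orderOf_eq_one x, h.resolve_left (not_not.2 hg)⟩⟩
  · refine ⟨2 * (FF S Rb).card + 1, by omega, fun i hi => ?_, Or.inl (by omega)⟩
    have := orderOf_dvd_iff_zpow_eq_one.2 hi
    rw [orderOf_eq_zero hg, Nat.cast_zero, zero_dvd_iff] at this
    simp [this]

end GeoI

theorem tl_nonneg {G : Type u} [Group G] (S : Finset G) (Rb : ℕ) (a : G) : 0 ≤ tl S Rb a := by
  rw [GeoI.tl_eq]
  exact Nat.cast_nonneg _

theorem tl_le {G : Type u} [Group G] (S : Finset G) (Rb : ℕ) (a : G) : tl S Rb a ≤ Rb := by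
  rw [GeoI.tl_eq]
  exact_mod_cast GeoI.tn_le a

theorem finite_tl {G : Type u} [Group G] (S : Finset G) (Rb : ℕ) :
    {a : G | tl S Rb a < Rb}.Finite := by
  simpa only [GeoI.tl_eq, Nat.cast_lt] using GeoI.finite_tn S Rb

open Lab Vale.Agent.P184.H428 in
theorem exists_mod {G : Type u} [Group G] (S : Finset G) (h1 : 1 ∈ S) (hS : ∀ s ∈ S, s⁻¹ ∈ S)
    (Rb : ℕ) (hR : 1 ≤ Rb) (x : G)
    (hx : ¬ IsOfFinOrder x ∨ ∀ y, IsConj x y → ¬ tl S Rb y < Rb) :
    ∃ (M : ℕ) (_ : NeZero M) (C : Type) (_ : Fintype C) (X Ω : Type u) (_ : TopologicalSpace Ω)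
      (_ : CompactSpace Ω), Nonempty (Mod S Rb x M C X Ω) := by
  have _ := hR
  obtain ⟨M, hM, hdiv, hH⟩ := GeoI.exists_M S Rb x (hx.imp_right fun h a => by
    have := h (a⁻¹ * x * a) (isConj_iff.2 ⟨a⁻¹, by rw [inv_inv]⟩)
    rwa [GeoI.tl_eq, Nat.cast_lt] at this)
  have : NeZero M := ⟨hM⟩
  obtain ⟨φ, φ1, φ2, φ3⟩ := exists_functional' x M (GeoI.FF S Rb) hdiv
  refine ⟨M, this, Fin (2 * (GeoI.FF S Rb).card + 1), inferInstance, XX x M,
    Om x M (GeoI.FF S Rb), inferInstance, inferInstance, ⟨{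
      g := GeoI.geo hS Rb x M
      A := ⟨actO x M _, φ, φ1, φ2, φ3⟩
      π := pr x M
      α := act M
      lab := col
      Rb_eq := rfl
      π_x := fun _ => rfl
      π_α := fun _ _ _ => rfl
      α_d := fun c hc y z => congrArg Nat.cast (GeoI.dN_act hc y z)
      α_σ := fun c hc y => act_sg hc y
      d_le := fun a a' => ?_
      cnt := GeoI.cnt h1 hS
      isLab := fun o => ⟨col_sg o, fun y z h => GeoI.inj o (Nat.cast_lt.1 h), fun U hU =>
        GeoI.fib hH o U fun y hy z hz => ⟨Nat.cast_lt.1 (hU y hy z hz).1, (hU y hy z hz).2⟩⟩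
      lab_act := fun c hc o y => col_actO o hc y
      lab_lc := fun y => (IsLocallyConstant.iff_continuous _).2 (continuous_col y) }⟩⟩
  have := GeoI.dN_le (S := S) (Rb := Rb) (x := x) (M := M) a (a⁻¹ * a')
  rw [mul_inv_cancel_left] at this
  rw [GeoI.tl_eq]
  exact Nat.cast_le.2 this

end Vale.Agent.P184Z
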