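import Vale.Agent.P184Z.Defs

/-!
# Existence of the smooth staircases
-/

open scoped ContDiff
open MeasureTheory

noncomputable section

namespace Vale.Agent.P184Z

theorem contDiff_of_hasDerivAt {f f' : ℝ → ℝ} (h : ∀ r, HasDerivAt f (f' r) r)
    (h' : ContDiff ℝ ∞ f') : ContDiff ℝ ∞ f := by
  have : deriv f = f' := funext fun r => (h r).deriv
  exact contDiff_infty_iff_deriv.2 ⟨fun r => (h r).differentiableAt, this ▸ h'⟩

theorem hasDerivAt_prim {f : ℝ → ℝ} (hf : Continuous f) (a r : ℝ) :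
    HasDerivAt (fun r => ∫ x in a..r, f x) (f r) r :=
  intervalIntegral.integral_hasDerivAt_right (hf.intervalIntegrable _ _)
    (hf.stronglyMeasurableAtFilter _ _) hf.continuousAt

/-- A smooth step of width `η`. -/
theorem exists_step {η : ℝ} (hη : 0 < η) : ∃ φ κ : ℝ → ℝ, ContDiff ℝ ∞ φ ∧
    (∀ r, HasDerivAt φ (κ r) r) ∧ (∀ r, 0 ≤ κ r) ∧ (∀ r, κ r ≤ 1 / η) ∧
    (∀ r, η ≤ |r| → κ r = 0) ∧ (∀ r, |r| ≤ η / 2 → 1 / (2 * η) ≤ κ r) ∧
    (∀ r, r ≤ -η → φ r = 0) ∧ ∀ r, η ≤ r → φ r = 1 := by
  let f : ContDiffBump (0 : ℝ) := ⟨η / 2, η, by positivity, by linarith⟩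
  have hc : Continuous f := f.continuous
  have h0 (r : ℝ) (hr : η ≤ |r|) : f r = 0 := f.zero_of_le_dist (by simpa using hr)
  have h1 (r : ℝ) (hr : |r| ≤ η / 2) : f r = 1 := f.one_of_mem_closedBall (by simpa using hr)
  set I := ∫ x in (-η)..η, f x with hI
  have hI2 : I ≤ 2 * η := by
    have := intervalIntegral.integral_mono_on (μ := volume) (by linarith : -η ≤ η)
      (hc.intervalIntegrable _ _) (continuous_const (y := (1 : ℝ)).intervalIntegrable _ _)
      fun x _ => f.le_one
    simp only [intervalIntegral.integral_const, smul_eq_mul] at this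
    linarith
  have hI1 : η ≤ I := by
    have e1 : ∫ x in (-(η / 2))..(η / 2), f x = η := by
      rw [intervalIntegral.integral_congr (g := fun _ => 1) fun x hx => h1 x (by
        rw [Set.uIcc_of_le (by linarith)] at hx; exact abs_le.2 hx)]
      simp
    rw [← e1]
    exact intervalIntegral.integral_mono_interval (by linarith) (by linarith) (by linarith)
      (Filter.Eventually.of_forall fun x => f.nonneg) (hc.intervalIntegrable _ _)
  have hI0 : 0 < I := by linarith
  refine ⟨fun r => (∫ x in (-η)..r, f x) / I, fun r => f r / I, ?_,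
    fun r => (hasDerivAt_prim hc _ r).div_const I, fun r => div_nonneg f.nonneg hI0.le,
    fun r => div_le_div₀ zero_le_one f.le_one hη hI1, fun r hr => by simp [h0 r hr],
    fun r hr => ?_, fun r hr => ?_, fun r hr => ?_⟩
  · exact (contDiff_of_hasDerivAt (hasDerivAt_prim hc _) f.contDiff).div_const I
  · simp only [h1 r hr]
    exact one_div_le_one_div_of_le hI0 hI2
  · simp only
    rw [intervalIntegral.integral_congr (g := fun _ => 0) fun x hx => h0 x (by
      rw [Set.uIcc_of_ge hr] at hx; rw [abs_of_nonpos (by linarith [hx.2])]; linarith [hx.2])]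
    simp
  · simp only
    rw [← intervalIntegral.integral_add_adjacent_intervals (b := η) (hc.intervalIntegrable _ _)
      (hc.intervalIntegrable _ _), ← hI,
      intervalIntegral.integral_congr (a := η) (g := fun _ => 0) fun x hx => h0 x (by
        rw [Set.uIcc_of_le hr] at hx; exact hx.1.trans (le_abs_self x))]
    simp [hI0.ne']

theorem exists_ker' {M : ℕ} (hM : 0 < M) {η : ℝ} (hη : 0 < η) (hη' : 4 * η ≤ 1) :
    Nonempty (Ker M η) := by
  obtain ⟨φ, κ, hs, hd, k0, k1, k2, k3, p0, p1⟩ := exists_step hη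
  have hM1 : (1 : ℝ) ≤ M := by exact_mod_cast hM
  have hM0 : (0 : ℝ) < M := by linarith
  have hr (r : ℝ) : |r - round (r / M) * M| ≤ M / 2 := by
    have := abs_sub_round (r / M)
    have e : r - round (r / M) * M = (r / M - round (r / M)) * M := by field_simp
    rw [e, abs_mul, abs_of_pos hM0]
    nlinarith
  -- two integers close to the same point are equal or neighbours
  have near (r : ℝ) (k : ℤ) (h1 : (k - 1) * M + η ≤ r) (h2 : r ≤ (k + 1) * M - η) :
      round (r / M) = k ∨ (round (r / M) = k + 1 ∧ η ≤ r - k * M ∧ r - (k + 1) * M ≤ -η) ∨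
        (round (r / M) = k - 1 ∧ r - k * M ≤ -η ∧ η ≤ r - (k - 1) * M) := by
    have h3 := abs_le.1 (hr r)
    set j := round (r / M)
    have a1 : (j : ℝ) < k + 2 := by
      by_contra h
      nlinarith [not_lt.1 h]
    have a2 : (k : ℝ) - 2 < j := by
      by_contra h
      nlinarith [not_lt.1 h]
    have a3 : j < k + 2 := by exact_mod_cast a1
    have a4 : k - 2 < j := by exact_mod_cast a2
    rcases (by omega : j = k ∨ j = k + 1 ∨ j = k - 1) with h | h | h
    · exact Or.inl h
    · refine Or.inr (Or.inl ⟨h, ?_, by linarith⟩)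
      rw [h] at h3; push_cast at h3; linarith [h3.1]
    · refine Or.inr (Or.inr ⟨h, ?_, by linarith⟩)
      rw [h] at h3; push_cast at h3; linarith [h3.2]
  have loc (r : ℝ) (k : ℤ) (h1 : (k - 1) * M + η ≤ r) (h2 : r ≤ (k + 1) * M - η) :
      round (r / M) + φ (r - round (r / M) * M) = k + φ (r - k * M) ∧
        κ (r - round (r / M) * M) = κ (r - k * M) := by
    rcases near r k h1 h2 with h | ⟨h, a, b⟩ | ⟨h, a, b⟩ <;> rw [h]
    · exact ⟨rfl, rfl⟩
    · push_cast
      rw [p0 _ b, p1 _ a, k2 _ (le_abs.2 (Or.inr (by linarith))), k2 _ (le_abs.2 (Or.inl a))]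
      exact ⟨by ring, rfl⟩
    · push_cast
      rw [p0 _ a, p1 _ b, k2 _ (le_abs.2 (Or.inl b)), k2 _ (le_abs.2 (Or.inr (by linarith)))]
      exact ⟨by ring, rfl⟩
  have ev (r : ℝ) : (fun r : ℝ => round (r / M) + φ (r - round (r / M) * M)) =ᶠ[nhds r]
      fun x => round (r / M) + φ (x - round (r / M) * M) := by
    have h3 := abs_le.1 (hr r)
    have : r ∈ Set.Ioo (((round (r / M) : ℤ) - 1) * M + η) (((round (r / M) : ℤ) + 1) * M - η) :=
      ⟨by linarith [h3.1], by linarith [h3.2]⟩
    filter_upwards [Ioo_mem_nhds this.1 this.2] with x hx using (loc x _ hx.1.le hx.2.le).1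
  refine ⟨⟨fun r => round (r / M) + φ (r - round (r / M) * M), fun r => κ (r - round (r / M) * M),
    contDiff_iff_contDiffAt.2 fun r => ?_, fun r => ?_, fun r => ?_, fun r => k0 _, fun r => k1 _,
    fun r h => k2 _ (h _), fun r k h => ?_, fun r k h1 h2 => ?_⟩⟩
  · refine ContDiffAt.congr_of_eventuallyEq ?_ (ev r)
    exact (contDiff_const.add (hs.comp (contDiff_id.sub contDiff_const))).contDiffAt
  · refine HasDerivAt.congr_of_eventuallyEq ?_ (ev r)
    exact ((hd _).comp_sub_const r _).const_add _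
  · have e : (r + M) / M = r / M + 1 := by field_simp
    simp only [e, round_add_one]
    push_cast
    rw [show r + M - (round (r / M) + 1) * M = r - round (r / M) * M by ring]
    ring
  · have h3 := abs_le.1 h
    rw [(loc r k (by linarith [h3.1]) (by linarith [h3.2])).2]
    exact k3 _ h
  · rw [(loc r k h1 (by linarith)).1, p0 _ (by linarith), add_zero]

theorem exists_kit' {M : ℕ} (hM : 0 < M) {η0 η : ℝ} (h0 : 0 < η0) (h1 : η0 ≤ η)
    (h2 : 16 * η ≤ 1) : Nonempty (Kit M η0 η) := by
  obtain ⟨k0⟩ := exists_ker' hM h0 (by linarith)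
  obtain ⟨k1⟩ := exists_ker' (η := η) hM (by linarith) (by linarith)
  obtain ⟨k2⟩ := exists_ker' (η := 4 * η) hM (by linarith) (by linarith)
  have hs : ContDiff ℝ ∞ fun r => k0.Φ r - k2.Φ r := k0.smooth.sub k2.smooth
  have hc := hs.continuous
  have hp : Function.Periodic (fun r => k0.Φ r - k2.Φ r) (M : ℝ) := fun r => by
    simp only [k0.per, k2.per]; ring
  refine ⟨⟨k0, k1, k2, fun r => ∫ x in (0 : ℝ)..r, (k0.Φ x - k2.Φ x),
    ∫ x in (0 : ℝ)..M, (k0.Φ x - k2.Φ x), contDiff_of_hasDerivAt (hasDerivAt_prim hc 0) hs,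
    hasDerivAt_prim hc 0, fun r => ?_, h0, h1, h2, hM⟩⟩
  rw [← intervalIntegral.integral_add_adjacent_intervals (b := r) (hc.intervalIntegrable _ _)
    (hc.intervalIntegrable _ _), hp.intervalIntegral_add_eq r 0, zero_add]

end Vale.Agent.P184Z
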