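import Vale.Agent.P184Z.Ker0

/-!
# The kernels
-/

open scoped ContDiff
open MeasureTheory

noncomputable section

namespace Vale.Agent.P184Z

open Vale.Agent.P184.H38

universe u

variable {M : ℕ} {η η0 : ℝ}

theorem exists_ker (hM : 0 < M) (h0 : 0 < η) (h1 : 4 * η ≤ 1) : Nonempty (Ker M η) :=
  exists_ker' hM h0 h1

theorem exists_kit (hM : 0 < M) (h0 : 0 < η0) (h1 : η0 ≤ η) (h2 : 16 * η ≤ 1) :
    Nonempty (Kit M η0 η) :=
  exists_kit' hM h0 h1 h2

theorem Ker.contDiff_K (k : Ker M η) : ContDiff ℝ ∞ k.K := by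
  rw [show k.K = _root_.deriv k.Φ from funext fun r => (k.deriv r).deriv.symm]
  exact (contDiff_infty_iff_deriv.1 k.smooth).2

theorem Ker.mono (k : Ker M η) : Monotone k.Φ :=
  monotone_of_hasDerivAt_nonneg k.deriv k.K_nonneg

theorem Ker.K_per (k : Ker M η) (r : ℝ) : k.K (r + M) = k.K r := by
  have h1 : HasDerivAt (fun x => k.Φ (x + M)) (k.K (r + M)) r := (k.deriv _).comp_add_const r _
  simp only [k.per] at h1
  exact h1.unique ((k.deriv r).add_const 1)

theorem Ker.int_eq (k : Ker M η) (a b : ℝ) : ∫ r in a..b, k.K r = k.Φ b - k.Φ a :=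
  intervalIntegral.integral_eq_sub_of_hasDerivAt (fun r _ => k.deriv r)
    (k.contDiff_K.continuous.intervalIntegrable _ _)

theorem Ker.int_K (k : Ker M η) (hM : 0 < M) (h0 : 0 < η) (h1 : 4 * η ≤ 1) :
    ∫ r in (-η)..η, k.K r = 1 := by
  have hM1 : (1 : ℝ) ≤ M := by exact_mod_cast hM
  rw [k.int_eq, k.val η 1 (by simp) (by push_cast; linarith),
    k.val (-η) 0 (by push_cast; linarith) (by simp)]
  simp

theorem Ker.continuous_K1 (k : Ker M η) : Continuous k.K1 := by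
  have := k.contDiff_K.continuous
  unfold Ker.K1
  fun_prop

theorem Ker.K1_nonneg (k : Ker M η) (r : ℝ) : 0 ≤ k.K1 r :=
  Finset.sum_nonneg fun _ _ => k.K_nonneg _

/-- At most one translate of a function supported near the multiples of `M` is not zero. -/
theorem sum_range_le_of_near {f : ℝ → ℝ} {B δ : ℝ} (hB : 0 ≤ B) (hf : ∀ r, f r ≤ B)
    (hδ : 2 * δ ≤ 1) (h0 : ∀ r : ℝ, (∀ k : ℤ, δ ≤ |r - k * M|) → f r = 0) (r : ℝ) :
    ∑ j ∈ Finset.range M, f (r - j) ≤ B := by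
  by_cases h : ∃ j ∈ Finset.range M, f (r - j) ≠ 0
  swap
  · push Not at h
    rw [Finset.sum_eq_zero h]; exact hB
  obtain ⟨j, hj, hj0⟩ := h
  rw [Finset.sum_eq_single_of_mem j hj fun i hi hij => ?_]
  · exact hf _
  by_contra hi0
  obtain ⟨a, ha⟩ : ∃ a : ℤ, |r - j - a * M| < δ := by
    by_contra h; push Not at h; exact hj0 (h0 _ h)
  obtain ⟨b, hb⟩ : ∃ b : ℤ, |r - i - b * M| < δ := by
    by_contra h; push Not at h; exact hi0 (h0 _ h)
  have h1 := abs_lt.1 ha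
  have h2 := abs_lt.1 hb
  have h3 : ((j + a * M - (i + b * M) : ℤ) : ℝ) < 1 := by push_cast; linarith
  have h4 : (-1 : ℝ) < ((j + a * M - (i + b * M) : ℤ) : ℝ) := by push_cast; linarith
  have h5 : (j + a * M - (i + b * M) : ℤ) < 1 := by exact_mod_cast h3
  have h6 : (-1 : ℤ) < j + a * M - (i + b * M) := by exact_mod_cast h4
  have h7 : (j : ℤ) - i = (b - a) * M := by linarith [show (j + a * M - (i + b * M) : ℤ) = 0 by omega]
  have hi' : (i : ℤ) < M := by exact_mod_cast Finset.mem_range.1 hi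
  have hj' : (j : ℤ) < M := by exact_mod_cast Finset.mem_range.1 hj
  have h8 : (j : ℤ) - i = 0 :=
    Int.eq_zero_of_abs_lt_dvd (m := M) ⟨b - a, by rw [h7]; ring⟩ (abs_lt.2 ⟨by omega, by omega⟩)
  exact hij (by omega)

theorem sum_range_zero_of_far {f : ℝ → ℝ} {δ : ℝ}
    (h0 : ∀ r : ℝ, (∀ k : ℤ, δ ≤ |r - k * M|) → f r = 0) (r : ℝ) (h : ∀ j : ℤ, δ ≤ |r - j|) :
    ∑ j ∈ Finset.range M, f (r - j) = 0 :=
  Finset.sum_eq_zero fun j _ => h0 _ fun k => by
    have := h (j + k * M)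
    push_cast at this
    rwa [sub_sub]

theorem Ker.K1_le (k : Ker M η) (h0 : 0 < η) (h1 : 4 * η ≤ 1) (r : ℝ) : k.K1 r ≤ 1 / η :=
  sum_range_le_of_near (by positivity) k.K_le (by linarith) k.K_zero r

theorem Ker.K1_zero (k : Ker M η) (r : ℝ) (h : ∀ j : ℤ, η ≤ |r - j|) : k.K1 r = 0 :=
  sum_range_zero_of_far k.K_zero r h

/-- The integral of the sum of the translates over a unit interval. -/
theorem int_sum_range {f : ℝ → ℝ} (hf : Continuous f) (M : ℕ) (s : ℝ) :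
    ∫ τ in (0 : ℝ)..1, ∑ j ∈ Finset.range M, f (τ - s - j) = ∫ x in (1 - s - M)..(1 - s), f x := by
  induction M with
  | zero => simp
  | succ M ih =>
    simp only [Finset.sum_range_succ]
    rw [intervalIntegral.integral_add (Continuous.intervalIntegrable (by fun_prop) _ _)
      (Continuous.intervalIntegrable (by fun_prop) _ _), ih]
    simp only [sub_sub]
    rw [intervalIntegral.integral_comp_sub_right f, add_comm,
      show (0 : ℝ) - (s + M) = 1 - (s + (M + 1 : ℕ)) by push_cast; ring]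
    exact intervalIntegral.integral_add_adjacent_intervals (hf.intervalIntegrable _ _)
      (hf.intervalIntegrable _ _)

theorem Ker.int_K1 (k : Ker M η) (hM : 0 < M) (s : ℝ) : ∫ τ in (0 : ℝ)..1, k.K1 (τ - s) = 1 := by
  have _ := hM
  unfold Ker.K1
  rw [int_sum_range k.contDiff_K.continuous, k.int_eq]
  have := k.per (1 - s - M)
  rw [sub_add_cancel] at this
  linarith

theorem Kit.continuous_k1abs (κ : Kit M η0 η) : Continuous κ.k1abs := by
  have := κ.k0.smooth.continuous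
  have := κ.k2.smooth.continuous
  unfold Kit.k1abs
  fun_prop

theorem Kit.k1abs_nonneg (κ : Kit M η0 η) (r : ℝ) : 0 ≤ κ.k1abs r :=
  Finset.sum_nonneg fun _ _ => abs_nonneg _

theorem Ker.val_of_far (k : Ker M η) (hM : 0 < M) {r : ℝ} (h : ∀ j : ℤ, η ≤ |r - j * M|) :
    k.Φ r = (⌊r / M⌋ + 1 : ℤ) := by
  have hM0 : (0 : ℝ) < M := by exact_mod_cast hM
  have h1 : (⌊r / M⌋ : ℝ) * M ≤ r := (le_div_iff₀ hM0).1 (Int.floor_le _)
  have h2 : r < (⌊r / M⌋ + 1) * M := (div_lt_iff₀ hM0).1 (Int.lt_floor_add_one _)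
  have h3 := h ⌊r / M⌋
  have h4 := h (⌊r / M⌋ + 1)
  push_cast at h4
  rw [abs_of_nonneg (by linarith)] at h3
  rw [abs_of_neg (by linarith)] at h4
  exact k.val r _ (by push_cast; linarith) (by push_cast; linarith)

theorem Ker.mem_Icc (k : Ker M η) (hM : 0 < M) (h1 : 4 * η ≤ 1) (r : ℝ) :
    (round (r / M) : ℝ) ≤ k.Φ r ∧ k.Φ r ≤ round (r / M) + 1 := by
  have hM1 : (1 : ℝ) ≤ M := by exact_mod_cast hM
  have hM0 : (0 : ℝ) < M := by linarith
  have h2 := abs_le.1 (abs_sub_round (r / M))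
  set j := round (r / M)
  have h3 : (j - 1 / 2) * M ≤ r := (le_div_iff₀ hM0).1 (by linarith [h2.1])
  have h4 : r ≤ (j + 1 / 2) * M := (div_le_iff₀ hM0).1 (by linarith [h2.2])
  constructor
  · rw [← k.val ((j - 1 / 2) * M) j (by linarith) (by linarith)]
    exact k.mono h3
  · have := k.val ((j + 1 / 2) * M) (j + 1) (by push_cast; linarith) (by push_cast; linarith)
    push_cast at this
    rw [← this]
    exact k.mono h4

theorem Kit.abs_sub_le (κ : Kit M η0 η) (r : ℝ) : |κ.k0.Φ r - κ.k2.Φ r| ≤ 1 := by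
  have h0 := κ.k0.mem_Icc κ.M_pos (by linarith [κ.le, κ.small, κ.pos]) r
  have h2 := κ.k2.mem_Icc κ.M_pos (by linarith [κ.small]) r
  exact abs_le.2 ⟨by linarith [h0.1, h2.2], by linarith [h0.2, h2.1]⟩

theorem Kit.abs_sub_zero (κ : Kit M η0 η) (r : ℝ) (h : ∀ k : ℤ, 4 * η ≤ |r - k * M|) :
    |κ.k0.Φ r - κ.k2.Φ r| = 0 := by
  rw [κ.k2.val_of_far κ.M_pos h, κ.k0.val_of_far κ.M_pos fun j => by
    linarith [h j, κ.le, κ.pos], sub_self, abs_zero]

theorem Kit.k1abs_le (κ : Kit M η0 η) (r : ℝ) : κ.k1abs r ≤ 1 :=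
  sum_range_le_of_near (f := fun r => |κ.k0.Φ r - κ.k2.Φ r|) (δ := 4 * η) zero_le_one
    κ.abs_sub_le (by linarith [κ.small, κ.le, κ.pos]) κ.abs_sub_zero r

theorem Kit.k1abs_zero (κ : Kit M η0 η) (r : ℝ) (h : ∀ j : ℤ, 4 * η ≤ |r - j|) :
    κ.k1abs r = 0 :=
  sum_range_zero_of_far (f := fun r => |κ.k0.Φ r - κ.k2.Φ r|) κ.abs_sub_zero r h

theorem Kit.int_k1abs (κ : Kit M η0 η) (s : ℝ) :
    ∫ τ in (0 : ℝ)..1, κ.k1abs (τ - s) ≤ 8 * η := by
  have hη : 0 < η := κ.pos.trans_le κ.le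
  have hs := κ.small
  have hM1 : (1 : ℝ) ≤ M := by exact_mod_cast κ.M_pos
  set f : ℝ → ℝ := fun r => |κ.k0.Φ r - κ.k2.Φ r| with hf
  have hc : Continuous f := (κ.k0.smooth.continuous.sub κ.k2.smooth.continuous).abs
  have hp : Function.Periodic f (M : ℝ) := fun r => by
    simp only [hf, κ.k0.per, κ.k2.per, add_sub_add_right_eq_sub]
  have h1 := int_sum_range hc M s
  have h2 := hp.intervalIntegral_add_eq (1 - s - M) (-(4 * η))
  rw [sub_add_cancel] at h2
  have h3 : ∫ x in (4 * η)..(-(4 * η) + M), f x = 0 := by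
    rw [intervalIntegral.integral_congr (g := fun _ => 0) fun x hx => ?_]
    · simp
    rw [Set.uIcc_of_le (by linarith)] at hx
    have e0 := κ.k0.val x 1 (by push_cast; linarith [hx.1, κ.le]) (by push_cast; linarith [hx.2, κ.le])
    have e2 := κ.k2.val x 1 (by push_cast; linarith [hx.1]) (by push_cast; linarith [hx.2])
    simp only [hf, e0, e2, sub_self, abs_zero]
  have h4 : ∫ x in (-(4 * η))..(4 * η), f x ≤ 8 * η := by
    have := intervalIntegral.integral_mono_on (μ := volume) (by linarith : -(4 * η) ≤ 4 * η)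
      (hc.intervalIntegrable _ _) (continuous_const (y := (1 : ℝ)).intervalIntegrable _ _)
      fun x _ => κ.abs_sub_le x
    simp only [intervalIntegral.integral_const, smul_eq_mul] at this
    linarith
  have h5 := intervalIntegral.integral_add_adjacent_intervals (μ := volume)
    (hc.intervalIntegrable (-(4 * η)) (4 * η)) (hc.intervalIntegrable (4 * η) (-(4 * η) + M))
  change ∫ τ in (0 : ℝ)..1, ∑ j ∈ Finset.range M, f (τ - s - j) ≤ _
  linarith

theorem Kit.cmp (κ : Kit M η0 η) (x r : ℝ) (hr : |r| ≤ η) : κ.k1.K (x - r) ≤ 8 * κ.k2.K x := by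
  have hη : 0 < η := κ.pos.trans_le κ.le
  by_cases h : ∀ k : ℤ, η ≤ |x - r - k * M|
  · rw [κ.k1.K_zero _ h]
    linarith [κ.k2.K_nonneg x]
  push Not at h
  obtain ⟨k, hk⟩ := h
  have h1 := abs_lt.1 hk
  have h2 := abs_le.1 hr
  have h3 := κ.k2.K_ge x k (abs_le.2 ⟨by linarith, by linarith⟩)
  have h4 : 1 / η = 8 * (1 / (2 * (4 * η))) := by field_simp; ring
  linarith [κ.k1.K_le (x - r)]

theorem contDiff_cς : ContDiff ℝ ∞ cς :=
  Real.smoothTransition.contDiff.comp (by fun_prop)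

theorem cς_zero {x : ℝ} (hx : x ≤ 1 / 8) : cς x = 0 :=
  Real.smoothTransition.zero_of_nonpos (by linarith)

theorem ch_zero {x : ℝ} (hx : x ≤ 1 / 8) : ch x = 0 := by rw [ch, cς_zero hx, zero_div]

theorem contDiff_ch : ContDiff ℝ ∞ ch := by
  refine contDiff_iff_contDiffAt.2 fun z => ?_
  by_cases hz : z = 0
  · refine (contDiffAt_const (c := (0 : ℝ))).congr_of_eventuallyEq ?_
    filter_upwards [Iio_mem_nhds (show z < 1 / 8 by rw [hz]; norm_num)] with y hy
      using ch_zero (le_of_lt hy)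
  · exact contDiff_cς.contDiffAt.div contDiffAt_id hz

theorem cς_mem (x : ℝ) : 0 ≤ cς x ∧ cς x ≤ 1 :=
  ⟨Real.smoothTransition.nonneg _, Real.smoothTransition.le_one _⟩

theorem abs_ch_le (x : ℝ) : |ch x| ≤ 8 := by
  by_cases hx : x ≤ 1 / 8
  · rw [ch_zero hx]; norm_num
  have h1 := not_le.1 hx
  have h2 := cς_mem x
  rw [ch, abs_of_nonneg (div_nonneg h2.1 (by linarith)), div_le_iff₀ (by linarith)]
  linarith

theorem ch_mul (x : ℝ) : ch x * x = cς x := by
  by_cases hx : x = 0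
  · rw [hx, mul_zero, cς_zero (by norm_num)]
  · exact div_mul_cancel₀ _ hx

theorem cς_one {x : ℝ} (hx : 1 / 4 ≤ x) : cς x = 1 :=
  Real.smoothTransition.one_of_one_le (by linarith)

theorem hasDerivAt_cς (x : ℝ) : HasDerivAt cς (deriv Gb.sT (16 * x - 2) * 16) x := by
  have h1 : HasDerivAt (fun x : ℝ => 16 * x - 2) 16 x := by
    simpa using ((hasDerivAt_id x).const_mul 16).sub_const 2
  exact (Gb.sT_diff _).hasDerivAt.comp x h1

theorem exists_Ch : ∃ Ch : ℝ, 1 ≤ Ch ∧ ∀ x, |deriv ch x| ≤ Ch ∧ |deriv cς x| ≤ Ch := by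
  have hc := Gb.one_le_cT
  have h1 (x : ℝ) : |deriv cς x| ≤ 16 * Gb.cT := by
    rw [(hasDerivAt_cς x).deriv, abs_mul, mul_comm]
    have := Gb.abs_deriv_sT_le (16 * x - 2)
    rw [show |(16 : ℝ)| = 16 by norm_num]
    linarith
  refine ⟨192 * Gb.cT, by linarith, fun x => ⟨?_, by linarith [h1 x]⟩⟩
  by_cases hx : x < 1 / 8
  · have : ch =ᶠ[nhds x] fun _ => 0 := by
      filter_upwards [Iio_mem_nhds hx] with y hy using ch_zero (le_of_lt hy)
    rw [this.deriv_eq]; simp; linarith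
  have h2 := not_lt.1 hx
  have hx0 : 0 < x := by linarith
  have h3 : deriv ch x = (deriv cς x * x - cς x * 1) / x ^ 2 :=
    ((hasDerivAt_cς x).differentiableAt.hasDerivAt.div (hasDerivAt_id x) hx0.ne').deriv
  have h4 := abs_le.1 (h1 x)
  have h5 := cς_mem x
  have h6 : x ≤ 8 * x ^ 2 := by nlinarith
  have h7 : 1 ≤ 64 * x ^ 2 := by nlinarith
  have h8 : Gb.cT * x ≤ Gb.cT * (8 * x ^ 2) := mul_le_mul_of_nonneg_left h6 (by linarith)
  have h9 : 1 * (64 * x ^ 2) ≤ Gb.cT * (64 * x ^ 2) := mul_le_mul_of_nonneg_right hc (by positivity)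
  have h10 := mul_le_mul_of_nonneg_right h4.1 hx0.le
  have h11 := mul_le_mul_of_nonneg_right h4.2 hx0.le
  rw [h3, abs_div, abs_of_pos (by positivity : 0 < x ^ 2), div_le_iff₀ (by positivity)]
  exact abs_le.2 ⟨by linarith, by linarith⟩

end Vale.Agent.P184Z
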