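import Mathlib

/-!
# P184Z, block KEY: a block diagonal change of basis adapted to a Gram matrix
-/

open Matrix MeasureTheory Finset

namespace Vale.Agent.P184Z.Key

variable {J : Type*} [Fintype J] [DecidableEq J]

/-- diagonalisation of a real positive semidefinite matrix -/
theorem exists_diag {Q : Matrix J J ℝ} (hQ : Q.PosSemidef) :
    ∃ (U : Matrix J J ℝ) (d : J → ℝ), U * Uᵀ = 1 ∧ Uᵀ * U = 1 ∧ (∀ i, 0 ≤ d i) ∧
      Q = U * diagonal d * Uᵀ := by
  refine ⟨hQ.1.eigenvectorUnitary, hQ.1.eigenvalues, ?_, ?_, hQ.eigenvalues_nonneg, ?_⟩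
  · have := (Matrix.mem_unitaryGroup_iff).1 hQ.1.eigenvectorUnitary.2
    rwa [star_eq_conjTranspose, conjTranspose_eq_transpose_of_trivial] at this
  · have := (Matrix.mem_unitaryGroup_iff').1 hQ.1.eigenvectorUnitary.2
    rwa [star_eq_conjTranspose, conjTranspose_eq_transpose_of_trivial] at this
  · have := hQ.1.spectral_theorem
    rw [Unitary.conjStarAlgAut_apply, star_eq_conjTranspose,
      conjTranspose_eq_transpose_of_trivial] at this
    exact this

/-- a matrix commuting with `U D Uᵀ` commutes with `U f(D) Uᵀ` -/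
theorem comm_fun {U E : Matrix J J ℝ} {d : J → ℝ} (f : ℝ → ℝ) (h1 : U * Uᵀ = 1) (h2 : Uᵀ * U = 1)
    (h : E * (U * diagonal d * Uᵀ) = U * diagonal d * Uᵀ * E) :
    E * (U * diagonal (fun i => f (d i)) * Uᵀ) = U * diagonal (fun i => f (d i)) * Uᵀ * E := by
  have a1 : Uᵀ * E * U * diagonal d = diagonal d * (Uᵀ * E * U) := by
    calc Uᵀ * E * U * diagonal d = Uᵀ * (E * (U * diagonal d * Uᵀ)) * U := by
          simp only [Matrix.mul_assoc, h2, Matrix.mul_one]
      _ = (Uᵀ * U) * diagonal d * (Uᵀ * E * U) := by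
          rw [h]; simp only [Matrix.mul_assoc]
      _ = _ := by rw [h2, Matrix.one_mul]
  have a2 : Uᵀ * E * U * diagonal (fun i => f (d i)) =
      diagonal (fun i => f (d i)) * (Uᵀ * E * U) := by
    ext i j
    have := congrFun (congrFun a1 i) j
    rw [mul_diagonal, diagonal_mul] at this ⊢
    by_cases hz : (Uᵀ * E * U) i j = 0
    · rw [hz]; ring
    · have : d j = d i := mul_left_cancel₀ hz (by rw [this]; ring)
      rw [this]; ring
  calc E * (U * diagonal (fun i => f (d i)) * Uᵀ)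
      = (U * Uᵀ) * E * (U * diagonal (fun i => f (d i)) * Uᵀ) := by rw [h1, Matrix.one_mul]
    _ = U * (Uᵀ * E * U * diagonal (fun i => f (d i))) * Uᵀ := by simp only [Matrix.mul_assoc]
    _ = U * diagonal (fun i => f (d i)) * Uᵀ * E * (U * Uᵀ) := by
        rw [a2]; simp only [Matrix.mul_assoc]
    _ = _ := by rw [h1, Matrix.mul_one]

omit [DecidableEq J] in
theorem sum_sq_eq (x : J → ℝ) : ∑ i, x i ^ 2 = x ⬝ᵥ x := by
  simp only [dotProduct, sq]

/-- the inverse square root of `1 + c Q` for a block diagonal positive semidefinite `Q` -/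
theorem exists_T {C : Type*} (cell : J → C) {Q : Matrix J J ℝ} (hQ : Q.PosSemidef)
    (hb : ∀ i j, cell i ≠ cell j → Q i j = 0) {c : ℝ} (hc : 0 < c) :
    ∃ T : Matrix J J ℝ, Tᵀ = T ∧ (∀ i j, cell i ≠ cell j → T i j = 0) ∧ 0 < T.det ∧
      T.det⁻¹ ≤ Real.exp (c / 2 * Q.trace) ∧ (∀ x, ∑ i, (T *ᵥ x) i ^ 2 ≤ ∑ i, x i ^ 2) ∧
      ∀ (G : J → ℝ) (κ : ℝ), 0 ≤ κ → (∀ v, (G ⬝ᵥ v) ^ 2 ≤ κ * (v ⬝ᵥ Q *ᵥ v)) →
        ∑ i, (T *ᵥ G) i ^ 2 ≤ κ / c := by
  classical
  obtain ⟨U, d, h1, h2, hd, hQe⟩ := exists_diag hQ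
  set f : ℝ → ℝ := fun t => (√(1 + c * t))⁻¹ with hf
  have hpos : ∀ i, 0 < 1 + c * d i := fun i => by have := hd i; positivity
  have hs : ∀ i, 0 < √(1 + c * d i) := fun i => Real.sqrt_pos.2 (hpos i)
  have hff : ∀ i, f (d i) * (1 + c * d i) * f (d i) = 1 := fun i => by
    have := Real.mul_self_sqrt (hpos i).le
    have h0 := (hs i).ne'
    simp only [hf]
    field_simp
    nlinarith
  obtain ⟨T, hT⟩ : ∃ T, T = U * diagonal (fun i => f (d i)) * Uᵀ := ⟨_, rfl⟩
  have hTs : Tᵀ = T := by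
    simp only [hT, transpose_mul, transpose_transpose, diagonal_transpose, Matrix.mul_assoc]
  have hP : T * (1 + c • Q) * T = 1 := by
    have e1 : (1 : Matrix J J ℝ) + c • Q = U * diagonal (fun i => 1 + c * d i) * Uᵀ := by
      have : diagonal (fun i => 1 + c * d i) = (1 : Matrix J J ℝ) + c • diagonal d := by
        ext i j
        by_cases h : i = j
        · subst h; simp
        · simp [h]
      rw [this, Matrix.mul_add, Matrix.add_mul, Matrix.mul_one, h1, Matrix.mul_smul,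
        Matrix.smul_mul, ← hQe]
    rw [e1, hT]
    calc _ = U * (diagonal (fun i => f (d i)) * (Uᵀ * U) * diagonal (fun i => 1 + c * d i) *
          (Uᵀ * U) * diagonal (fun i => f (d i))) * Uᵀ := by simp only [Matrix.mul_assoc]
      _ = 1 := by
        rw [h2, Matrix.mul_one, Matrix.mul_one, diagonal_mul_diagonal, diagonal_mul_diagonal]
        simp only [hff, diagonal_one, Matrix.mul_one, h1]
  have hQ0 : ∀ v : J → ℝ, 0 ≤ v ⬝ᵥ Q *ᵥ v := fun v => by
    simpa using hQ.dotProduct_mulVec_nonneg v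
  have hsym : ∀ x y : J → ℝ, x ⬝ᵥ T *ᵥ y = (T *ᵥ x) ⬝ᵥ y := fun x y => by
    rw [dotProduct_mulVec, ← mulVec_transpose, hTs]
  have hquad : ∀ x : J → ℝ,
      (T *ᵥ x) ⬝ᵥ (T *ᵥ x) + c * ((T *ᵥ x) ⬝ᵥ Q *ᵥ (T *ᵥ x)) = x ⬝ᵥ x := fun x => by
    have : x ⬝ᵥ (T * (1 + c • Q) * T) *ᵥ x = x ⬝ᵥ x := by rw [hP, one_mulVec]
    rw [← this, ← mulVec_mulVec, ← mulVec_mulVec, hsym x, add_mulVec, one_mulVec, dotProduct_add,
      smul_mulVec, dotProduct_smul, smul_eq_mul]
  have hdet : T.det = ∏ i, f (d i) := by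
    have : U.det * Uᵀ.det = 1 := by rw [← det_mul, h1, det_one]
    rw [hT, det_mul, det_mul, det_diagonal]
    linear_combination (∏ i, f (d i)) * this
  refine ⟨T, hTs, fun i j hij => ?_, ?_, ?_, fun x => ?_, fun G κ hκ hG => ?_⟩
  · set E : Matrix J J ℝ := diagonal fun k => if cell k = cell i then 1 else 0 with hE
    have hEQ : E * Q = Q * E := by
      ext a b
      rw [hE, mul_diagonal, diagonal_mul]
      by_cases hab : cell a = cell b
      · rw [hab]; ring
      · rw [hb a b hab]; ring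
    rw [hQe] at hEQ
    have := congrFun (congrFun (comm_fun f h1 h2 hEQ) i) j
    rw [← hT, hE, mul_diagonal, diagonal_mul, if_pos rfl, if_neg (Ne.symm hij)] at this
    linarith
  · rw [hdet]
    exact prod_pos fun i _ => inv_pos.2 (hs i)
  · have htr : Q.trace = ∑ i, d i := by
      rw [hQe, trace_mul_comm, ← Matrix.mul_assoc, h2, Matrix.one_mul, trace_diagonal]
    rw [hdet, htr, mul_sum, Real.exp_sum, ← prod_inv_distrib]
    refine prod_le_prod (fun i _ => by simp only [hf, inv_inv]; exact (hs i).le) fun i _ => ?_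
    simp only [hf, inv_inv]
    rw [Real.sqrt_le_left (Real.exp_pos _).le, ← Real.exp_nat_mul]
    have := Real.add_one_le_exp (c * d i)
    push_cast
    rw [show 2 * (c / 2 * d i) = c * d i by ring]
    linarith
  · have := hquad x
    have h0 := mul_nonneg hc.le (hQ0 (T *ᵥ x))
    rw [sum_sq_eq, sum_sq_eq]
    linarith
  · rw [sum_sq_eq]
    obtain ⟨a, ha⟩ : ∃ a, a = (T *ᵥ G) ⬝ᵥ (T *ᵥ G) := ⟨_, rfl⟩
    rw [← ha]
    have ha0 : 0 ≤ a := by rw [ha, ← sum_sq_eq]; positivity
    have h3 := hG (T *ᵥ (T *ᵥ G))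
    rw [hsym G, ← ha] at h3
    have h4 := hquad (T *ᵥ G)
    have h5 : 0 ≤ (T *ᵥ (T *ᵥ G)) ⬝ᵥ (T *ᵥ (T *ᵥ G)) := by rw [← sum_sq_eq]; positivity
    rw [← ha] at h4
    have h6 : c * a ^ 2 ≤ κ * a := by nlinarith
    rcases ha0.eq_or_lt with h | h
    · rw [← h]; positivity
    · rw [le_div_iff₀ hc]
      nlinarith

omit [DecidableEq J] in
/-- a vector supported in at most `b` cells -/
theorem band {C : Type*} [DecidableEq C] (cell : J → C) (g v : J → ℝ) (cs : Finset C) (b : ℕ)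
    (hb : cs.card ≤ b) (hg : ∀ i, g i ≠ 0 → cell i ∈ cs) :
    (g ⬝ᵥ v) ^ 2 ≤ b * ∑ i, ∑ j, if cell i = cell j then v i * (g i * g j) * v j else 0 := by
  set a : C → ℝ := fun k => ∑ i, if cell i = k then g i * v i else 0 with ha
  have h1 : g ⬝ᵥ v = ∑ k ∈ cs, a k := by
    simp only [ha]
    rw [sum_comm, dotProduct]
    refine sum_congr rfl fun i _ => ?_
    rw [sum_ite_eq]
    split_ifs with h
    · rfl
    · rw [not_not.1 fun h0 => h (hg i h0), zero_mul]
  have h2 : ∑ k ∈ cs, a k ^ 2 = ∑ i, ∑ j, if cell i = cell j then v i * (g i * g j) * v j else 0 := by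
    simp only [ha, sq, sum_mul_sum]
    rw [sum_comm]
    refine sum_congr rfl fun i _ => ?_
    rw [sum_comm]
    refine sum_congr rfl fun j _ => ?_
    have : ∀ k, ((if cell i = k then g i * v i else 0) * if cell j = k then g j * v j else 0) =
        if cell i = k then (if cell i = cell j then v i * (g i * g j) * v j else 0) else 0 := by
      intro k
      by_cases hi : cell i = k
      · by_cases hj : cell j = k
        · rw [if_pos hi, if_pos hj, if_pos hi, if_pos (hi.trans hj.symm)]; ring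
        · rw [if_neg hj, if_pos hi, if_pos hi, if_neg fun h => hj (h.symm.trans hi), mul_zero]
      · rw [if_neg hi, if_neg hi, zero_mul]
    simp only [this]
    rw [sum_ite_eq]
    split_ifs with h h'
    · rfl
    · rfl
    · rw [not_not.1 fun h0 => h (hg i h0)]; ring
    · rfl
  have h3 := sq_sum_le_card_mul_sum_sq (s := cs) (f := a)
  have h4 : (cs.card : ℝ) ≤ b := by exact_mod_cast hb
  rw [h1, ← h2]
  exact h3.trans (mul_le_mul_of_nonneg_right h4 (sum_nonneg fun k _ => sq_nonneg _))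

/-- **KEY.** The change of basis attached to a weighted family of vectors `g r y`, each supported in
at most `b` cells. -/
theorem key {C Ω Y : Type*} [MeasurableSpace Ω] (μ : Measure Ω) (s : Finset Y) (cell : J → C)
    (w : Ω → Y → ℝ) (g : Ω → Y → J → ℝ) (hw : ∀ r y, 0 ≤ w r y)
    (hint : ∀ y ∈ s, ∀ i j, Integrable (fun r => w r y * (g r y i * g r y j)) μ) (b : ℕ)
    (hb : ∀ r, ∀ y ∈ s, ∃ cs : Finset C, cs.card ≤ b ∧ ∀ i, g r y i ≠ 0 → cell i ∈ cs)
    {c : ℝ} (hc : 0 < c) :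
    ∃ T : Matrix J J ℝ, Tᵀ = T ∧ (∀ i j, cell i ≠ cell j → T i j = 0) ∧ 0 < T.det ∧
      T.det⁻¹ ≤ Real.exp (c / 2 * ∫ r, ∑ y ∈ s, w r y * ∑ i, g r y i ^ 2 ∂μ) ∧
      (∀ x, ∑ i, (T *ᵥ x) i ^ 2 ≤ ∑ i, x i ^ 2) ∧
      ∀ (G : J → ℝ) (κ : ℝ), 0 ≤ κ →
        (∀ v, (G ⬝ᵥ v) ^ 2 ≤ κ * ∫ r, ∑ y ∈ s, w r y * (g r y ⬝ᵥ v) ^ 2 ∂μ) →
        ∑ i, (T *ᵥ G) i ^ 2 ≤ κ * b / c := by
  classical
  obtain ⟨Q, hQ⟩ : ∃ Q : Matrix J J ℝ, ∀ i j, Q i j =
      if cell i = cell j then ∫ r, ∑ y ∈ s, w r y * (g r y i * g r y j) ∂μ else 0 :=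
    ⟨Matrix.of fun i j => _, fun _ _ => rfl⟩
  set B : Ω → Y → (J → ℝ) → ℝ := fun r y v =>
    ∑ i, ∑ j, if cell i = cell j then v i * (g r y i * g r y j) * v j else 0 with hB
  have hI : ∀ i j, Integrable (fun r => ∑ y ∈ s, w r y * (g r y i * g r y j)) μ := fun i j =>
    integrable_finsetSum _ fun y hy => hint y hy i j
  set F : (J → ℝ) → J → J → Ω → ℝ := fun v i j r =>
    if cell i = cell j then v i * (∑ y ∈ s, w r y * (g r y i * g r y j)) * v j else 0 with hF
  have hFi : ∀ v i j, Integrable (F v i j) μ := fun v i j => by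
    by_cases h : cell i = cell j
    · simp only [hF, if_pos h]
      exact ((hI i j).const_mul _).mul_const _
    · simp only [hF, if_neg h]
      exact integrable_zero _ _ _
  have hFB : ∀ v r, ∑ i, ∑ j, F v i j r = ∑ y ∈ s, w r y * B r y v := fun v r => by
    simp only [hF, hB, mul_sum]
    rw [sum_comm (s := s)]
    refine sum_congr rfl fun i _ => ?_
    rw [sum_comm (s := s)]
    refine sum_congr rfl fun j _ => ?_
    split_ifs
    · rw [sum_mul]
      exact sum_congr rfl fun y _ => by ring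
    · simp
  have hBi : ∀ v, Integrable (fun r => ∑ y ∈ s, w r y * B r y v) μ := fun v => by
    simp only [← hFB]
    exact integrable_finsetSum _ fun i _ => integrable_finsetSum _ fun j _ => hFi v i j
  have hQv : ∀ v, v ⬝ᵥ Q *ᵥ v = ∫ r, ∑ y ∈ s, w r y * B r y v ∂μ := fun v => by
    simp only [← hFB]
    rw [integral_finsetSum _ fun i _ => integrable_finsetSum _ fun j _ => hFi v i j]
    simp only [dotProduct, mulVec, mul_sum]
    refine sum_congr rfl fun i _ => ?_
    rw [integral_finsetSum _ fun j _ => hFi v i j]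
    refine sum_congr rfl fun j _ => ?_
    by_cases h : cell i = cell j
    · simp only [hF, hQ, if_pos h]
      rw [integral_mul_const, integral_const_mul, mul_assoc]
    · simp [hF, hQ, h]
  have hB0 : ∀ r y v, 0 ≤ B r y v := fun r y v => by
    have := band cell (g r y) v (univ.image cell) (Fintype.card J + 1)
      (card_image_le.trans (by simp)) fun i _ => mem_image_of_mem _ (mem_univ i)
    have h0 : (0 : ℝ) < (Fintype.card J + 1 : ℕ) := by positivity
    exact nonneg_of_mul_nonneg_right ((sq_nonneg _).trans this) h0 |> fun h => h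
  have hPS : Q.PosSemidef := by
    refine .of_dotProduct_mulVec_nonneg ?_ fun v => ?_
    · ext i j
      simp only [conjTranspose_apply, star_trivial, hQ, eq_comm (a := cell j), mul_comm (g _ _ j)]
    · rw [star_trivial, hQv]
      exact integral_nonneg fun r => sum_nonneg fun y _ => mul_nonneg (hw r y) (hB0 r y v)
  obtain ⟨T, t1, t2, t3, t4, t5, t6⟩ :=
    exists_T cell hPS (fun i j h => by simp only [hQ, if_neg h]) hc
  refine ⟨T, t1, t2, t3, ?_, t5, fun G κ hκ hG => ?_⟩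
  · have : Q.trace = ∫ r, ∑ y ∈ s, w r y * ∑ i, g r y i ^ 2 ∂μ := by
      simp only [trace, Matrix.diag, hQ, if_true]
      rw [← integral_finsetSum _ fun i _ => hI i i]
      refine integral_congr_ae (.of_forall fun r => ?_)
      simp only [mul_sum, sq]
      rw [sum_comm]
    rwa [this] at t4
  · refine t6 G (κ * b) (by positivity) fun v => (hG v).trans ?_
    rw [mul_assoc, hQv, ← integral_const_mul (b : ℝ)]
    refine mul_le_mul_of_nonneg_left (integral_mono_of_nonneg
      (.of_forall fun r => sum_nonneg fun y _ => mul_nonneg (hw r y) (sq_nonneg _))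
      ((hBi v).const_mul _) (.of_forall fun r => ?_)) hκ
    simp only [mul_sum]
    refine sum_le_sum fun y hy => ?_
    obtain ⟨cs, h1, h2⟩ := hb r y hy
    have := mul_le_mul_of_nonneg_left (band cell (g r y) v cs b h1 h2) (hw r y)
    simp only [hB]
    linarith

/-- Cauchy-Schwarz for a function supported in a set of measure at most `len` -/
theorem sq_integral_le {Ω : Type*} [MeasurableSpace Ω] (μ : Measure Ω) (f : Ω → ℝ) (A : Set Ω)
    (hA : MeasurableSet A) (hA' : μ A ≠ ⊤) (hf : ∀ r, r ∉ A → f r = 0) (h1 : Integrable f μ)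
    (h2 : Integrable (fun r => f r ^ 2) μ) :
    (∫ r, f r ∂μ) ^ 2 ≤ μ.real A * ∫ r, f r ^ 2 ∂μ := by
  have hi : Integrable (A.indicator fun _ => (1 : ℝ)) μ :=
    (integrable_indicator_iff hA).2 (integrableOn_const hA')
  have key : ∀ t : ℝ, 0 ≤ μ.real A * (t * t) + (2 * ∫ r, f r ∂μ) * t + ∫ r, f r ^ 2 ∂μ := by
    intro t
    have e1 : ∫ r, (t * t * A.indicator (fun _ => (1 : ℝ)) r + 2 * t * f r + f r ^ 2) ∂μ =
        μ.real A * (t * t) + (2 * ∫ r, f r ∂μ) * t + ∫ r, f r ^ 2 ∂μ := by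
      have h3 : Integrable (fun r => t * t * A.indicator (fun _ => (1 : ℝ)) r + 2 * t * f r) μ :=
        (hi.const_mul _).add (h1.const_mul _)
      rw [integral_add h3 h2,
        integral_add (hi.const_mul _) (h1.const_mul _), integral_const_mul, integral_const_mul,
        integral_indicator_const _ hA, smul_eq_mul]
      ring
    rw [← e1]
    refine integral_nonneg fun r => ?_
    by_cases hr : r ∈ A
    · simp only [Set.indicator_of_mem hr, Pi.zero_apply]
      nlinarith [sq_nonneg (t + f r)]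
    · simp [Set.indicator_of_notMem hr, hf r hr]
  have := discrim_le_zero key
  unfold discrim at this
  nlinarith

/-- the sum of the squares of the `L¹` norms of localised functions -/
theorem sum_sq_integral_le {Ω ι : Type*} [MeasurableSpace Ω] (μ : Measure Ω) (s : Finset ι)
    (f : ι → Ω → ℝ) (A : ι → Set Ω) (len : ℝ) (hA : ∀ i ∈ s, MeasurableSet (A i))
    (hA' : ∀ i ∈ s, μ (A i) ≠ ⊤) (hl : ∀ i ∈ s, μ.real (A i) ≤ len)
    (hf : ∀ i ∈ s, ∀ r, r ∉ A i → f i r = 0) (h1 : ∀ i ∈ s, Integrable (f i) μ)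
    (h2 : ∀ i ∈ s, Integrable (fun r => f i r ^ 2) μ) :
    ∑ i ∈ s, (∫ r, f i r ∂μ) ^ 2 ≤ len * ∫ r, ∑ i ∈ s, f i r ^ 2 ∂μ := by
  rw [integral_finsetSum _ h2, mul_sum]
  refine sum_le_sum fun i hi => ?_
  exact (sq_integral_le μ (f i) (A i) (hA i hi) (hA' i hi) (hf i hi) (h1 i hi) (h2 i hi)).trans
    (mul_le_mul_of_nonneg_right (hl i hi) (integral_nonneg fun r => sq_nonneg _))

end Vale.Agent.P184Z.Key
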