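import Vale.Agent.P184Z.PfB
import Vale.Agent.P184Z.Key

/-!
# The gain from the two layers
-/

open scoped ContDiff
open MeasureTheory

noncomputable section

namespace Vale.Agent.P184Z

open Vale.Agent.P184.H38

universe u

namespace KeyL

open Matrix

/-- The Gram matrix of a family of curves. -/
theorem exists_gram {N : ℕ} {ι : Type u} (Y : Finset ι) (g : ι → ℝ → Fin N → ℝ)
    (hg : ∀ y j, Continuous fun τ => g y τ j) {c : ℝ} (hc : 0 ≤ c) :
    ∃ Q : Matrix (Fin N) (Fin N) ℝ, Q.PosSemidef ∧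
      Q.trace = c * ∫ τ in (0 : ℝ)..1, ∑ y ∈ Y, ∑ j, g y τ j ^ 2 ∧
      ∀ w, w ⬝ᵥ Q *ᵥ w = c * ∫ τ in (0 : ℝ)..1, ∑ y ∈ Y, (g y τ ⬝ᵥ w) ^ 2 := by
  set Q : Matrix (Fin N) (Fin N) ℝ :=
    Matrix.of fun i j => c * ∫ τ in (0 : ℝ)..1, ∑ y ∈ Y, g y τ i * g y τ j with hQ
  have h1 : ∀ w, w ⬝ᵥ Q *ᵥ w = c * ∫ τ in (0 : ℝ)..1, ∑ y ∈ Y, (g y τ ⬝ᵥ w) ^ 2 := by
    intro w
    have e : ∀ τ, ∑ y ∈ Y, (g y τ ⬝ᵥ w) ^ 2 =
        ∑ i, ∑ j, w i * ((∑ y ∈ Y, g y τ i * g y τ j) * w j) := fun τ => by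
      simp only [sq, dotProduct, Finset.sum_mul_sum]
      rw [Finset.sum_comm (s := Y)]
      refine Finset.sum_congr rfl fun i _ => ?_
      rw [Finset.sum_comm (s := Y)]
      refine Finset.sum_congr rfl fun j _ => ?_
      simp only [Finset.sum_mul, Finset.mul_sum]
      exact Finset.sum_congr rfl fun y _ => by ring
    simp only [e]
    rw [intervalIntegral.integral_finsetSum fun i _ => Continuous.intervalIntegrable
      (by fun_prop) _ _, Finset.mul_sum]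
    refine Finset.sum_congr rfl fun i _ => ?_
    rw [intervalIntegral.integral_finsetSum fun i _ => Continuous.intervalIntegrable
      (by fun_prop) _ _, mulVec, dotProduct, Finset.mul_sum, Finset.mul_sum]
    refine Finset.sum_congr rfl fun j _ => ?_
    rw [intervalIntegral.integral_const_mul, intervalIntegral.integral_mul_const, hQ,
      Matrix.of_apply]
    ring
  refine ⟨Q, .of_dotProduct_mulVec_nonneg ?_ fun v => ?_, ?_, h1⟩
  · ext i j
    simp only [conjTranspose_apply, star_trivial, hQ, Matrix.of_apply, mul_comm (g _ _ j)]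
  · rw [star_trivial, h1]
    exact mul_nonneg hc (intervalIntegral.integral_nonneg zero_le_one fun τ _ =>
      Finset.sum_nonneg fun y _ => sq_nonneg _)
  · simp only [trace, Matrix.diag, hQ, Matrix.of_apply, ← Finset.mul_sum]
    rw [← intervalIntegral.integral_finsetSum fun i _ => Continuous.intervalIntegrable
      (by fun_prop) _ _]
    simp only [sq]
    congr 2
    funext τ
    rw [Finset.sum_comm]

theorem win_le {φ : ℝ → ℝ} (hc : Continuous φ) (h0 : ∀ τ, 0 ≤ φ τ) (hp : ∀ τ, φ (τ + 1) = φ τ)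
    {η : ℝ} (hη : 0 < η) (hη' : 2 * η ≤ 1) (τ : ℝ) :
    ∫ r in (-η)..η, φ (τ - r) ≤ ∫ r in (0 : ℝ)..1, φ r := by
  have h1 := Function.Periodic.intervalIntegral_add_eq (f := φ) hp (τ - η) 0
  rw [zero_add] at h1
  rw [intervalIntegral.integral_comp_sub_left, ← h1]
  exact intervalIntegral.integral_mono_interval le_rfl (by linarith) (by linarith)
    (.of_forall h0) (hc.intervalIntegrable _ _)

/-- The cells, which are active at the time `τ`. -/
def cells (η τ : ℝ) : Finset ℤ :=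
  (Finset.Icc (-1 : ℤ) 1).biUnion fun k => Finset.Icc (⌊(τ - k) / η⌋ - 2) (⌊(τ - k) / η⌋ + 2)

theorem card_cells (η τ : ℝ) : (cells η τ).card ≤ 15 := by
  refine (Finset.card_biUnion_le_card_mul _ _ 5 fun k _ => ?_).trans (by simp)
  rw [Int.card_Icc]
  omega

theorem mem_cells {η τ x : ℝ} (hη : 0 < η) (hη' : 16 * η ≤ 1) (hτ : 0 ≤ τ ∧ τ ≤ 1)
    (hx : 0 ≤ x ∧ x ≤ 1) {k : ℤ} (h : |τ - x - k| < 2 * η) : ⌊x / η⌋ ∈ cells η τ := by
  obtain ⟨h1, h2⟩ := abs_lt.1 h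
  have k1 : (-2 : ℝ) < k := by linarith
  have k2 : (k : ℝ) < 2 := by linarith
  have k3 : -2 < k := by exact_mod_cast k1
  have k4 : k < 2 := by exact_mod_cast k2
  refine Finset.mem_biUnion.2 ⟨k, Finset.mem_Icc.2 ⟨by omega, by omega⟩, Finset.mem_Icc.2 ⟨?_, ?_⟩⟩
  · rw [show ⌊(τ - k) / η⌋ - 2 = ⌊(τ - k) / η - 2⌋ by
      rw [← Int.floor_sub_intCast]; norm_num]
    refine Int.floor_le_floor ?_
    rw [sub_le_iff_le_add, div_add' _ _ _ hη.ne', div_le_div_iff_of_pos_right hη]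
    linarith
  · rw [show ⌊(τ - k) / η⌋ + 2 = ⌊(τ - k) / η + 2⌋ by
      rw [← Int.floor_add_intCast]; norm_num]
    refine Int.floor_le_floor ?_
    rw [div_add' _ _ _ hη.ne', div_le_div_iff_of_pos_right hη]
    linarith

theorem abs_lt_of_floor {η x y : ℝ} (hη : 0 < η) (h : ⌊x / η⌋ = ⌊y / η⌋) : |x - y| < η := by
  have := Int.abs_sub_lt_one_of_floor_eq_floor h
  rwa [← sub_div, abs_div, abs_of_pos hη, div_lt_one hη] at this

/-- The time support of a column. -/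
def supp (η x : ℝ) : Set ℝ :=
  Set.Ioo (x - 3 * η) (x + 3 * η) ∪
    if x ≤ 1 / 2 then Set.Ioo (x + 1 - 3 * η) (x + 1 + 3 * η)
    else Set.Ioo (x - 1 - 3 * η) (x - 1 + 3 * η)

theorem mem_supp {η τ x : ℝ} (hη' : 16 * η ≤ 1) (hτ : 0 ≤ τ ∧ τ ≤ 1)
    (hx : 0 ≤ x ∧ x ≤ 1) {k : ℤ} (h : |τ - x - k| < 3 * η) : τ ∈ supp η x := by
  obtain ⟨h1, h2⟩ := abs_lt.1 h
  have k1 : (-2 : ℝ) < k := by linarith
  have k2 : (k : ℝ) < 2 := by linarith
  have k3 : -2 < k := by exact_mod_cast k1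
  have k4 : k < 2 := by exact_mod_cast k2
  unfold supp
  interval_cases k <;> push_cast at h1 h2
  · right
    rw [if_neg (by linarith)]
    constructor <;> linarith
  · left
    constructor <;> linarith
  · right
    rw [if_pos (by linarith)]
    constructor <;> linarith

theorem measurableSet_supp (η x : ℝ) : MeasurableSet (supp η x) := by
  unfold supp
  split_ifs <;> exact measurableSet_Ioo.union measurableSet_Ioo

theorem vol_supp {η : ℝ} (hη : 0 < η) (x : ℝ) :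
    (volume.restrict (Set.Ioc (0 : ℝ) 1)).real (supp η x) ≤ 15 * η := by
  refine ENNReal.toReal_le_of_le_ofReal (by positivity)
    ((Measure.restrict_apply_le _ _).trans ((measure_union_le _ _).trans ?_))
  have : ENNReal.ofReal (6 * η) + ENNReal.ofReal (6 * η) ≤ ENNReal.ofReal (15 * η) := by
    rw [← ENNReal.ofReal_add (by positivity) (by positivity)]
    exact ENNReal.ofReal_le_ofReal (by linarith)
  refine le_of_eq_of_le ?_ this
  split_ifs <;> simp only [Real.volume_Ioo] <;> congr 2 <;> ring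

end KeyL

open KeyL Matrix in
theorem keyL {N : ℕ} {ι : Type u} (Y : Finset ι) {L : Type} [Fintype L]
    (g : ι → ℝ → Fin N → ℝ) (f : L → ℝ → Fin N → ℝ) (t : Fin N → ℝ) (η c1 c2 c3 ϑ : ℝ)
    (hη : 0 < η) (hη' : 16 * η ≤ 1) (h1 : 0 ≤ c1) (h2 : 0 ≤ c2) (hϑ : 0 < ϑ)
    (ht : ∀ i, 0 ≤ t i ∧ t i ≤ 1)
    (hg : ∀ y j, Continuous fun τ => g y τ j) (hf : ∀ l j, Continuous fun τ => f l τ j)
    (hloc : ∀ y ∈ Y, ∀ τ j, (∀ k : ℤ, η ≤ |τ - t j - k|) → g y τ j = 0)
    (hper : ∀ τ (w : Fin N → ℝ),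
      ∑ y ∈ Y, (g y (τ + 1) ⬝ᵥ w) ^ 2 = ∑ y ∈ Y, (g y τ ⬝ᵥ w) ^ 2)
    (htr : ∫ τ in (0 : ℝ)..1, ∑ y ∈ Y, ∑ j, g y τ j ^ 2 ≤ c3)
    (hfg : ∀ τ (v : Fin N → Fin N → ℝ) (B : ℝ), 0 ≤ B →
      (∀ a : Fin N → ℝ, (∀ w : Fin N → ℝ,
        (a ⬝ᵥ w) ^ 2 ≤ c2 * ∫ r in (-η)..η, ∑ y ∈ Y, (g y (τ - r) ⬝ᵥ w) ^ 2) →
          ∑ i, (a ⬝ᵥ v i) ^ 2 ≤ B) →
      ∑ l, ∑ i, (f l τ ⬝ᵥ v i) ^ 2 ≤ c1 * B) :
    ∃ T : Matrix (Fin N) (Fin N) ℝ, Real.exp (-(η / ϑ * c3 / 2)) ≤ |T.det| ∧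
      (∀ a : Fin N → ℝ, ∑ i, (∑ j, T j i * a j) ^ 2 ≤ ∑ j, a j ^ 2) ∧
      ∑ i, (∫ τ in (0 : ℝ)..1, √(∑ l, (∑ j, T j i * f l τ j) ^ 2)) ^ 2 ≤ 225 * c1 * c2 * ϑ := by
  obtain ⟨Q, hQ, q1, q2⟩ := exists_gram Y g hg (c := η / ϑ) (by positivity)
  obtain ⟨T, t1, t2, t3, t4⟩ := exists_T Q hQ fun j => ⌊t j / η⌋
  refine ⟨T, le_trans (Real.exp_le_exp.2 ?_) t2, t3, ?_⟩
  · have := mul_le_mul_of_nonneg_left htr (show 0 ≤ η / ϑ by positivity)
    linarith
  have hloc' : ∀ (τ : ℝ) (a : Fin N → ℝ), (∀ w : Fin N → ℝ,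
      (a ⬝ᵥ w) ^ 2 ≤ c2 * ∫ r in (-η)..η, ∑ y ∈ Y, (g y (τ - r) ⬝ᵥ w) ^ 2) →
      ∀ j, (∀ k : ℤ, 2 * η ≤ |τ - t j - k|) → a j = 0 := by
    intro τ a ha j hj
    have h3 := ha (Pi.single j 1)
    rw [intervalIntegral.integral_congr (g := fun _ => 0) fun r hr => ?_] at h3
    · simpa using h3
    · rw [Set.uIcc_of_le (by linarith)] at hr
      refine Finset.sum_eq_zero fun y hy => ?_
      rw [dotProduct_single_one, hloc y hy _ j fun k => ?_, zero_pow two_ne_zero]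
      have h4 := hj k
      have h5 := abs_sub_le (τ - t j - k) (τ - r - t j - k) 0
      have h6 : |τ - t j - k - (τ - r - t j - k)| ≤ η := abs_le.2 ⟨by linarith [hr.1], by
        linarith [hr.2]⟩
      rw [sub_zero, sub_zero] at h5
      linarith
  have hf0 : ∀ τ l j, (∀ k : ℤ, 2 * η ≤ |τ - t j - k|) → f l τ j = 0 := by
    intro τ l j hj
    have h3 := hfg τ (fun _ => Pi.single j 1) 0 le_rfl fun a ha => by
      simp [hloc' τ a ha j hj]
    rw [mul_zero] at h3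
    have h4 := (Finset.single_le_sum (f := fun l => ∑ _i : Fin N, (f l τ ⬝ᵥ Pi.single j 1) ^ 2)
      (fun _ _ => by positivity) (Finset.mem_univ l)).trans h3
    have h5 := (Finset.single_le_sum (f := fun _i : Fin N => (f l τ ⬝ᵥ Pi.single j 1) ^ 2)
      (fun _ _ => by positivity) (Finset.mem_univ j)).trans h4
    simpa using h5
  have hcol : ∀ (a : Fin N → ℝ) (τ : ℝ), (∀ j, (∀ k : ℤ, 2 * η ≤ |τ - t j - k|) → a j = 0) →
      ∀ i, ∑ j, T j i * a j ≠ 0 → ∃ j, ∃ k : ℤ, ⌊t j / η⌋ = ⌊t i / η⌋ ∧ |τ - t j - k| < 2 * η := by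
    intro a τ ha i hi
    obtain ⟨j, -, hj⟩ := Finset.exists_ne_zero_of_sum_ne_zero hi
    by_contra hc
    push Not at hc
    exact right_ne_zero_of_mul hj (ha j fun k => hc j k
      (not_not.1 fun h => left_ne_zero_of_mul hj (t1 j i h)))
  have hB : ∀ τ ∈ Set.Icc (0 : ℝ) 1, ∑ i, ∑ l, (∑ j, T j i * f l τ j) ^ 2 ≤
      c1 * (15 * (c2 * ϑ / η)) := by
    intro τ hτ
    have e : ∀ (a : Fin N → ℝ) i, (a ⬝ᵥ fun j => T j i) = ∑ j, T j i * a j := fun a i => by
      simp only [dotProduct, mul_comm]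
    have h3 := hfg τ (fun i j => T j i) (15 * (c2 * ϑ / η)) (by positivity) fun a ha => by
      simp only [e]
      rw [← Finset.sum_filter_of_ne (p := fun i => ⌊t i / η⌋ ∈ cells η τ) fun i _ hi => ?_,
        ← Finset.sum_fiberwise_of_maps_to (t := cells η τ) (g := fun i => ⌊t i / η⌋)
          fun i hi => (Finset.mem_filter.1 hi).2]
      · refine (Finset.sum_le_card_nsmul _ _ (c2 * ϑ / η) fun k _ => ?_).trans ?_
        · refine le_trans (Finset.sum_le_sum_of_subset_of_nonneg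
            (Finset.monotone_filter_left _ (Finset.filter_subset _ _)) fun _ _ _ => sq_nonneg _)
            (t4 a k _ (by positivity) fun w _ => (ha w).trans ?_)
          rw [q2, ← mul_assoc, show c2 * ϑ / η * (η / ϑ) = c2 by field_simp]
          refine mul_le_mul_of_nonneg_left (win_le (φ := fun τ => ∑ y ∈ Y, (g y τ ⬝ᵥ w) ^ 2) ?_
            (fun τ => by positivity) (fun τ => hper τ w) hη (by linarith) τ) h2
          simp only [dotProduct]
          fun_prop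
        · rw [nsmul_eq_mul]
          exact mul_le_mul_of_nonneg_right (by exact_mod_cast card_cells η τ) (by positivity)
      · obtain ⟨j, k, h4, h5⟩ := hcol a τ (hloc' τ a ha) i (pow_ne_zero_iff two_ne_zero |>.1 hi)
        exact h4 ▸ mem_cells hη hη' hτ (ht j) h5
    rw [Finset.sum_comm]
    simpa only [e] using h3
  have hc : ∀ i, Continuous fun τ => ∑ l, (∑ j, T j i * f l τ j) ^ 2 := fun i => by fun_prop
  simp only [intervalIntegral.integral_of_le zero_le_one]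
  refine (Key.sum_sq_integral_le (volume.restrict (Set.Ioc (0 : ℝ) 1)) Finset.univ
    (fun i τ => √(∑ l, (∑ j, T j i * f l τ j) ^ 2))
    (fun i => supp η (t i) ∪ (Set.Icc 0 1)ᶜ) (15 * η)
    (fun i _ => (measurableSet_supp _ _).union measurableSet_Icc.compl)
    (fun i _ => measure_ne_top _ _) (fun i _ => ?_) (fun i _ τ hτ => ?_)
    (fun i _ => (hc i).sqrt.integrableOn_Ioc)
    (fun i _ => ((hc i).sqrt.pow 2).integrableOn_Ioc)).trans ?_
  · refine (measureReal_union_le _ _).trans ?_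
    have : (volume.restrict (Set.Ioc (0 : ℝ) 1)).real (Set.Icc (0 : ℝ) 1)ᶜ = 0 := by
      rw [measureReal_restrict_apply measurableSet_Icc.compl,
        Set.disjoint_iff_inter_eq_empty.1 (Set.disjoint_compl_left_iff_subset.2
          Set.Ioc_subset_Icc_self), measureReal_empty]
    rw [this, add_zero]
    exact vol_supp hη _
  · simp only [Set.mem_union, Set.mem_compl_iff, not_or, not_not] at hτ
    rw [Finset.sum_eq_zero fun l _ => ?_, Real.sqrt_zero]
    by_contra h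
    obtain ⟨j, k, h4, h5⟩ := hcol (f l τ) τ (hf0 τ l) i (pow_ne_zero_iff two_ne_zero |>.1 h)
    refine hτ.1 (mem_supp hη' hτ.2 (ht i) (k := k) ?_)
    have h6 := abs_lt_of_floor hη h4
    have h7 := abs_add_le (τ - t j - k) (t j - t i)
    rw [show τ - t j - k + (t j - t i) = τ - t i - k by ring] at h7
    linarith
  · have e : ∀ i τ, √(∑ l, (∑ j, T j i * f l τ j) ^ 2) ^ 2 = ∑ l, (∑ j, T j i * f l τ j) ^ 2 :=
      fun i τ => Real.sq_sqrt (by positivity)
    simp only [e]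
    rw [← intervalIntegral.integral_of_le zero_le_one]
    have h3 := intervalIntegral.integral_mono_on (μ := volume) zero_le_one
      (Continuous.intervalIntegrable (by fun_prop) _ _) intervalIntegrable_const hB
    rw [intervalIntegral.integral_const, sub_zero, one_smul] at h3
    refine (mul_le_mul_of_nonneg_left h3 (by positivity)).trans (le_of_eq ?_)
    field_simp
    ring

end Vale.Agent.P184Z
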