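import Vale.Agent.P184Z.Cal

/-!
# Smoothness and naturality of the fields
-/

open scoped ContDiff
open MeasureTheory

set_option linter.unusedSectionVars false

noncomputable section

namespace Vale.Agent.P184Z.SA

universe u

variable {X : Type u} {M : ℕ} {g : Geo X M} {P : Sp} {η0 η : ℝ} {κ : Kit M η0 η} {n : ℕ}

theorem d_nonneg (g : Geo X M) (y z : X) : 0 ≤ g.d y z := by
  have h := g.d_tri y z y
  rw [g.d_self, g.d_symm z y] at h
  linarith

theorem K_eq (k : Ker M η) : k.K = _root_.deriv k.Φ := funext fun r => (k.deriv r).deriv.symm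

theorem smooth_K (k : Ker M η) : ContDiff ℝ ∞ k.K := by
  rw [K_eq k]
  exact (contDiff_infty_iff_deriv.1 k.smooth).2

theorem ρ_pos (h : Ok g P) : 0 < P.ρ := by linarith [h.one_le_R0, h.R0_le]

theorem R0_pos (h : Ok g P) : 0 < P.R0 := by linarith [h.one_le_R0]

theorem R_pos (h : Ok g P) : 0 < P.R := by
  have := (ρ_pos h)
  unfold Sp.R
  linarith

theorem R1_pos (h : Ok g P) : 0 < P.R1 := by
  have := (ρ_pos h)
  unfold Sp.R1
  linarith

theorem R0_le_Rb (h : Ok g P) : P.R0 ≤ g.Rb := by linarith [(ρ_pos h), h.R0_le, h.Rb_eq]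

theorem R_le_Rb (h : Ok g P) : P.R ≤ g.Rb := by
  have := (ρ_pos h)
  unfold Sp.R
  linarith [h.Rb_eq]

theorem R1_le_Rb (h : Ok g P) : P.R1 ≤ g.Rb := by
  have := (ρ_pos h)
  unfold Sp.R1
  linarith [h.Rb_eq]

/-! ### Smoothness -/

section smooth

variable {F : X → En n → ℝ} {Y : Finset X} {b R : ℝ}

theorem fld_le (hF : Fld g F Y) (hR : R ≤ g.Rb) (z : En n) (y : X) (hy : y ∉ Y) : R ≤ F y z :=
  hR.trans_eq (hF.off y hy z).symm

theorem fld_mono (hF : Fld g F Y) {Y' : Finset X} (h : Y ⊆ Y') : Fld g F Y' :=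
  ⟨hF.smooth, fun y hy => hF.off y fun h' => hy (h h')⟩

theorem gF_smooth (hF : Fld g F Y) (h0 : 0 < R) (hR : R ≤ g.Rb) (b : ℝ) (y : X) :
    ContDiff ℝ ∞ (gF b R F y) :=
  Gb.contDiff_uu (D := fun z y => F y z) (T := Y) h0 (fld_le hF hR) hF.smooth y

theorem gF_off (hF : Fld g F Y) (h0 : 0 < R) (hR : R ≤ g.Rb) (b : ℝ) {y : X} (hy : y ∉ Y)
    (z : En n) : gF b R F y z = 0 :=
  Gb.uu_eq_zero h0 (fld_le hF hR z y hy)

theorem finsum_eq {W : Type} [AddCommMonoid W] [Module ℝ W] (hF : Fld g F Y) (h0 : 0 < R)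
    (hR : R ≤ g.Rb) (b : ℝ) (z : En n) (w : X → W) :
    ∑ᶠ y, gF b R F y z ^ 2 • w y = ∑ y ∈ Y, gF b R F y z ^ 2 • w y := by
  refine finsum_eq_sum_of_support_subset _ fun y hy => ?_
  by_contra h
  exact hy (by simp only [gF_off hF h0 hR b h]; simp)

/-- The map, which subtracts the last coordinate from the time. -/
def shm (n : ℕ) : En n × ℝ →L[ℝ] En n :=
  ((ContinuousLinearMap.fst ℝ (Vn n) ℝ).comp (ContinuousLinearMap.fst ℝ (En n) ℝ)).prod
    ((ContinuousLinearMap.snd ℝ (Vn n) ℝ).comp (ContinuousLinearMap.fst ℝ (En n) ℝ) -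
      ContinuousLinearMap.snd ℝ (En n) ℝ)

theorem shm_apply (q : En n × ℝ) : shm n q = (q.1.1, q.1.2 - q.2) := rfl

theorem D1_eq (h : Ok g P) (hF : Fld g F Y) (y : X) (z : En n) :
    D1 g P κ F y z = g.Rb - ∫ r in (-η)..η, κ.k1.K r *
      ∑ y' ∈ Y, gF P.b P.R F y' (z.1, z.2 - r) ^ 2 * (g.Rb - g.d y' y) := by
  unfold D1
  congr 2
  funext r
  congr 1
  exact finsum_eq hF (R_pos h) (R_le_Rb h) P.b _ fun y' => g.Rb - g.d y' y

theorem sm_D1I (h : Ok g P) (hF : Fld g F Y) (y : X) :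
    ContDiff ℝ ∞ fun q : En n × ℝ => κ.k1.K q.2 *
      ∑ y' ∈ Y, gF P.b P.R F y' (shm n q) ^ 2 * (g.Rb - g.d y' y) :=
  ((smooth_K κ.k1).comp contDiff_snd).mul (ContDiff.sum fun y' _ =>
    (((gF_smooth hF (R_pos h) (R_le_Rb h) P.b y').comp (shm n).contDiff).pow 2).mul contDiff_const)

theorem D1_smooth (h : Ok g P) (hF : Fld g F Y) (y : X) : ContDiff ℝ ∞ (D1 g P κ F y) := by
  rw [funext (D1_eq h hF y)]
  exact contDiff_const.sub (contDiff_int _ (sm_D1I h hF y) (-η) η)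

open Classical in
/-- The points at distance less than `Rb` from `Y`. -/
def nb (g : Geo X M) (Y : Finset X) : Finset X := Y.biUnion fun y => (g.fin y).toFinset

theorem d_eq_of_notMem_nb {y y' : X} (hy : y ∉ nb g Y) (hy' : y' ∈ Y) : g.d y' y = g.Rb := by
  classical
  refine le_antisymm (g.d_le _ _) (not_lt.1 fun h => hy ?_)
  unfold nb
  rw [Finset.mem_biUnion]
  exact ⟨y', hy', by simpa using h⟩

theorem D1_fld (h : Ok g P) (hF : Fld g F Y) : Fld g (D1 g P κ F) (nb g Y) where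
  smooth := D1_smooth h hF
  off y hy z := by
    rw [D1_eq h hF]
    have : ∀ r : ℝ, ∑ y' ∈ Y, gF P.b P.R F y' (z.1, z.2 - r) ^ 2 * (g.Rb - g.d y' y) = 0 :=
      fun r => Finset.sum_eq_zero fun y' hy' => by
        rw [d_eq_of_notMem_nb hy hy', sub_self, mul_zero]
    simp [this]

variable {C : Type} {lab : X → Lb M C}

open Classical in
theorem uu_eq (h : Ok g P) (hF : Fld g F Y) (l : Lb M C) (z : En n) :
    uu g P κ F lab l z =
      ∑ y ∈ nb g Y, if lab y = l then gF P.b P.R1 (D1 g P κ F) y z else 0 := by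
  refine finsum_eq_sum_of_support_subset _ fun y hy => ?_
  by_contra h'
  exact hy (by simp only [gF_off (D1_fld h hF) (R1_pos h) (R1_le_Rb h) P.b h', ite_self])

theorem uu_smooth (h : Ok g P) (hF : Fld g F Y) (l : Lb M C) :
    ContDiff ℝ ∞ (uu g P κ F lab l) := by
  rw [funext (uu_eq h hF l)]
  refine ContDiff.sum fun y _ => ?_
  split_ifs
  · exact gF_smooth (D1_fld h hF) (R1_pos h) (R1_le_Rb h) P.b y
  · exact contDiff_const

theorem WW_smooth (h : Ok g P) (hF : Fld g F Y) (l : Lb M C) :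
    ContDiff ℝ ∞ (WW g P κ F lab l) :=
  contDiff_int (fun q : En n × ℝ => (q.2 / M - 1 / 2) * uu g P κ F lab l (q.1.1, q.1.2 + q.2))
    (((contDiff_snd.div_const _).sub contDiff_const).mul ((uu_smooth h hF l).comp
      ((contDiff_fst.comp contDiff_fst).prodMk
        ((contDiff_snd.comp contDiff_fst).add contDiff_snd)))) 0 M

variable [NeZero M] [Fintype C] {F0 F1 FE : X → En n → ℝ} {Y0 Y1 : Finset X}

theorem bint_eq (h : Ok g P) (h0 : Fld g F0 Y0) (z : En n) :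
    bint g P κ F0 F1 FE lab z = (1 / P.ρ) • (∑ y ∈ Y0, gF P.b P.R0 F0 y z ^ 2 • pd (FE y) z) +
      ∑ l, WW g P κ F1 lab l z • pd (uu g P κ F1 lab l) z := by
  rw [bint, finsum_eq h0 (R0_pos h) (R0_le_Rb h)]

theorem bint_smooth (h : Ok g P) (h0 : Fld g F0 Y0) (h1 : Fld g F1 Y1)
    (hE : ∀ y, ContDiff ℝ ∞ (FE y)) : ContDiff ℝ ∞ (bint g P κ F0 F1 FE lab) := by
  rw [funext (bint_eq h h0)]
  exact ((contDiff_sum_pd Y0 _ FE (fun y => (gF_smooth h0 (R0_pos h) (R0_le_Rb h) P.b y).pow 2)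
    hE).const_smul _).add (contDiff_sum_pd Finset.univ _ _ (WW_smooth h h1) (uu_smooth h h1))

theorem bet_smooth (h : Ok g P) (h0 : Fld g F0 Y0) (h1 : Fld g F1 Y1)
    (hE : ∀ y, ContDiff ℝ ∞ (FE y)) : ContDiff ℝ ∞ (bet g P κ F0 F1 FE lab) :=
  contDiff_int _ (bint_smooth h h0 h1 hE) 0 1

theorem bet_apply (h : Ok g P) (h0 : Fld g F0 Y0) (h1 : Fld g F1 Y1)
    (hE : ∀ y, ContDiff ℝ ∞ (FE y)) (s v : Vn n) :
    bet g P κ F0 F1 FE lab s v = ∫ τ in (0 : ℝ)..1, bint g P κ F0 F1 FE lab (s, τ) v :=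
  ContinuousLinearMap.intervalIntegral_apply (Par.Sm.ii (bint_smooth h h0 h1 hE) s 0 1) v

/-- The form is the sum of the fast and of the slow part. -/
theorem bet_eq (h : Ok g P) (h0 : Fld g F0 Y0) (h1 : Fld g F1 Y1)
    (hE : ∀ y, ContDiff ℝ ∞ (FE y)) (s : Vn n) :
    bet g P κ F0 F1 FE lab s =
      (1 / P.ρ) • (∫ τ in (0 : ℝ)..1, ∑ y ∈ Y0, gF P.b P.R0 F0 y (s, τ) ^ 2 • pd (FE y) (s, τ)) +
      ∫ τ in (0 : ℝ)..1, ∑ l, WW g P κ F1 lab l (s, τ) • pd (uu g P κ F1 lab l) (s, τ) := by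
  have a1 := Par.Sm.ii (contDiff_sum_pd Y0 _ FE
    (fun y => (gF_smooth h0 (R0_pos h) (R0_le_Rb h) P.b y).pow 2) hE) s 0 1
  have a2 := Par.Sm.ii (contDiff_sum_pd Finset.univ _ _ (WW_smooth (κ := κ) (lab := lab) h h1)
    (uu_smooth (κ := κ) (lab := lab) h h1)) s 0 1
  rw [bet, ← intervalIntegral.integral_smul]
  refine Eq.trans ?_ (intervalIntegral.integral_add (a1.smul (1 / P.ρ)) a2)
  exact intervalIntegral.integral_congr fun τ _ => bint_eq h h0 _

end smooth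

/-! ### Naturality -/

section nat

variable {n' : ℕ} (L : Vn n' →L[ℝ] Vn n) (c : Vn n) (a : ℝ) (e : X ≃ X)

theorem pd_aff {f : En n → ℝ} (hf : ContDiff ℝ ∞ f) {f' : En n' → ℝ} (k : ℝ)
    (h : ∀ s t, f' (s, t) = f (L s + c, t + a) + k) (s : Vn n') (t : ℝ) (v : Vn n') :
    pd f' (s, t) v = pd f (L s + c, t + a) (L v) := by
  have h1 : f' = fun p => f (L.prodMap (ContinuousLinearMap.id ℝ ℝ) p + (c, a)) + k := by
    funext ⟨x, y⟩
    simpa using h x y
  rw [pd_apply, pd_apply, h1, fderiv_add_const]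
  refine (Par.D_comp_aff _ _ hf _ _).trans ?_
  simp [Par.D]

variable {F : X → En n → ℝ} {F' : X → En n' → ℝ}

theorem gF_nat (hF : ∀ y s t, F' y (s, t) = F (e y) (L s + c, t + a)) (b R : ℝ) (y : X)
    (s : Vn n') (t : ℝ) : gF b R F' y (s, t) = gF b R F (e y) (L s + c, t + a) := by
  unfold gF
  simp only [hF]
  exact Gb.uu_comp b R (fun y' => F y' (L s + c, t + a)) e y

theorem D1_nat (he : ∀ y z, g.d (e y) (e z) = g.d y z)
    (hF : ∀ y s t, F' y (s, t) = F (e y) (L s + c, t + a)) (y : X) (s : Vn n') (t : ℝ) :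
    D1 g P κ F' y (s, t) = D1 g P κ F (e y) (L s + c, t + a) := by
  unfold D1
  congr 2
  funext r
  congr 1
  rw [← finsum_comp_equiv e (f := fun y' => gF P.b P.R F y' (L s + c, t + a - r) ^ 2 *
    (g.Rb - g.d y' (e y)))]
  refine finsum_congr fun y' => ?_
  rw [gF_nat L c a e hF, he, sub_add_eq_add_sub]

variable {C : Type} {lab lab' : X → Lb M C} (π : Lb M C ≃ Lb M C)

theorem uu_nat (he : ∀ y z, g.d (e y) (e z) = g.d y z) (hl : ∀ y, lab (e y) = π (lab' y))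
    (hF : ∀ y s t, F' y (s, t) = F (e y) (L s + c, t + a)) (l : Lb M C) (s : Vn n') (t : ℝ) :
    uu g P κ F' lab' l (s, t) = uu g P κ F lab (π l) (L s + c, t + a) := by
  classical
  unfold uu
  rw [← finsum_comp_equiv e (f := fun y => if lab y = π l then
    gF P.b P.R1 (D1 g P κ F) y (L s + c, t + a) else 0)]
  refine finsum_congr fun y => ?_
  simp only [hl, π.apply_eq_iff_eq, gF_nat L c a e (D1_nat L c a e he hF)]

theorem WW_nat (he : ∀ y z, g.d (e y) (e z) = g.d y z) (hl : ∀ y, lab (e y) = π (lab' y))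
    (hF : ∀ y s t, F' y (s, t) = F (e y) (L s + c, t + a)) (l : Lb M C) (s : Vn n') (t : ℝ) :
    WW g P κ F' lab' l (s, t) = WW g P κ F lab (π l) (L s + c, t + a) := by
  unfold WW
  refine intervalIntegral.integral_congr fun r _ => ?_
  simp only [uu_nat L c a e π he hl hF, add_right_comm t r a]

variable [NeZero M] [Fintype C] {F0 F1 FE : X → En n → ℝ} {F0' F1' FE' : X → En n' → ℝ}
  {Y0 Y1 : Finset X}

theorem bint_nat (h : Ok g P) (h0 : Fld g F0 Y0) (h1 : Fld g F1 Y1) (hE : ∀ y, ContDiff ℝ ∞ (FE y))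
    (he : ∀ y z, g.d (e y) (e z) = g.d y z) (hl : ∀ y, lab (e y) = π (lab' y)) (k : X → ℝ)
    (e0 : ∀ y s t, F0' y (s, t) = F0 (e y) (L s + c, t + a))
    (e1 : ∀ y s t, F1' y (s, t) = F1 (e y) (L s + c, t + a))
    (eE : ∀ y s t, FE' y (s, t) = FE (e y) (L s + c, t + a) + k y) (s : Vn n') (t : ℝ) :
    bint g P κ F0' F1' FE' lab' (s, t) = (bint g P κ F0 F1 FE lab (L s + c, t + a)).comp L := by
  have a1 : ∀ y, pd (FE' y) (s, t) = (pd (FE (e y)) (L s + c, t + a)).comp L := fun y =>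
    ContinuousLinearMap.ext fun v => pd_aff L c a (hE _) (k y) (eE y) s t v
  have a2 : ∀ l, pd (uu g P κ F1' lab' l) (s, t) =
      (pd (uu g P κ F1 lab (π l)) (L s + c, t + a)).comp L := fun l =>
    ContinuousLinearMap.ext fun v => pd_aff L c a (uu_smooth h h1 _) 0
      (fun s t => by rw [uu_nat L c a e π he hl e1, add_zero]) s t v
  rw [bint, bint_eq h h0]
  simp only [a1, a2, gF_nat L c a e e0, WW_nat L c a e π he hl e1]
  rw [finsum_comp_equiv e (f := fun y => gF P.b P.R0 F0 y (L s + c, t + a) ^ 2 •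
      (pd (FE y) (L s + c, t + a)).comp L), finsum_eq h0 (R0_pos h) (R0_le_Rb h),
    π.sum_comp fun l => WW g P κ F1 lab l (L s + c, t + a) •
      (pd (uu g P κ F1 lab l) (L s + c, t + a)).comp L]
  ext v
  simp only [add_apply, smul_apply, sum_apply, ContinuousLinearMap.comp_apply]

/-- Naturality for affine changes of the jump times and isometries. -/
theorem bet_nat (h : Ok g P) (h0 : Fld g F0 Y0) (h1 : Fld g F1 Y1) (hE : ∀ y, ContDiff ℝ ∞ (FE y))
    (he : ∀ y z, g.d (e y) (e z) = g.d y z) (hl : ∀ y, lab (e y) = π (lab' y)) (k : X → ℝ)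
    (e0 : ∀ y s t, F0' y (s, t) = F0 (e y) (L s + c, t))
    (e1 : ∀ y s t, F1' y (s, t) = F1 (e y) (L s + c, t))
    (eE : ∀ y s t, FE' y (s, t) = FE (e y) (L s + c, t) + k y) (s : Vn n') :
    bet g P κ F0' F1' FE' lab' s = (bet g P κ F0 F1 FE lab (L s + c)).comp L := by
  have a1 : ∀ t, bint g P κ F0' F1' FE' lab' (s, t) =
      (bint g P κ F0 F1 FE lab (L s + c, t)).comp L := fun t => by
    simpa only [add_zero] using bint_nat (κ := κ) L c 0 e π h h0 h1 hE he hl k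
      (by simpa only [add_zero] using e0) (by simpa only [add_zero] using e1)
      (by simpa only [add_zero] using eE) s t
  rw [bet, bet]
  simp only [a1]
  exact ((ContinuousLinearMap.compL ℝ (Vn n') (Vn n) ℝ).flip L).intervalIntegral_comp_comm
    (Par.Sm.ii (bint_smooth h h0 h1 hE) (L s + c) 0 1)

end nat

/-! ### Periodicity and translation invariance -/

/-- The shift of the labels is a permutation. -/
def shfE (M : ℕ) (C : Type) : Lb M C ≃ Lb M C := (Equiv.addRight 1).prodCongr (Equiv.refl C)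

theorem shfE_apply {C : Type} (l : Lb M C) : shfE M C l = shf l := rfl

/-- Fields which are invariant under translations and periodic up to a constant. -/
structure Eqv (g : Geo X M) (F : X → En n → ℝ) (k : X → ℝ) : Prop where
  trans : ∀ y s t (a : ℝ), F y (s + a • one n, t + a) = F y (s, t)
  per : ∀ y s t, F y (s, t) = F (g.σ y) (s, t + 1) + k y

section per

variable {C : Type} {lab : X → Lb M C} {F F0 F1 FE : X → En n → ℝ} {Y0 Y1 : Finset X} {k : X → ℝ}

theorem Eqv.per' (hF : Eqv g F 0) (y : X) (s : Vn n) (t : ℝ) :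
    F y (s, t) = F (g.σ y) (ContinuousLinearMap.id ℝ (Vn n) s + 0, t + 1) := by
  simpa using hF.per y s t

theorem Eqv.trans' (hF : Eqv g F k) (a : ℝ) (y : X) (s : Vn n) (t : ℝ) :
    F y (s, t) = F (Equiv.refl X y) (ContinuousLinearMap.id ℝ (Vn n) s + a • one n, t + a) :=
  (hF.trans y s t a).symm

theorem Eqv.gF' (hF : Eqv g F 0) (b R : ℝ) : Eqv g (gF b R F) 0 where
  trans y s t a := (gF_nat _ _ a (Equiv.refl X) (hF.trans' a) b R y s t).symm
  per y s t := by simpa using gF_nat _ _ 1 g.σ hF.per' b R y s t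

theorem Eqv.D1' (hF : Eqv g F 0) : Eqv g (D1 g P κ F) 0 where
  trans y s t a := (D1_nat _ _ a (Equiv.refl X) (fun _ _ => rfl) (hF.trans' a) y s t).symm
  per y s t := by simpa using D1_nat _ _ 1 g.σ g.σ_d hF.per' y s t

theorem uu_trans (hF : Eqv g F k) (l : Lb M C) (s : Vn n) (t a : ℝ) :
    uu g P κ F lab l (s + a • one n, t + a) = uu g P κ F lab l (s, t) :=
  (uu_nat _ _ a (Equiv.refl X) (Equiv.refl _) (fun _ _ => rfl) (fun _ => rfl) (hF.trans' a)
    l s t).symm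

theorem uu_per (hl : IsLab g lab) (hF : Eqv g F 0) (l : Lb M C) (s : Vn n) (t : ℝ) :
    uu g P κ F lab (shf l) (s, t + 1) = uu g P κ F lab l (s, t) := by
  simpa [shfE_apply] using
    (uu_nat (P := P) (κ := κ) _ _ 1 g.σ (shfE M C) g.σ_d hl.shift hF.per' l s t).symm

variable [NeZero M] [Fintype C]

theorem bint_per (h : Ok g P) (h0 : Fld g F0 Y0) (h1 : Fld g F1 Y1) (hE : ∀ y, ContDiff ℝ ∞ (FE y))
    (hl : IsLab g lab) (e0 : Eqv g F0 0) (e1 : Eqv g F1 0) (eE : Eqv g FE k) (s : Vn n) (t : ℝ) :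
    bint g P κ F0 F1 FE lab (s, t + 1) = bint g P κ F0 F1 FE lab (s, t) := by
  simpa using (bint_nat (κ := κ) _ _ 1 g.σ (shfE M C) h h0 h1 hE g.σ_d hl.shift k e0.per' e1.per'
    (by simpa using eE.per) s t).symm

theorem bint_trans (h : Ok g P) (h0 : Fld g F0 Y0) (h1 : Fld g F1 Y1)
    (hE : ∀ y, ContDiff ℝ ∞ (FE y)) (e0 : Eqv g F0 0) (e1 : Eqv g F1 0) (eE : Eqv g FE k)
    (s : Vn n) (t a : ℝ) :
    bint g P κ F0 F1 FE lab (s + a • one n, t + a) = bint g P κ F0 F1 FE lab (s, t) := by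
  simpa using (bint_nat (κ := κ) (lab := lab) _ _ a (Equiv.refl X) (Equiv.refl _) h h0 h1 hE
    (fun _ _ => rfl) (fun _ => rfl) 0 (e0.trans' a) (e1.trans' a)
    (fun y s t => by rw [eE.trans' a y s t]; simp) s t).symm

theorem bet_trans (h : Ok g P) (h0 : Fld g F0 Y0) (h1 : Fld g F1 Y1)
    (hE : ∀ y, ContDiff ℝ ∞ (FE y)) (hl : IsLab g lab) (e0 : Eqv g F0 0) (e1 : Eqv g F1 0)
    (eE : Eqv g FE k) (s : Vn n) (a : ℝ) :
    bet g P κ F0 F1 FE lab (s + a • one n) = bet g P κ F0 F1 FE lab s := by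
  rw [bet, bet, ← Par.int_shift (f := fun τ => bint g P κ F0 F1 FE lab (s + a • one n, τ))
    (bint_per h h0 h1 hE hl e0 e1 eE _) a]
  simp only [bint_trans h h0 h1 hE e0 e1 eE]

end per

end Vale.Agent.P184Z.SA
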