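import Vale.Agent.P184Z.Str
import Vale.Agent.P184Z.PrimB
import Vale.Agent.P184Z.KeyL
import Vale.Agent.P184Z.StrA

/-!
# Estimates in an adapted basis
-/

open scoped ContDiff
open MeasureTheory

noncomputable section

namespace Vale.Agent.P184Z

open Vale.Agent.P184.H38

universe u

variable {X : Type u} {M : ℕ} [NeZero M] {g : Geo X M} {P : Sp} {η0 η : ℝ} (κ : Kit M η0 η)
  {N : ℕ} {C : Type} [Fintype C] {lab : X → Lb M C}

/-- The scaling of the coordinates. -/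
def sc (g : Geo X M) (p : Fin (N + 1) → X) (a : Fin N) : ℝ := max 1 (len g p a.castSucc)

/-- The vectors of the adapted basis. -/
def vT (g : Geo X M) (p : Fin (N + 1) → X) (T : Matrix (Fin N) (Fin N) ℝ) (i : Fin N) :
    Vn (N + 1) := ∑ a, ((sc g p a)⁻¹ * T a i) • ev a

/-- The transpose of `T` is a contraction. -/
def Contr (T : Matrix (Fin N) (Fin N) ℝ) : Prop :=
  ∀ a : Fin N → ℝ, ∑ i, (∑ j, T j i * a j) ^ 2 ≤ ∑ j, a j ^ 2

namespace LBd

/-- Vectors in the scaled coordinates. -/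
def vw (g : Geo X M) (p : Fin (N + 1) → X) (w : Fin N → ℝ) : Vn (N + 1) :=
  ∑ a, ((sc g p a)⁻¹ * w a) • ev a

/-- Covectors in the scaled coordinates. -/
def co (g : Geo X M) (p : Fin (N + 1) → X) (φ : Vn (N + 1) →L[ℝ] ℝ) (a : Fin N) : ℝ :=
  (sc g p a)⁻¹ * φ (ev a)

omit [NeZero M] in
theorem app_vw (p : Fin (N + 1) → X) (φ : Vn (N + 1) →L[ℝ] ℝ) (w : Fin N → ℝ) :
    φ (vw g p w) = co g p φ ⬝ᵥ w := by
  simp only [vw, co, map_sum, map_smul, smul_eq_mul, dotProduct]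
  exact Finset.sum_congr rfl fun a _ => by ring

omit [NeZero M] in
theorem app_vT (p : Fin (N + 1) → X) (φ : Vn (N + 1) →L[ℝ] ℝ) (T : Matrix (Fin N) (Fin N) ℝ)
    (i : Fin N) : φ (vT g p T i) = ∑ a, T a i * co g p φ a := by
  simp only [vT, co, map_sum, map_smul, smul_eq_mul]
  exact Finset.sum_congr rfl fun a _ => by ring

omit [NeZero M] in
theorem co_sq_le (p : Fin (N + 1) → X) (φ : Vn (N + 1) →L[ℝ] ℝ) (a : Fin N) {K : ℝ} (hK : 0 ≤ K)
    (h : |φ (ev a)| ≤ len g p a.castSucc * K) : co g p φ a ^ 2 ≤ K ^ 2 := by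
  have h1 : 0 < sc g p a := lt_max_of_lt_left one_pos
  have h2 : len g p a.castSucc ≤ sc g p a := le_max_right _ _
  refine sq_le_sq.2 ?_
  rw [co, abs_mul, abs_of_pos (inv_pos.2 h1), abs_of_nonneg hK, inv_mul_le_iff₀ h1]
  exact h.trans (mul_le_mul_of_nonneg_right h2 hK)

omit [NeZero M] in
theorem cont_pd {n : ℕ} {f : En n → ℝ} (hf : ContDiff ℝ ∞ f) (s v : Vn n) :
    Continuous fun τ : ℝ => pd f (s, τ) v :=
  ((contDiff_pd hf).continuous.comp (Continuous.prodMk_right s)).clm_apply continuous_const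

omit [NeZero M] in
theorem fast (k : Ker M η) (hM : 0 < M) (h0 : 0 < η) (h4 : 4 * η ≤ 1) {b R : ℝ} (hR : 0 < R)
    (hR' : R ≤ g.Rb) (hb : 1 ≤ b * R) (hc : Cnt g b R) (p : Fin (N + 1) → X) {Y : Finset X}
    (hF : Fld g (prim g k.Φ 1 p) Y) {s : Vn (N + 1)} (hs : Ord s)
    {T : Matrix (Fin N) (Fin N) ℝ} (hT : Contr T) :
    ∫ τ in (0 : ℝ)..1, ∑ y ∈ Y, ∑ i,
      pd (gF b R (prim g k.Φ 1 p) y) (s, τ) (vT g p T i) ^ 2 ≤ cb b * N / η := by
  have hcb : 0 ≤ cb b := by unfold cb; positivity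
  have c1 := fun y v => cont_pd (hF.gF_smooth b hR hR' y) s v
  have c2 := k.continuous_K1
  calc _ ≤ ∫ τ in (0 : ℝ)..1, cb b / η * ∑ a : Fin N, k.K1 (τ - s a.castSucc) := by
        refine intervalIntegral.integral_mono_on zero_le_one
          (Continuous.intervalIntegrable (by fun_prop) _ _)
          (Continuous.intervalIntegrable (by fun_prop) _ _) fun τ _ => ?_
        refine (hF.gF_bound hR hR' hb hc (s, τ) (fun y y' => prim_tri g k hM p hs y y' τ)
          (vT g p T) (B := 1 / η * ∑ a : Fin N, k.K1 (τ - s a.castSucc))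
          (mul_nonneg (by positivity) (Finset.sum_nonneg fun a _ => k.K1_nonneg _))
          fun y => ?_).trans (le_of_eq (by ring))
        simp only [app_vT]
        refine (hT _).trans ?_
        rw [Finset.mul_sum]
        refine Finset.sum_le_sum fun a _ => (co_sq_le p _ a (k.K1_nonneg _)
          (abs_pd_prim g k p y (s, τ) a.castSucc)).trans ?_
        rw [sq]
        exact mul_le_mul_of_nonneg_right (k.K1_le h0 h4 _) (k.K1_nonneg _)
    _ = _ := by
        rw [intervalIntegral.integral_const_mul, intervalIntegral.integral_finsetSum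
          fun a _ => Continuous.intervalIntegrable (by fun_prop) _ _]
        simp only [k.int_K1 hM, Finset.sum_const, Finset.card_univ, Fintype.card_fin,
          nsmul_eq_mul]
        ring

omit [NeZero M] in
theorem per {n : ℕ} {F : X → En n → ℝ} {Y : Finset X} (hF : Fld g F Y) (b : ℝ) {R : ℝ}
    (hR : 0 < R) (hR' : R ≤ g.Rb) (hp : ∀ y s τ, F (g.σ y) (s, τ + 1) = F y (s, τ))
    (s v : Vn n) (τ : ℝ) :
    ∑ y ∈ Y, pd (gF b R F y) (s, τ + 1) v ^ 2 = ∑ y ∈ Y, pd (gF b R F y) (s, τ) v ^ 2 := by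
  have h1 : ∀ τ, ∑ y ∈ Y, pd (gF b R F y) (s, τ) v ^ 2 =
      ∑ᶠ y, pd (gF b R F y) (s, τ) v ^ 2 := fun τ => by
    refine (finsum_eq_sum_of_support_subset _ fun y hy => ?_).symm
    by_contra h
    refine hy ?_
    simp [pd_gF_zero hR (SA.fld_le hF hR' (s, τ) y h)]
  rw [h1, h1, ← finsum_comp_equiv g.σ]
  refine finsum_congr fun y => ?_
  have h2 := SA.pd_aff (ContinuousLinearMap.id ℝ (Vn n)) 0 1 (hF.gF_smooth b hR hR' (g.σ y))
    (f' := gF b R F y) 0 (fun s t => by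
      rw [add_zero]
      exact SA.gF_nat (ContinuousLinearMap.id ℝ (Vn n)) 0 1 g.σ
        (fun y s t => by simpa using (hp y s t).symm) b R y s t) s τ v
  rw [h2]
  simp

end LBd

open LBd

set_option linter.unusedSectionVars false

theorem exists_T_Lv (hP : Ok g P) (hl : IsLab g lab) (p : Fin (N + 1) → X) {t : Vn N}
    (ht : t ∈ simplex N) {ϑ : ℝ} (hϑ : 0 < ϑ) :
    ∃ T : Matrix (Fin N) (Fin N) ℝ, Real.exp (-(cb P.b * N / (2 * ϑ))) ≤ |T.det| ∧ Contr T ∧
      ∑ i, Lv g P κ p lab (sl t) (vT g p T i) ^ 2 ≤ 900 * cb P.b * g.Rb ^ 2 * ϑ / η := by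
  obtain ⟨Y, hY⟩ := exists_fld g p
  have hF := hY _ κ.k1.smooth
  obtain ⟨-, -, hR, -, -, hR', -, -, hb, -, -⟩ := hP.pos
  have hη : 0 < η := κ.pos.trans_le κ.le
  have h4 : 4 * η ≤ 1 := by linarith [κ.small]
  have hs := (ord_sl ht).1
  have hcb : 0 ≤ cb P.b := by unfold cb; positivity
  obtain ⟨T, t1, t2, t3⟩ := keyL Y
    (fun y τ => co g p (pd (gF P.b P.R (prim g κ.k1.Φ 1 p) y) (sl t, τ)))
    (fun l τ => co g p (pd (uu g P κ (prim g κ.k1.Φ 1 p) lab l) (sl t, τ))) t η (cb P.b)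
    (4 * g.Rb ^ 2 / η) (cb P.b * N / η) ϑ hη κ.small hcb (by positivity) hϑ ht.2
    (fun y j => continuous_const.mul (cont_pd (hF.gF_smooth _ hR hR' y) _ _))
    (fun l j => continuous_const.mul (cont_pd (hF.uu_smooth κ hP lab l) _ _))
    (fun y hy τ j h => by
      have h1 := hF.gF_bound hR hR' hb hP.c (sl t, τ)
        (fun y y' => prim_tri g κ.k1 κ.M_pos p hs y y' τ) (fun _ : Unit => ev j) le_rfl fun y => by
          have h2 := abs_pd_prim g κ.k1 p y (sl t, τ) j.castSucc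
          rw [κ.k1.K1_zero _ (by simpa [sl] using h), mul_zero, abs_nonpos_iff] at h2
          simp [ev, h2]
      simp only [Finset.univ_unique, Finset.sum_singleton, mul_zero] at h1
      have h3 := (Finset.single_le_sum (f := fun y =>
        pd (gF P.b P.R (prim g κ.k1.Φ 1 p) y) (sl t, τ) (ev j) ^ 2)
        (fun y _ => sq_nonneg _) hy).trans h1
      rw [co, pow_eq_zero_iff two_ne_zero |>.1 (le_antisymm h3 (sq_nonneg _)), mul_zero])
    (fun τ w => by
      simp only [← app_vw]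
      exact per hF _ hR hR' (prim_per g κ.k1.per p) _ _ τ)
    (by
      have h1 := fast κ.k1 κ.M_pos hη h4 hR hR' hb hP.c p hF hs (T := 1) fun a => by
        simp [Matrix.one_apply]
      simpa [app_vT, Matrix.one_apply] using h1)
    (fun τ v B hB h => by
      simp only [← app_vw] at h ⊢
      refine hF.pd_uu_bound κ hP hl (sl t, τ) (fun i => vw g p (v i)) hB fun y => ?_
      simp only [app_vw]
      refine h _ fun w => ?_
      rw [← app_vw]
      exact hF.pd_D1_sq κ hP y (sl t) τ _)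
  refine ⟨T, ?_, t2, ?_⟩
  · rwa [show η / ϑ * (cb P.b * N / η) / 2 = cb P.b * N / (2 * ϑ) by field_simp] at t1
  · simp only [Lv, app_vT]
    exact t3.trans (le_of_eq (by ring))

theorem fast_a (hP : Ok g P) (p : Fin (N + 1) → X) {Y : Finset X}
    (hY : ∀ Φ : ℝ → ℝ, ContDiff ℝ ∞ Φ → Fld g (prim g Φ 1 p) Y) {s : Vn (N + 1)} (hs : Ord s)
    {T : Matrix (Fin N) (Fin N) ℝ} (hT : Contr T) :
    ∫ τ in (0 : ℝ)..1, ∑ y ∈ Y, ∑ i,
      pd (gF P.b P.R0 (prim g κ.k0.Φ 1 p) y) (s, τ) (vT g p T i) ^ 2 ≤ cb P.b * N / η0 := by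
  obtain ⟨-, hR, -, -, hR', -, -, hb, -, -, -⟩ := hP.pos
  exact fast κ.k0 κ.M_pos κ.pos (by linarith [κ.small, κ.le, κ.pos]) hR hR' hb hP.c0 p
    (hY _ κ.k0.smooth) hs hT

theorem fast_b (hP : Ok g P) (p : Fin (N + 1) → X) {Y : Finset X}
    (hY : ∀ Φ : ℝ → ℝ, ContDiff ℝ ∞ Φ → Fld g (prim g Φ 1 p) Y) (s : Vn (N + 1))
    {T : Matrix (Fin N) (Fin N) ℝ} (hT : Contr T) :
    ∫ τ in (0 : ℝ)..1, ∑ y ∈ Y, ∑ i, (gF P.b P.R0 (prim g κ.k0.Φ 1 p) y (s, τ) *
      pd (prim g κ.Ψ κ.c p y) (s, τ) (vT g p T i)) ^ 2 ≤ 8 * η * N := by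
  obtain ⟨-, hR, -, -, hR', -, -, -, -, -, -⟩ := hP.pos
  have hF := hY _ κ.k0.smooth
  have c1 := fun y v => cont_pd (contDiff_prim g κ.smooth κ.c p y) s v
  have c2 := κ.continuous_k1abs
  have c3 : ∀ y, Continuous fun τ : ℝ => gF P.b P.R0 (prim g κ.k0.Φ 1 p) y (s, τ) := fun y =>
    (hF.gF_smooth _ hR hR' y).continuous.comp (Continuous.prodMk_right s)
  calc _ ≤ ∫ τ in (0 : ℝ)..1, ∑ a : Fin N, κ.k1abs (τ - s a.castSucc) := by
        refine intervalIntegral.integral_mono_on zero_le_one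
          (Continuous.intervalIntegrable (by fun_prop) _ _)
          (Continuous.intervalIntegrable (by fun_prop) _ _) fun τ _ => ?_
        have h0 : 0 ≤ ∑ a : Fin N, κ.k1abs (τ - s a.castSucc) :=
          Finset.sum_nonneg fun a _ => κ.k1abs_nonneg _
        refine le_trans ?_ (mul_le_of_le_one_left h0 (hF.sum_gF_le P.b hR hR' (s, τ)))
        rw [Finset.sum_mul]
        refine Finset.sum_le_sum fun y _ => ?_
        simp only [mul_pow, ← Finset.mul_sum, app_vT]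
        refine mul_le_mul_of_nonneg_left ((hT _).trans (Finset.sum_le_sum fun a _ =>
          (co_sq_le p _ a (κ.k1abs_nonneg _)
            (abs_pd_primE g κ p y (s, τ) a.castSucc)).trans ?_)) (sq_nonneg _)
        rw [sq]
        exact mul_le_of_le_one_left (κ.k1abs_nonneg _) (κ.k1abs_le _)
    _ ≤ _ := by
        rw [intervalIntegral.integral_finsetSum
          fun a _ => Continuous.intervalIntegrable (by fun_prop) _ _]
        refine (Finset.sum_le_sum fun a _ => κ.int_k1abs _).trans (le_of_eq ?_)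
        rw [Finset.sum_const, Finset.card_univ, Fintype.card_fin, nsmul_eq_mul, mul_comm]

end Vale.Agent.P184Z
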