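import Vale.Agent.P184Z.Smo

/-!
# The second layer
-/

open scoped ContDiff
open MeasureTheory

noncomputable section

namespace Vale.Agent.P184Z

open Vale.Agent.P184.H38

universe u

variable {X : Type u} {M : ℕ} {g : Geo X M} {P : Sp} {η0 η : ℝ} (κ : Kit M η0 η) {n : ℕ}
  {C : Type} {F : X → En n → ℝ} {Y : Finset X}

namespace Lay

theorem η_pos (κ : Kit M η0 η) : 0 < η := κ.pos.trans_le κ.le

theorem int_K : ∫ r in (-η)..η, κ.k1.K r = 1 :=
  κ.k1.int_K κ.M_pos (η_pos κ) (by linarith [κ.small, η_pos κ])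

theorem int_le {f : ℝ → ℝ} (hf : Continuous f) {c : ℝ} (h : ∀ r, |r| ≤ η → f r ≤ c) :
    ∫ r in (-η)..η, κ.k1.K r * f r ≤ c := by
  have hK := κ.k1.contDiff_K.continuous
  have h1 : ∫ r in (-η)..η, κ.k1.K r * f r ≤ ∫ r in (-η)..η, κ.k1.K r * c := by
    refine intervalIntegral.integral_mono_on (by linarith [η_pos κ])
      ((hK.mul hf).intervalIntegrable _ _) ((hK.mul continuous_const).intervalIntegrable _ _)
      fun r hr => mul_le_mul_of_nonneg_left (h r (abs_le.2 hr)) (κ.k1.K_nonneg r)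
  rwa [intervalIntegral.integral_mul_const, int_K, one_mul] at h1

theorem le_int {f : ℝ → ℝ} (hf : Continuous f) {c : ℝ} (h : ∀ r, |r| ≤ η → c ≤ f r) :
    c ≤ ∫ r in (-η)..η, κ.k1.K r * f r := by
  have h1 := int_le κ (f := fun r => - f r) hf.neg (c := -c) fun r hr => neg_le_neg (h r hr)
  simp only [mul_neg, intervalIntegral.integral_neg] at h1
  linarith

/-- The inequality of Jensen for the square. -/
theorem sq_int_le {f : ℝ → ℝ} (hf : Continuous f) :
    (∫ r in (-η)..η, κ.k1.K r * f r) ^ 2 ≤ ∫ r in (-η)..η, κ.k1.K r * f r ^ 2 := by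
  have hK := κ.k1.contDiff_K.continuous
  set c := ∫ r in (-η)..η, κ.k1.K r * f r with hc
  have h1 := le_int κ (f := fun r => f r ^ 2 - 2 * c * f r) (by fun_prop) (c := -c ^ 2)
    fun r _ => by nlinarith [sq_nonneg (f r - c)]
  have h2 : ∫ r in (-η)..η, κ.k1.K r * (f r ^ 2 - 2 * c * f r) =
      (∫ r in (-η)..η, κ.k1.K r * f r ^ 2) - 2 * c * c := by
    have h3 : ∫ r in (-η)..η, 2 * c * (κ.k1.K r * f r) = 2 * c * c :=
      intervalIntegral.integral_const_mul _ _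
    have h4 : Continuous fun r => κ.k1.K r * f r ^ 2 := hK.mul (hf.pow 2)
    have h5 : Continuous fun r => 2 * c * (κ.k1.K r * f r) := continuous_const.mul (hK.mul hf)
    rw [← h3, ← intervalIntegral.integral_sub (h4.intervalIntegrable _ _)
      (h5.intervalIntegrable _ _)]
    exact intervalIntegral.integral_congr fun r _ => by ring
  rw [h2] at h1
  nlinarith

theorem cont_gF (hP : Ok g P) (hF : Fld g F Y) (y : X) (z : En n) :
    Continuous fun r : ℝ => gF P.b P.R F y (z.1, z.2 - r) := by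
  obtain ⟨-, -, hR, -, -, hRb, -⟩ := hP.pos
  exact (hF.gF_smooth P.b hR hRb y).continuous.comp (by fun_prop)

theorem cont_A (hP : Ok g P) (hF : Fld g F Y) (y : X) (z : En n) :
    Continuous fun r : ℝ => ∑ y' ∈ Y, gF P.b P.R F y' (z.1, z.2 - r) ^ 2 * (g.Rb - g.d y' y) :=
  continuous_finsetSum _ fun y' _ => ((cont_gF hP hF y' z).pow 2).mul continuous_const

theorem pd_D1 (hP : Ok g P) (hF : Fld g F Y) (y : X) (s : Vn n) (τ : ℝ) (w : Vn n) :
    pd (D1 g P κ F y) (s, τ) w = - ∫ r in (-η)..η, κ.k1.K r * ∑ y' ∈ Y,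
      2 * gF P.b P.R F y' (s, τ - r) * pd (gF P.b P.R F y') (s, τ - r) w * (g.Rb - g.d y' y) := by
  obtain ⟨-, -, hR, -, -, hRb, -⟩ := hP.pos
  have hs := fun y' => hF.gF_smooth P.b hR hRb y'
  have h0 : Par.Sm fun q : En n × ℝ => κ.k1.K q.2 *
      ∑ y' ∈ Y, (gF P.b P.R F y' (q.1.1, q.1.2 - q.2)) ^ 2 * (g.Rb - g.d y' y) := by
    refine (κ.k1.contDiff_K.comp contDiff_snd).mul (ContDiff.sum fun y' _ => ?_)
    exact (((hs y').comp
      (contDiff_fst.fst.prodMk (contDiff_fst.snd.sub contDiff_snd))).pow 2).mul contDiff_const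
  rw [pd_eq_D, funext fun z => hF.D1_eq κ hP y z,
    Par.D_sub contDiff_const (Par.Sm.int h0 _ _), Par.D_const, zero_sub, Par.D_int h0]
  congr 1
  refine intervalIntegral.integral_congr fun r _ => ?_
  have h1 : ∀ y', Par.Sm fun z : En n => gF P.b P.R F y' (z.1, z.2 - r) := fun y' =>
    (hs y').comp (contDiff_fst.prodMk (contDiff_snd.sub contDiff_const))
  have h2 : ∀ y', Par.D (w, 0) (fun z : En n => gF P.b P.R F y' (z.1, z.2 - r)) (s, τ) =
      pd (gF P.b P.R F y') (s, τ - r) w := fun y' => by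
    have h3 : (fun z : En n => gF P.b P.R F y' (z.1, z.2 - r)) =
        fun z => gF P.b P.R F y' (z + (0, -r)) := by
      funext z
      congr 1
      exact Prod.ext (add_zero _).symm (sub_eq_add_neg _ _)
    rw [h3, Par.D_comp_add, pd_eq_D]
    congr 1
    exact Prod.ext (add_zero _) (sub_eq_add_neg _ _).symm
  change Par.D (((w, 0), 0) : En n × ℝ) _ ((s, τ), r) = _
  rw [← Par.D_slice h0]
  change Par.D (w, 0) (fun z : En n => κ.k1.K r *
    ∑ y' ∈ Y, (gF P.b P.R F y' (z.1, z.2 - r)) ^ 2 * (g.Rb - g.d y' y)) (s, τ) = _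
  rw [Par.D_const_mul _ (ContDiff.sum fun y' _ => ((h1 y').pow 2).mul contDiff_const),
    Par.D_sum _ fun y' _ => ((h1 y').pow 2).mul contDiff_const]
  congr 1
  refine Finset.sum_congr rfl fun y' _ => ?_
  rw [Par.D_mul_const _ ((h1 y').pow 2)]
  simp only [sq]
  rw [Par.D_mul (h1 y') (h1 y'), h2]
  ring

open Classical in
theorem sum_sq_push [NeZero M] [Fintype C] {lab : X → Lb M C} (hl : IsLab g lab) (T : Finset X)
    (a : X → ℝ) (ha : ∀ y y', a y ≠ 0 → a y' ≠ 0 → g.d y y' < g.Rb) :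
    ∑ l, (∑ y ∈ T, if lab y = l then a y else 0) ^ 2 = ∑ y ∈ T, a y ^ 2 := by
  have h1 : ∀ l, (∑ y ∈ T, if lab y = l then a y else 0) ^ 2 =
      ∑ y ∈ T, if lab y = l then a y ^ 2 else 0 := by
    intro l
    rw [sq, Finset.sum_mul_sum]
    refine Finset.sum_congr rfl fun y hy => ?_
    rw [Finset.sum_eq_single y]
    · split_ifs
      · ring
      · ring
    · intro y' _ hne
      by_cases h2 : lab y = l
      · by_cases h3 : lab y' = l
        · rw [if_pos h2, if_pos h3]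
          by_contra h4
          obtain ⟨h5, h6⟩ := mul_ne_zero_iff.1 h4
          exact hne (hl.inj y y' (ha y y' h5 h6) (h2.trans h3.symm)).symm
        · rw [if_neg h3, mul_zero]
      · rw [if_neg h2, zero_mul]
    · exact fun h => absurd hy h
  simp only [h1]
  rw [Finset.sum_comm]
  refine Finset.sum_congr rfl fun y _ => ?_
  rw [Finset.sum_ite_eq, if_pos (Finset.mem_univ _)]

end Lay

theorem Fld.D1_tri (hP : Ok g P) (hF : Fld g F Y) (y y' : X) (z : En n) :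
    g.d y y' ≤ D1 g P κ F y z + D1 g P κ F y' z := by
  obtain ⟨-, -, hR, -, -, hRb, -⟩ := hP.pos
  have hK := κ.k1.contDiff_K.continuous
  have a1 := Lay.cont_A hP hF y z
  have a2 := Lay.cont_A hP hF y' z
  have h1 := Lay.int_le κ (a1.add a2) (c := 2 * g.Rb - g.d y y') fun r _ => by
    have h2 : 0 ≤ 2 * g.Rb - g.d y y' := by linarith [g.d_le y y']
    rw [Pi.add_apply, ← Finset.sum_add_distrib]
    refine le_trans (Finset.sum_le_sum (g := fun y'' =>
      gF P.b P.R F y'' (z.1, z.2 - r) ^ 2 * (2 * g.Rb - g.d y y')) fun y'' _ => ?_) ?_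
    · rw [← mul_add]
      refine mul_le_mul_of_nonneg_left ?_ (sq_nonneg _)
      have h3 := g.d_tri y y'' y'
      rw [g.d_symm y y''] at h3
      linarith
    · rw [← Finset.sum_mul]
      exact mul_le_of_le_one_left h2 (hF.sum_gF_le P.b hR hRb _)
  simp only [Pi.add_apply, mul_add] at h1
  have h4 := (intervalIntegral.integral_add ((hK.mul a1).intervalIntegrable (-η) η)
    ((hK.mul a2).intervalIntegrable (-η) η)).symm.trans_le h1
  simp only [Pi.mul_apply] at h4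
  rw [hF.D1_eq κ hP, hF.D1_eq κ hP]
  linarith

/-- If the first layer is near `y` during the whole window, the second layer is active. -/
theorem Fld.D1_le (hP : Ok g P) (hF : Fld g F Y) (y : X) (s : Vn n) (τ : ℝ)
    (htri : ∀ r y y', g.d y y' ≤ F y (s, r) + F y' (s, r))
    (h : ∀ r, |r| ≤ η → F y (s, τ - r) ≤ P.R / 2) : D1 g P κ F y (s, τ) ≤ P.R1 / 2 := by
  obtain ⟨-, -, hR, -, -, hRb, -⟩ := hP.pos
  have h1 := Lay.le_int κ (Lay.cont_A hP hF y (s, τ)) (c := g.Rb - P.R1 / 2) fun r hr => by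
    have h2 := hF.sum_gF_eq (b := P.b) (by linarith [hP.one_le_b]) hR hRb (s, τ - r) (h r hr)
    refine le_trans ?_ (Finset.sum_le_sum (f := fun y' =>
      gF P.b P.R F y' (s, τ - r) ^ 2 * (g.Rb - P.R1 / 2)) fun y' _ => ?_)
    · rw [← Finset.sum_mul, h2, one_mul]
    · by_cases h3 : gF P.b P.R F y' (s, τ - r) = 0
      · change _ ≤ gF P.b P.R F y' (s, τ - r) ^ 2 * _
        rw [h3]
        simp
      · refine mul_le_mul_of_nonneg_left ?_ (sq_nonneg _)
        have h4 := lt_of_gF_ne_zero hR h3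
        have h5 := htri (τ - r) y' y
        have h6 := h r hr
        unfold Sp.R at h4 h6
        unfold Sp.R1
        linarith
  rw [hF.D1_eq κ hP]
  linarith

theorem Fld.pd_D1_sq (hP : Ok g P) (hF : Fld g F Y) (y : X) (s : Vn n) (τ : ℝ) (w : Vn n) :
    pd (D1 g P κ F y) (s, τ) w ^ 2 ≤ 4 * g.Rb ^ 2 / η *
      ∫ r in (-η)..η, ∑ y' ∈ Y, pd (gF P.b P.R F y') (s, τ - r) w ^ 2 := by
  obtain ⟨-, -, hR, -, -, hRb, -⟩ := hP.pos
  have hK := κ.k1.contDiff_K.continuous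
  have hη := Lay.η_pos κ
  have c1 := fun y' => Lay.cont_gF hP hF y' (s, τ)
  have c2 : ∀ y', Continuous fun r : ℝ => pd (gF P.b P.R F y') (s, τ - r) w := fun y' =>
    ((contDiff_pd (hF.gF_smooth P.b hR hRb y')).continuous.comp (by fun_prop)).clm_apply
      continuous_const
  have c3 : Continuous fun r : ℝ => ∑ y' ∈ Y, 2 * gF P.b P.R F y' (s, τ - r) *
      pd (gF P.b P.R F y') (s, τ - r) w * (g.Rb - g.d y' y) :=
    continuous_finsetSum _ fun y' _ =>
      ((continuous_const.mul (c1 y')).mul (c2 y')).mul continuous_const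
  have c4 : Continuous fun r : ℝ => ∑ y' ∈ Y, pd (gF P.b P.R F y') (s, τ - r) w ^ 2 :=
    continuous_finsetSum _ fun y' _ => (c2 y').pow 2
  rw [Lay.pd_D1 κ hP hF, neg_sq]
  refine (Lay.sq_int_le κ c3).trans ?_
  rw [← intervalIntegral.integral_const_mul]
  refine intervalIntegral.integral_mono_on (by linarith)
    ((hK.mul (c3.pow 2)).intervalIntegrable _ _)
    ((continuous_const.mul c4).intervalIntegrable _ _) fun r _ => ?_
  have h1 := Finset.sum_mul_sq_le_sq_mul_sq Y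
    (fun y' => 2 * gF P.b P.R F y' (s, τ - r) * (g.Rb - g.d y' y))
    fun y' => pd (gF P.b P.R F y') (s, τ - r) w
  have h2 : ∑ y' ∈ Y, (2 * gF P.b P.R F y' (s, τ - r) * (g.Rb - g.d y' y)) ^ 2 ≤
      4 * g.Rb ^ 2 := by
    refine le_trans (Finset.sum_le_sum (g := fun y' =>
      gF P.b P.R F y' (s, τ - r) ^ 2 * (4 * g.Rb ^ 2)) fun y' _ => ?_) ?_
    · have h3 : (g.Rb - g.d y' y) ^ 2 ≤ g.Rb ^ 2 :=
        pow_le_pow_left₀ (by linarith [g.d_le y' y]) (by linarith [g.d_nonneg y' y]) 2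
      have h4 := mul_le_mul_of_nonneg_left h3 (sq_nonneg (gF P.b P.R F y' (s, τ - r)))
      nlinarith
    · rw [← Finset.sum_mul]
      exact mul_le_of_le_one_left (by positivity) (hF.sum_gF_le P.b hR hRb _)
  have h5 : 0 ≤ ∑ y' ∈ Y, pd (gF P.b P.R F y') (s, τ - r) w ^ 2 :=
    Finset.sum_nonneg fun _ _ => sq_nonneg _
  have h6 : (∑ y' ∈ Y, 2 * gF P.b P.R F y' (s, τ - r) *
      pd (gF P.b P.R F y') (s, τ - r) w * (g.Rb - g.d y' y)) ^ 2 ≤
      4 * g.Rb ^ 2 * ∑ y' ∈ Y, pd (gF P.b P.R F y') (s, τ - r) w ^ 2 := by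
    refine le_trans (le_of_eq ?_) (h1.trans (mul_le_mul_of_nonneg_right h2 h5))
    congr 1
    exact Finset.sum_congr rfl fun y' _ => by ring
  calc _ ≤ 1 / η * (4 * g.Rb ^ 2 * ∑ y' ∈ Y, pd (gF P.b P.R F y') (s, τ - r) w ^ 2) :=
        mul_le_mul (κ.k1.K_le r) h6 (sq_nonneg _) (by positivity)
    _ = _ := by ring

theorem Fld.D1_near (hP : Ok g P) (hF : Fld g F Y) (z : En n) {y y' : X}
    (h : D1 g P κ F y z < P.R1) (h' : D1 g P κ F y' z < P.R1) : g.d y y' < g.Rb := by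
  have h1 := hF.D1_tri κ hP y y' z
  have h2 := hP.Rb_eq
  unfold Sp.R1 at h h'
  linarith

variable [NeZero M] [Fintype C] {lab : X → Lb M C}

theorem Fld.sum_uu (hP : Ok g P) (hF : Fld g F Y) (hl : IsLab g lab) (z : En n) {Y' : Finset X}
    (hY' : Fld g (D1 g P κ F) Y') :
    ∑ l, uu g P κ F lab l z ^ 2 = ∑ y ∈ Y', gF P.b P.R1 (D1 g P κ F) y z ^ 2 := by
  obtain ⟨-, -, -, hR, -⟩ := hP.pos
  simp only [uu_eq κ hP hY']
  exact Lay.sum_sq_push hl Y' _ fun y y' h h' =>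
    hF.D1_near κ hP z (lt_of_gF_ne_zero hR h) (lt_of_gF_ne_zero hR h')

theorem Fld.sum_uu_le (hP : Ok g P) (hF : Fld g F Y) (hl : IsLab g lab) (z : En n) :
    ∑ l, uu g P κ F lab l z ^ 2 ≤ 1 := by
  obtain ⟨Y', hY'⟩ := hF.exists_D1 κ hP
  obtain ⟨-, -, -, hR, -, -, hRb, -⟩ := hP.pos
  rw [hF.sum_uu κ hP hl z hY']
  exact hY'.sum_gF_le P.b hR hRb z

theorem Fld.sum_uu_eq (hP : Ok g P) (hF : Fld g F Y) (hl : IsLab g lab) (z : En n) {y : X}
    (h : D1 g P κ F y z ≤ P.R1 / 2) : ∑ l, uu g P κ F lab l z ^ 2 = 1 := by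
  obtain ⟨Y', hY'⟩ := hF.exists_D1 κ hP
  obtain ⟨-, -, -, hR, -, -, hRb, -⟩ := hP.pos
  rw [hF.sum_uu κ hP hl z hY']
  exact hY'.sum_gF_eq (by linarith [hP.one_le_b]) hR hRb z h

set_option linter.unusedSectionVars false in
/-- At most half of the residues are occupied. -/
theorem Fld.uu_fib (hP : Ok g P) (hF : Fld g F Y) (hl : IsLab g lab) (z : En n) (c : C) :
    (∑ r : ZMod M, uu g P κ F lab (r, c) z) ^ 2 ≤
      M / 2 * ∑ r : ZMod M, uu g P κ F lab (r, c) z ^ 2 := by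
  classical
  obtain ⟨Y', hY'⟩ := hF.exists_D1 κ hP
  obtain ⟨-, -, -, hR, -⟩ := hP.pos
  set U := Y'.filter fun y => gF P.b P.R1 (D1 g P κ F) y z ≠ 0 ∧ (lab y).2 = c with hU
  set A := U.image fun y => (lab y).1 with hA
  have h1 : 2 * U.card ≤ M := hl.fib U fun y hy y' hy' => by
    obtain ⟨-, h2, h3⟩ := Finset.mem_filter.1 hy
    obtain ⟨-, h4, h5⟩ := Finset.mem_filter.1 hy'
    exact ⟨hF.D1_near κ hP z (lt_of_gF_ne_zero hR h2) (lt_of_gF_ne_zero hR h4),
      h3.trans h5.symm⟩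
  have h2 : (A.card : ℝ) ≤ M / 2 := by
    have h3 : A.card ≤ U.card := Finset.card_image_le
    have h4 : 2 * A.card ≤ M := by omega
    have h5 : 2 * (A.card : ℝ) ≤ M := by exact_mod_cast h4
    linarith
  have h3 : ∀ r ∉ A, uu g P κ F lab (r, c) z = 0 := by
    intro r hr
    rw [uu_eq κ hP hY']
    refine Finset.sum_eq_zero fun y hy => ?_
    split_ifs with h4
    · by_contra h5
      refine hr (Finset.mem_image.2 ⟨y, Finset.mem_filter.2 ⟨hy, h5, ?_⟩, ?_⟩)
      · rw [h4]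
      · rw [h4]
    · rfl
  rw [← Finset.sum_subset (Finset.subset_univ A) fun r _ hr => h3 r hr]
  refine sq_sum_le_card_mul_sum_sq.trans (mul_le_mul h2 ?_
    (Finset.sum_nonneg fun _ _ => sq_nonneg _) (by positivity))
  exact Finset.sum_le_sum_of_subset_of_nonneg (Finset.subset_univ A) fun _ _ _ => sq_nonneg _

theorem Fld.pd_uu_bound (hP : Ok g P) (hF : Fld g F Y) (hl : IsLab g lab) (z : En n)
    {ι : Type} [Fintype ι] (v : ι → Vn n) {B : ℝ} (hB : 0 ≤ B)
    (h : ∀ y, ∑ i, pd (D1 g P κ F y) z (v i) ^ 2 ≤ B) :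
    ∑ l, ∑ i, pd (uu g P κ F lab l) z (v i) ^ 2 ≤ cb P.b * B := by
  classical
  obtain ⟨Y', hY'⟩ := hF.exists_D1 κ hP
  obtain ⟨-, -, -, hR, -, -, hRb, -, -, hb, -⟩ := hP.pos
  have hs := fun y => hY'.gF_smooth P.b hR hRb y
  have h1 : ∀ l w, pd (uu g P κ F lab l) z w =
      ∑ y ∈ Y', if lab y = l then pd (gF P.b P.R1 (D1 g P κ F) y) z w else 0 := by
    intro l w
    rw [pd_eq_D, funext fun z => uu_eq κ hP hY' lab l z, Par.D_sum]
    · refine Finset.sum_congr rfl fun y _ => ?_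
      by_cases h2 : lab y = l
      · simp only [if_pos h2]
        rfl
      · simp only [if_neg h2]
        exact Par.D_const _ _ _
    · intro y _
      by_cases h2 : lab y = l
      · simp only [if_pos h2]
        exact hs y
      · simp only [if_neg h2]
        exact contDiff_const
  have h2 : ∀ w y, pd (gF P.b P.R1 (D1 g P κ F) y) z w ≠ 0 → D1 g P κ F y z < P.R1 := by
    intro w y h3
    by_contra h4
    rw [pd_gF_zero hR (not_lt.1 h4)] at h3
    exact h3 rfl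
  have h3 : ∀ w, ∑ l, pd (uu g P κ F lab l) z w ^ 2 =
      ∑ y ∈ Y', pd (gF P.b P.R1 (D1 g P κ F) y) z w ^ 2 := by
    intro w
    simp only [h1]
    exact Lay.sum_sq_push hl Y' _ fun y y' a a' => hF.D1_near κ hP z (h2 w y a) (h2 w y' a')
  rw [Finset.sum_comm]
  simp only [h3]
  rw [Finset.sum_comm]
  exact hY'.gF_bound hR hRb hb hP.c1 z (fun y y' => hF.D1_tri κ hP y y' z) v hB h

end Vale.Agent.P184Z
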