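import Vale.Agent.P184Z.Defs

/-!
# Bounds of product type: sums, multiples, low rank, change of basis
-/

open scoped ContDiff
open MeasureTheory

noncomputable section

namespace Vale.Agent.P184Z

open Vale.Agent.P184.H38

universe u

variable {N : ℕ}

namespace PfA

open Vale.Agent.P184.H460

theorem wk_const_mul {V : Type*} (S : V → V → ℝ) (c : ℝ) (L : List V) :
    wk (fun a b => c * S a b) L = c ^ (L.length / 2) * wk S L := by
  induction hn : L.length using Nat.strong_induction_on generalizing L with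
  | _ n ih =>
    cases L with
    | nil =>
      subst hn
      simp [wk_nil]
    | cons v L =>
      rw [wk_cons, wk_cons, Finset.mul_sum]
      refine Finset.sum_congr rfl fun k _ => ?_
      have hk := k.2
      have hl := length_erase_lt k
      rw [List.length_cons] at hn
      rw [ih (L.eraseIdx k).length (by omega) _ rfl, hl]
      have : n / 2 = (L.length - 1) / 2 + 1 := by omega
      rw [this, pow_succ]
      ring

theorem prod_nonneg {α : Type*} {a : α → ℝ} (ha : ∀ i, 0 ≤ a i) (l : List α) :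
    0 ≤ (l.map a).prod :=
  List.prod_nonneg fun x hx => by
    obtain ⟨i, _, rfl⟩ := List.mem_map.1 hx
    exact ha i

theorem prod_const {α : Type*} (c : ℝ) (l : List α) : (l.map fun _ => c).prod = c ^ l.length := by
  simp

/-- The standard symplectic form. -/
def sy (ι : Type) [Fintype ι] : LinearMap.BilinForm ℝ ((ι → ℝ) × (ι → ℝ)) :=
  LinearMap.mk₂ ℝ (fun v w => ∑ k, (v.1 k * w.2 k - w.1 k * v.2 k))
    (fun v v' w => by
      simp only [Prod.fst_add, Prod.snd_add, Pi.add_apply, ← Finset.sum_add_distrib]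
      exact Finset.sum_congr rfl fun k _ => by ring)
    (fun c v w => by
      simp only [Prod.smul_fst, Prod.smul_snd, Pi.smul_apply, smul_eq_mul, Finset.mul_sum]
      exact Finset.sum_congr rfl fun k _ => by ring)
    (fun v w w' => by
      simp only [Prod.fst_add, Prod.snd_add, Pi.add_apply, ← Finset.sum_add_distrib]
      exact Finset.sum_congr rfl fun k _ => by ring)
    (fun c v w => by
      simp only [Prod.smul_fst, Prod.smul_snd, Pi.smul_apply, smul_eq_mul, Finset.mul_sum]
      exact Finset.sum_congr rfl fun k _ => by ring)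

theorem sy_apply {ι : Type} [Fintype ι] (v w : (ι → ℝ) × (ι → ℝ)) :
    sy ι v w = ∑ k, (v.1 k * w.2 k - w.1 k * v.2 k) := rfl

theorem sy_alt (ι : Type) [Fintype ι] : (sy ι).IsAlt := fun v => by
  rw [sy_apply]; simp

theorem wk_low {ι : Type} [Fintype ι] (a b : ι → Fin N → ℝ) (l : List (Fin N))
    (hl : 2 * Fintype.card ι < l.length) :
    wk (fun i j => ∑ k, (a k i * b k j - a k j * b k i)) l = 0 := by
  set φ : Fin N → (ι → ℝ) × (ι → ℝ) := fun i => (fun k => a k i, fun k => b k i) with hφ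
  rw [← wk_map (fun i j => ∑ k, (a k i * b k j - a k j * b k i)) (fun v w => sy ι v w) φ l
    fun _ _ _ _ => rfl, wk_eq_pf _ (sy_alt ι)]
  have h1 : l.map φ = List.ofFn fun i : Fin l.length => φ (l.get i) := by
    apply List.ext_getElem
    · simp
    · intro m h1 h2
      simp
  rw [h1, ← pfA_apply]
  refine AlternatingMap.map_linearDependent _ _ fun h => ?_
  have h2 := h.fintype_card_le_finrank
  simp only [Fintype.card_fin, Module.finrank_prod, Module.finrank_fintype_fun_eq_card] at h2
  omega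

/-- The alternation of a bilinear form. -/
def alt {V : Type} [NormedAddCommGroup V] [NormedSpace ℝ V] (B : V →L[ℝ] V →L[ℝ] ℝ) :
    LinearMap.BilinForm ℝ V :=
  LinearMap.mk₂ ℝ (fun v w => B v w - B w v)
    (fun v v' w => by simp only [map_add, add_apply]; ring)
    (fun c v w => by simp only [map_smul, smul_apply, smul_eq_mul]; ring)
    (fun v w w' => by simp only [map_add, add_apply]; ring)
    (fun c v w => by simp only [map_smul, smul_apply, smul_eq_mul]; ring)

theorem alt_alt {V : Type} [NormedAddCommGroup V] [NormedSpace ℝ V] (B : V →L[ℝ] V →L[ℝ] ℝ) :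
    (alt B).IsAlt := fun v => sub_self (B v v)

theorem pfA_basis {V : Type*} [AddCommGroup V] [Module ℝ V] (B : LinearMap.BilinForm ℝ V)
    (hB : B.IsAlt) (e : Fin N → V) (T : Matrix (Fin N) (Fin N) ℝ) :
    pfA B hB N (fun i => ∑ a, T a i • e a) = T.det * pfA B hB N e := by
  set g := (pfA B hB N).compLinearMap (Fintype.linearCombination ℝ e) with hg
  have h := congrArg (fun f : (Fin N → ℝ) [⋀^Fin N]→ₗ[ℝ] ℝ => f fun i a => T a i)
    (AlternatingMap.eq_smul_basis_det (Pi.basisFun ℝ (Fin N)) g)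
  simp only [AlternatingMap.smul_apply, Pi.basisFun_det_apply, smul_eq_mul, hg,
    AlternatingMap.compLinearMap_apply, Pi.basisFun_apply,
    Fintype.linearCombination_apply_single, one_smul] at h
  simp only [Fintype.linearCombination_apply] at h
  rw [h, mul_comm, ← Matrix.det_transpose T]
  rfl

end PfA

open PfA Vale.Agent.P184.H460

theorem PT.add {A B : Fin N → Fin N → ℝ} {C C' : ℝ} {a b : Fin N → ℝ} (hA : PT A C a)
    (hB : PT B C' b) (ha : ∀ i, 0 ≤ a i) (hb : ∀ i, 0 ≤ b i) (hC : 0 ≤ C) (hC' : 0 ≤ C') :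
    PT (fun i j => A i j + B i j) (C * C') (fun i => a i + b i) := by
  intro l hl
  have h1 : ∀ (A : Fin N → Fin N → ℝ) (l : List (Fin N)), l.Pairwise (· < ·) →
      wk (fun x y => altB A x y) (l.map fun i => Pi.single i 1) = wk A l := fun A l hl => by
    rw [wk_eq_pf _ (altB_alt A), wk_sorted A l hl]
  have h := wk_dsum_bound_aux (altB A) (altB B) (fun i => Pi.single i 1) (fun i => Pi.single i 1)
    a b ha hb C C' hC hC' (fun l hl => by rw [h1 A l hl]; exact hA l hl)
    (fun l hl => by rw [h1 B l hl]; exact hB l hl) l [] (by simpa using hl)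
  simp only [List.map_nil, List.nil_append, List.prod_nil, mul_one] at h
  rw [wk_pw _ (fun x y => dS (altB A) (altB B) x y) (fun i => (Pi.single i 1, Pi.single i 1)) l
    (hl.imp fun {i j} hij => ?_)]
  · exact h
  · rw [dS_apply, altB_single, altB_single, altM_lt A hij, altM_lt B hij]

theorem PT.smul {A : Fin N → Fin N → ℝ} {C : ℝ} {a : Fin N → ℝ} (hA : PT A C a) (c c' : ℝ)
    (hc' : 0 ≤ c') (hc : |c| ≤ c' ^ 2) (ha : ∀ i, 0 ≤ a i) (hC : 0 ≤ C) :
    PT (fun i j => c * A i j) C (fun i => c' * a i) := by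
  intro l hl
  have h0 := prod_nonneg ha l
  rw [List.prod_map_mul, prod_const]
  rcases Nat.even_or_odd l.length with ⟨k, hk⟩ | ho
  · rw [wk_const_mul, abs_mul, abs_pow, hk, show (k + k) / 2 = k by omega, ← two_mul, pow_mul,
      mul_left_comm]
    exact mul_le_mul (pow_le_pow_left₀ (abs_nonneg _) hc _) (hA l hl) (abs_nonneg _)
      (by positivity)
  · rw [wk_odd _ _ ho, abs_zero]
    positivity

theorem PT.mono {A : Fin N → Fin N → ℝ} {C C' : ℝ} {a b : Fin N → ℝ} (hA : PT A C a)
    (hC : C ≤ C') (hC' : 0 ≤ C') (ha : ∀ i, 0 ≤ a i) (hab : ∀ i, a i ≤ b i) : PT A C' b := by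
  intro l hl
  refine (hA l hl).trans (mul_le_mul hC ?_ (prod_nonneg ha l) hC')
  exact List.prod_map_le_prod_map₀ _ _ (fun i _ => ha i) fun i _ => hab i

theorem PT.congr {A B : Fin N → Fin N → ℝ} {C : ℝ} {a : Fin N → ℝ} (hA : PT A C a)
    (h : ∀ i j, i < j → A i j = B i j) : PT B C a := by
  intro l hl
  have h1 := wk_pw A B id l (hl.imp fun {i j} hij => h i j hij)
  rw [List.map_id] at h1
  rw [← h1]
  exact hA l hl

theorem PT_zero : PT (fun _ _ : Fin N => (0 : ℝ)) 1 (fun _ => 0) := by
  intro l _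
  cases l with
  | nil => simp [wk_nil]
  | cons a l => simp [wk_cons]

theorem PT.full {A : Fin N → Fin N → ℝ} {C : ℝ} {a : Fin N → ℝ} (hA : PT A C a) :
    |wk A (List.finRange N)| ≤ C * ∏ i, a i := by
  have h := hA _ (List.pairwise_lt_finRange N)
  rwa [← List.ofFn_eq_map, List.prod_ofFn] at h

/-- Forms of low rank. -/
theorem PT_low {ι : Type} [Fintype ι] (a b : ι → Fin N → ℝ) (B x : ℝ) (hx : 0 < x)
    (ha : ∀ k i, |a k i| ≤ B) (hb : ∀ k i, |b k i| ≤ B) :
    PT (fun i j => ∑ k, (a k i * b k j - a k j * b k i))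
      ((1 + 4 * (Fintype.card ι : ℝ) ^ 2 * B ^ 2 / x) ^ Fintype.card ι) (fun _ => √x) := by
  intro l _
  rw [prod_const]
  set r := Fintype.card ι with hr
  have hq : 0 ≤ 4 * (r : ℝ) ^ 2 * B ^ 2 / x := by positivity
  rcases lt_or_ge (2 * r) l.length with h | h
  · rw [wk_low a b l h, abs_zero]
    positivity
  rcases Nat.even_or_odd l.length with ⟨k, hk⟩ | ho
  · have hent : ∀ i j, |∑ k, (a k i * b k j - a k j * b k i)| ≤ 2 * r * B ^ 2 * 1 * 1 := by
      intro i j
      refine (Finset.abs_sum_le_sum_abs _ _).trans ?_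
      have h1 : ∀ k i j, |a k i * b k j| ≤ B ^ 2 := fun k i j => by
        rw [abs_mul, sq]
        exact mul_le_mul (ha k i) (hb k j) (abs_nonneg _) ((abs_nonneg _).trans (ha k i))
      refine (Finset.sum_le_card_nsmul _ _ (2 * B ^ 2) fun k _ => ?_).trans (le_of_eq ?_)
      · refine (abs_sub _ _).trans ?_
        linarith [h1 k i j, h1 k j i]
      · rw [Finset.card_univ, nsmul_eq_mul]; ring
    have h1 := wk_bound_list (fun i j => ∑ k, (a k i * b k j - a k j * b k i)) id
      (fun _ : Fin N => (1 : ℝ)) (fun _ => zero_le_one) (2 * r * B ^ 2) (by positivity) l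
      (fun i _ j _ => hent i j) k (by omega)
    rw [List.map_id, prod_const, one_pow, mul_one] at h1
    refine h1.trans ?_
    have hkr : k ≤ r := by omega
    have h2 : √(2 * k) ≤ 2 * r := by
      refine Real.sqrt_le_iff.2 ⟨by positivity, ?_⟩
      have h3 : 2 * k ≤ (2 * r) ^ 2 := by nlinarith
      exact_mod_cast h3
    have h3 : 2 * r * B ^ 2 * √(2 * k) ≤ (1 + 4 * (r : ℝ) ^ 2 * B ^ 2 / x) * x := by
      have h4 : (1 + 4 * (r : ℝ) ^ 2 * B ^ 2 / x) * x = x + 2 * r * B ^ 2 * (2 * r) := by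
        field_simp; ring
      have h5 := mul_le_mul_of_nonneg_left h2 (show 0 ≤ 2 * r * B ^ 2 by positivity)
      linarith
    refine (pow_le_pow_left₀ (by positivity) h3 k).trans ?_
    rw [mul_pow, hk, ← two_mul, pow_mul, Real.sq_sqrt hx.le]
    exact mul_le_mul_of_nonneg_right (pow_le_pow_right₀ (by linarith) hkr) (by positivity)
  · rw [wk_odd _ _ ho, abs_zero]
    positivity

/-- Change of basis. -/
theorem wk_basis {V : Type} [NormedAddCommGroup V] [NormedSpace ℝ V] (B : V →L[ℝ] V →L[ℝ] ℝ)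
    (e : Fin N → V) (T : Matrix (Fin N) (Fin N) ℝ) :
    wk (fun i j : Fin N => B (∑ a, T a i • e a) (∑ a, T a j • e a) -
        B (∑ a, T a j • e a) (∑ a, T a i • e a)) (List.finRange N) =
      T.det * wk (fun v w => B v w - B w v) (List.ofFn e) := by
  have h1 := wk_map (fun i j : Fin N => B (∑ a, T a i • e a) (∑ a, T a j • e a) -
    B (∑ a, T a j • e a) (∑ a, T a i • e a)) (fun v w => alt B v w) (fun i => ∑ a, T a i • e a)
    (List.finRange N) fun _ _ _ _ => rfl
  have h2 : wk (fun v w => B v w - B w v) (List.ofFn e) = pf (alt B) (alt_alt B) (List.ofFn e) :=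
    wk_eq_pf (alt B) (alt_alt B) _
  rw [← h1, h2, wk_eq_pf _ (alt_alt B), ← List.ofFn_eq_map, ← pfA_apply, ← pfA_apply, pfA_basis]

/-- The products of the weights. -/
theorem prod_add_le (c : ℝ) (hc : 0 < c) (L : Fin N → ℝ) (hL : ∀ i, 0 ≤ L i) (δ : ℝ)
    (hδ : ∑ i, L i ^ 2 ≤ δ) :
    ∏ i, (c + L i) ≤ c ^ N * Real.exp (√(N * δ) / c) := by
  have h1 : ∀ i, c + L i ≤ c * Real.exp (L i / c) := fun i => by
    have h2 := Real.add_one_le_exp (L i / c)
    have h3 : c + L i = c * (L i / c + 1) := by field_simp; ring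
    rw [h3]
    exact mul_le_mul_of_nonneg_left h2 hc.le
  refine (Finset.prod_le_prod (fun i _ => add_nonneg hc.le (hL i)) fun i _ => h1 i).trans ?_
  rw [Finset.prod_mul_distrib, Finset.prod_const, Finset.card_univ, Fintype.card_fin,
    ← Real.exp_sum, ← Finset.sum_div]
  refine mul_le_mul_of_nonneg_left (Real.exp_le_exp.2 (div_le_div_of_nonneg_right ?_ hc.le))
    (by positivity)
  refine Real.le_sqrt_of_sq_le ?_
  have h4 := sq_sum_le_card_mul_sum_sq (s := Finset.univ) (f := L)
  rw [Finset.card_univ, Fintype.card_fin] at h4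
  exact h4.trans (mul_le_mul_of_nonneg_left hδ (Nat.cast_nonneg _))

end Vale.Agent.P184Z
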