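import Vale.Agent.P184Z.Defs
import Vale.Agent.P184Z.Pf.Car

/-!
# Bounds of product type: the time ordered form
-/

open scoped ContDiff
open MeasureTheory

noncomputable section

namespace Vale.Agent.P184Z

open Vale.Agent.P184.H38

universe u

variable {N : ℕ}

namespace PfC

open Vale.Agent.P184Z.Pf

section fock

variable {κ : Type*} [LinearOrder κ] [Fintype κ]

theorem av_mul_av (a b : κ → ℝ) : av a * av b = -(av b * av a) := by
  refine Car.ext fun ψ => ext_inner_left ℝ fun φ => ?_
  rw [map_neg, neg_apply, inner_neg_right, ap_mul, ap_mul, ← inner_cv, ← inner_cv, ← inner_cv,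
    ← inner_cv, ← ap_mul, ← ap_mul, cv_mul_cv b a, map_neg, neg_apply, inner_neg_left]

/-- Clifford multiplication. -/
def gm (a : κ → ℝ) : Car κ := cv a + av a

theorem av_mul_gm (a b : κ → ℝ) : av a * gm b = (∑ k, a k * b k) • (1 : Car κ) - gm b * av a := by
  rw [gm, mul_add, add_mul, av_mul_av a b, ← av_mul_cv]
  abel

/-- Products of Clifford multiplications. -/
def gp (L : List (κ → ℝ)) : Car κ := (L.map gm).prod

theorem gp_cons (a : κ → ℝ) (L : List (κ → ℝ)) : gp (a :: L) = gm a * gp L := by simp [gp]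

theorem ev_av_gp (a : κ → ℝ) (L : List (κ → ℝ)) : Pf.ev (av a * gp L) =
    ∑ k : Fin L.length, ((-1 : ℝ) ^ (k : ℕ) * ∑ j, a j * L.get k j) • Pf.ev (gp (L.eraseIdx k)) := by
  induction L with
  | nil => simp [gp, ev_apply, av_vac]
  | cons b L ih =>
    rw [gp_cons, ← mul_assoc, av_mul_gm, sub_mul, smul_mul_assoc, one_mul, mul_assoc, map_sub,
      ev_mul, ih, map_sum, map_smul]
    simp only [List.length_cons]
    rw [Fin.sum_univ_succ]
    simp only [Fin.val_zero, pow_zero, one_mul, List.get_cons_zero, List.eraseIdx_cons_zero,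
      Fin.val_succ, List.eraseIdx_cons_succ, gp_cons, sub_eq_add_neg, map_smul, ev_mul]
    congr 1
    rw [← Finset.sum_neg_distrib]
    refine Finset.sum_congr rfl fun k _ => ?_
    have : (b :: L).get k.succ = L.get k := rfl
    rw [this, ← neg_smul]
    congr 1
    ring

theorem wk_eq_gp (L : List (κ → ℝ)) :
    wk (fun v w : κ → ℝ => ∑ k, v k * w k) L = co (Pf.ev (gp L)) ∅ := by
  induction hn : L.length using Nat.strong_induction_on generalizing L with
  | _ n ih =>
    cases L with
    | nil => simp [wk_nil, gp, ev_one, co_vac]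
    | cons v L =>
      rw [wk_cons, gp_cons, gm, add_mul, map_add, map_add, Pi.add_apply, ev_mul, co_cv_empty,
        zero_add, ev_av_gp, map_sum, Finset.sum_apply]
      refine Finset.sum_congr rfl fun k _ => ?_
      rw [ih (L.eraseIdx k).length ?_ _ rfl, map_smul, Pi.smul_apply, smul_eq_mul]
      have := k.2
      rw [← hn, List.length_cons, length_erase_lt]
      omega

theorem norm_ev_gp (L : List (κ → ℝ)) :
    ‖Pf.ev (gp L)‖ = (L.map fun v => √(∑ k, v k ^ 2)).prod := by
  induction L with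
  | nil => simp [gp, ev_one, norm_vac]
  | cons v L ih =>
    rw [gp_cons, ev_mul, gm, map_add, add_apply, norm_cliff, ih, List.map_cons, List.prod_cons]

end fock

section anti

variable {V : Type*} {S : V → V → ℝ}

theorem abs_wk_perm (hS : ∀ a b, S a b + S b a = 0) {L L' : List V} (h : L.Perm L') :
    ∀ A : List V, |wk S (A ++ L)| = |wk S (A ++ L')| := by
  induction h with
  | nil => intro A; rfl
  | cons x _ ih =>
    intro A
    simpa using ih (A ++ [x])
  | swap x y l =>
    intro A
    have h1 := wk_swap S A l y x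
    rw [hS, zero_mul] at h1
    rw [eq_neg_of_add_eq_zero_left h1, abs_neg]
  | trans _ _ ih1 ih2 => intro A; rw [ih1, ih2]

end anti

end PfC

/-- The Wick functional of the scalar product. -/
theorem wk_gram_le {ι : Type} [Fintype ι] (L : List (ι → ℝ)) :
    |wk (fun v w : ι → ℝ => ∑ k, v k * w k) L| ≤ (L.map fun v => √(∑ k, v k ^ 2)).prod := by
  let _ : LinearOrder ι := LinearOrder.lift' (Fintype.equivFin ι) (Fintype.equivFin ι).injective
  rw [PfC.wk_eq_gp, ← PfC.norm_ev_gp]
  exact Pf.abs_co_le _ _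

namespace PfC

variable {ι : Type} [Fintype ι] (f : Fin N → ℝ → ι → ℝ)

/-- The primitive. -/
def pr (i : Fin N) (τ : ℝ) (k : ι) : ℝ := ∫ r in (0 : ℝ)..τ, f i r k

/-- The pairing of functions and of vectors at given times. -/
def at2 : Fin N ⊕ ℝ × (ι → ℝ) → Fin N ⊕ ℝ × (ι → ℝ) → ℝ
  | .inl i, .inl j => ∫ τ in (0 : ℝ)..1, ∑ k, (pr f i τ k * f j τ k - pr f j τ k * f i τ k)
  | .inl i, .inr y => ∑ k, (2 * pr f i y.1 k - pr f i 1 k) * y.2 k
  | .inr x, .inl j => ∑ k, x.2 k * (pr f j 1 k - 2 * pr f j x.1 k)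
  | .inr x, .inr y => (SignType.sign (y.1 - x.1) : ℝ) * ∑ k, x.2 k * y.2 k

theorem at2_anti (a b : Fin N ⊕ ℝ × (ι → ℝ)) : at2 f a b + at2 f b a = 0 := by
  rcases a with i | x <;> rcases b with j | y
  · simp only [at2]
    rw [add_eq_zero_iff_eq_neg, ← intervalIntegral.integral_neg]
    congr 1
    funext τ
    rw [← Finset.sum_neg_distrib]
    exact Finset.sum_congr rfl fun k _ => by ring
  · simp only [at2, ← Finset.sum_add_distrib]
    exact Finset.sum_eq_zero fun k _ => by ring
  · simp only [at2, ← Finset.sum_add_distrib]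
    exact Finset.sum_eq_zero fun k _ => by ring
  · simp only [at2]
    rw [← neg_sub x.1 y.1, Left.sign_neg, SignType.coe_neg,
      Finset.sum_congr rfl fun k _ => mul_comm (y.2 k) (x.2 k)]
    ring

theorem sign_int (g : ℝ → ℝ) (hg : Continuous g) {t : ℝ} (h0 : 0 ≤ t) (h1 : t ≤ 1) :
    IntervalIntegrable (fun τ => (SignType.sign (t - τ) : ℝ) * g τ) volume 0 1 ∧
      ∫ τ in (0 : ℝ)..1, (SignType.sign (t - τ) : ℝ) * g τ =
        2 * (∫ τ in (0 : ℝ)..t, g τ) - ∫ τ in (0 : ℝ)..1, g τ := by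
  have e1 : ∀ᵐ τ ∂volume, τ ∈ Set.uIoc 0 t → (SignType.sign (t - τ) : ℝ) * g τ = g τ := by
    filter_upwards [Measure.ae_ne volume t] with τ hτ h
    rw [Set.uIoc_of_le h0] at h
    rw [sign_pos (sub_pos.2 (lt_of_le_of_ne h.2 hτ))]
    simp
  have e2 : ∀ᵐ τ ∂volume, τ ∈ Set.uIoc t 1 → (SignType.sign (t - τ) : ℝ) * g τ = -g τ := by
    refine Filter.Eventually.of_forall fun τ h => ?_
    rw [Set.uIoc_of_le h1] at h
    rw [sign_neg (sub_neg.2 h.1)]
    simp
  have i1 : IntervalIntegrable (fun τ => (SignType.sign (t - τ) : ℝ) * g τ) volume 0 t :=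
    (hg.intervalIntegrable 0 t).congr_ae
      ((ae_restrict_iff' measurableSet_uIoc).2 (e1.mono fun τ h hτ => (h hτ).symm))
  have i2 : IntervalIntegrable (fun τ => (SignType.sign (t - τ) : ℝ) * g τ) volume t 1 :=
    (hg.neg.intervalIntegrable t 1).congr_ae
      ((ae_restrict_iff' measurableSet_uIoc).2 (e2.mono fun τ h hτ => (h hτ).symm))
  refine ⟨i1.trans i2, ?_⟩
  rw [← intervalIntegral.integral_add_adjacent_intervals i1 i2,
    intervalIntegral.integral_congr_ae e1, intervalIntegral.integral_congr_ae e2,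
    intervalIntegral.integral_neg, ← intervalIntegral.integral_add_adjacent_intervals
      (hg.intervalIntegrable 0 t) (hg.intervalIntegrable t 1)]
  ring

variable {f} (hf : ∀ i k, Continuous fun τ => f i τ k)

include hf

omit [Fintype ι] in
theorem pr_deriv (i : Fin N) (k : ι) (τ : ℝ) : HasDerivAt (fun t => pr f i t k) (f i τ k) τ :=
  intervalIntegral.integral_hasDerivAt_right ((hf i k).intervalIntegrable _ _)
    ((hf i k).stronglyMeasurableAtFilter _ _) (hf i k).continuousAt

omit [Fintype ι] in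
theorem pr_cont (i : Fin N) (k : ι) : Continuous fun t => pr f i t k :=
  continuous_iff_continuousAt.2 fun τ => (pr_deriv hf i k τ).continuousAt

theorem at2_row (i : Fin N) (b : Fin N ⊕ ℝ × (ι → ℝ))
    (hb : ∀ y, b = .inr y → 0 ≤ y.1 ∧ y.1 ≤ 1) :
    IntervalIntegrable (fun τ => at2 f (.inr (τ, f i τ)) b) volume 0 1 ∧
      at2 f (.inl i) b = ∫ τ in (0 : ℝ)..1, at2 f (.inr (τ, f i τ)) b := by
  rcases b with j | y
  · simp only [at2]
    have c1 : Continuous fun τ => ∑ k, f i τ k * (pr f j 1 k - 2 * pr f j τ k) :=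
      continuous_finsetSum _ fun k _ => (hf i k).mul
        (continuous_const.sub (continuous_const.mul (pr_cont hf j k)))
    have c2 : Continuous fun τ => ∑ k, (pr f i τ k * f j τ k - pr f j τ k * f i τ k) :=
      continuous_finsetSum _ fun k _ => ((pr_cont hf i k).mul (hf j k)).sub
        ((pr_cont hf j k).mul (hf i k))
    refine ⟨c1.intervalIntegrable _ _, ?_⟩
    rw [← sub_eq_zero, ← intervalIntegral.integral_sub (c2.intervalIntegrable _ _)
      (c1.intervalIntegrable _ _)]
    have hd : ∀ τ ∈ Set.uIcc (0 : ℝ) 1, HasDerivAt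
        (fun t => ∑ k, pr f i t k * (pr f j t k - pr f j 1 k))
        (∑ k, (pr f i τ k * f j τ k - pr f j τ k * f i τ k) -
          ∑ k, f i τ k * (pr f j 1 k - 2 * pr f j τ k)) τ := by
      intro τ _
      have h := HasDerivAt.fun_sum (u := Finset.univ) fun k _ =>
        (pr_deriv hf i k τ).fun_mul ((pr_deriv hf j k τ).sub_const (pr f j 1 k))
      refine h.congr_deriv ?_
      rw [← Finset.sum_sub_distrib]
      exact Finset.sum_congr rfl fun k _ => by ring
    rw [intervalIntegral.integral_eq_sub_of_hasDerivAt hd ((c2.sub c1).intervalIntegrable _ _)]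
    simp [pr]
  · obtain ⟨h0, h1⟩ := hb y rfl
    simp only [at2]
    have c1 : Continuous fun τ => ∑ k, f i τ k * y.2 k :=
      continuous_finsetSum _ fun k _ => (hf i k).mul continuous_const
    obtain ⟨hi, he⟩ := sign_int _ c1 h0 h1
    refine ⟨hi, ?_⟩
    have h2 : ∀ t, ∫ τ in (0 : ℝ)..t, ∑ k, f i τ k * y.2 k = ∑ k, pr f i t k * y.2 k := fun t => by
      rw [intervalIntegral.integral_finsetSum (f := fun k τ => f i τ k * y.2 k) fun k _ =>
        ((hf i k).mul continuous_const).intervalIntegrable _ _]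
      exact Finset.sum_congr rfl fun k _ => intervalIntegral.integral_mul_const _ _
    rw [he, h2, h2, Finset.mul_sum, ← Finset.sum_sub_distrib]
    exact Finset.sum_congr rfl fun k _ => by ring

omit hf in
theorem at2_base (Q : List (ℝ × (ι → ℝ))) (hQ : Q.Pairwise fun x y => x.1 ≠ y.1) :
    |wk (at2 f) (Q.map .inr)| ≤ (Q.map fun x => √(∑ k, x.2 k ^ 2)).prod := by
  set Q' := Q.mergeSort fun x y => decide (x.1 ≤ y.1) with hQ'
  have hp : Q'.Perm Q := List.mergeSort_perm _ _
  have h1 : Q'.Pairwise fun x y => decide (x.1 ≤ y.1) = true :=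
    List.pairwise_mergeSort (fun a b c hab hbc => by
      simp only [decide_eq_true_eq] at hab hbc ⊢; exact hab.trans hbc)
      (fun a b => by simpa using le_total a.1 b.1) Q
  have h2 : Q'.Pairwise fun x y => x.1 ≠ y.1 :=
    (hp.pairwise_iff fun h => Ne.symm h).2 hQ
  have h3 := abs_wk_perm (at2_anti f) (hp.map (Sum.inr : _ → Fin N ⊕ ℝ × (ι → ℝ))) []
  rw [List.nil_append, List.nil_append] at h3
  rw [← h3, ← (hp.map _).prod_eq]
  have h4 : wk (at2 f) (Q'.map .inr) = wk (fun x y => at2 f (.inr x) (.inr y)) Q' :=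
    wk_map _ _ _ _ fun _ _ _ _ => rfl
  rw [h4, wk_pw _ (fun v w : ι → ℝ => ∑ k, v k * w k) Prod.snd Q'
    ((h1.and h2).imp fun {x y} h => ?_)]
  · simpa only [List.map_map, Function.comp_def] using wk_gram_le (Q'.map Prod.snd)
  · have h5 : x.1 < y.1 := lt_of_le_of_ne (by simpa using h.1) h.2
    simp only [at2]
    rw [sign_pos (sub_pos.2 h5)]
    simp

theorem at2_bound (l : List (Fin N)) : ∀ Q : List (ℝ × (ι → ℝ)),
    (Q.Pairwise fun x y => x.1 ≠ y.1) → (∀ x ∈ Q, 0 ≤ x.1 ∧ x.1 ≤ 1) →
    |wk (at2 f) (l.map .inl ++ Q.map .inr)| ≤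
      (l.map fun i => ∫ τ in (0 : ℝ)..1, √(∑ k, f i τ k ^ 2)).prod *
        (Q.map fun x => √(∑ k, x.2 k ^ 2)).prod := by
  induction l with
  | nil =>
    intro Q hQ _
    simpa using at2_base Q hQ
  | cons i l ih =>
    intro Q hQ hQ1
    set R : List (Fin N ⊕ ℝ × (ι → ℝ)) := l.map .inl ++ Q.map .inr with hR
    have hrow : ∀ k : Fin R.length, _ := fun k => at2_row hf i (R.get k) fun y hy => by
      have h1 : R.get k ∈ R := List.get_mem _ _
      rw [hy, hR] at h1
      exact hQ1 y (by simpa using h1)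
    have h1 : wk (at2 f) (.inl i :: R) = ∫ τ in (0 : ℝ)..1, wk (at2 f) (.inr (τ, f i τ) :: R) := by
      simp only [wk_cons]
      rw [intervalIntegral.integral_finsetSum fun k _ =>
        ((hrow k).1.const_mul _).mul_const _]
      refine Finset.sum_congr rfl fun k _ => ?_
      rw [intervalIntegral.integral_mul_const, intervalIntegral.integral_const_mul, ← (hrow k).2]
    rw [List.map_cons, List.cons_append, ← hR, h1, List.map_cons, List.prod_cons, mul_assoc,
      ← intervalIntegral.integral_mul_const, ← Real.norm_eq_abs]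
    refine intervalIntegral.norm_integral_le_of_norm_le zero_le_one ?_
      (Continuous.intervalIntegrable (Continuous.mul
        (continuous_finsetSum _ fun k _ => (hf i k).pow 2).sqrt continuous_const) _ _)
    have hfin : ∀ᵐ τ ∂(volume : Measure ℝ), τ ∉ {t | t ∈ Q.map Prod.fst} :=
      (List.finite_toSet _).countable.ae_notMem _
    filter_upwards [hfin] with τ hτ hτ1
    have hp : (Sum.inr (τ, f i τ) :: R).Perm (l.map .inl ++ ((τ, f i τ) :: Q).map .inr) := by
      rw [hR, List.map_cons]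
      exact List.perm_middle.symm
    have h2 := abs_wk_perm (at2_anti f) hp []
    rw [List.nil_append, List.nil_append] at h2
    rw [Real.norm_eq_abs, h2]
    refine (ih _ ?_ ?_).trans (le_of_eq ?_)
    · refine List.pairwise_cons.2 ⟨fun y hy h => hτ ?_, hQ⟩
      exact List.mem_map.2 ⟨y, hy, h.symm⟩
    · intro x hx
      rcases List.mem_cons.1 hx with rfl | hx
      · exact ⟨hτ1.1.le, hτ1.2⟩
      · exact hQ1 x hx
    · rw [List.map_cons, List.prod_cons]
      ring

end PfC

/-- The time ordered form. -/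
theorem PT_sgn {ι : Type} [Fintype ι] (f : Fin N → ℝ → ι → ℝ)
    (hf : ∀ i k, Continuous fun τ => f i τ k) :
    PT (fun i j => ∫ τ in (0 : ℝ)..1, ∑ k, ((∫ r in (0 : ℝ)..τ, f i r k) * f j τ k -
        (∫ r in (0 : ℝ)..τ, f j r k) * f i τ k)) 1
      (fun i => ∫ τ in (0 : ℝ)..1, √(∑ k, f i τ k ^ 2)) := by
  intro l _
  have h := PfC.at2_bound hf l [] List.Pairwise.nil (by simp)
  simp only [List.map_nil, List.append_nil, List.prod_nil, mul_one] at h
  rw [wk_map (fun i j => PfC.at2 f (.inl i) (.inl j)) (PfC.at2 f) Sum.inl l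
    fun _ _ _ _ => rfl] at h
  rw [one_mul]
  exact h

end Vale.Agent.P184Z
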