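import Vale.Agent.P184Z.LBd
import Vale.Agent.P184Z.Cover
import Vale.Agent.P184Z.PfA
import Vale.Agent.P184Z.PfC

/-!
# The bound for the Pfaffian of the curvature
-/

open scoped ContDiff
open MeasureTheory

noncomputable section

namespace Vale.Agent.P184Z

open Vale.Agent.P184.H38

universe u

set_option linter.unusedSectionVars false

namespace Mn

variable {N : ℕ}

theorem row_le {T : Matrix (Fin N) (Fin N) ℝ} (hT : Contr T) (j : Fin N) :
    ∑ i, T j i ^ 2 ≤ 1 := by
  have h := hT (Pi.single j 1)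
  have h1 : ∀ i, ∑ k, T k i * (Pi.single j (1 : ℝ) : Fin N → ℝ) k = T j i := fun i => by
    rw [Finset.sum_eq_single j (fun k _ hk => by rw [Pi.single_eq_of_ne hk, mul_zero])
      (fun h => absurd (Finset.mem_univ j) h), Pi.single_eq_same, mul_one]
  have h2 : ∑ k, (Pi.single j (1 : ℝ) : Fin N → ℝ) k ^ 2 = 1 := by
    rw [Finset.sum_eq_single j (fun k _ hk => by rw [Pi.single_eq_of_ne hk]; norm_num)
      (fun h => absurd (Finset.mem_univ j) h), Pi.single_eq_same, one_pow]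
  simp only [h1] at h
  rwa [h2] at h

theorem abs_le_one {T : Matrix (Fin N) (Fin N) ℝ} (hT : Contr T) (j i : Fin N) : |T j i| ≤ 1 := by
  have h1 : T j i ^ 2 ≤ 1 :=
    (Finset.single_le_sum (f := fun i => T j i ^ 2) (fun _ _ => sq_nonneg _)
      (Finset.mem_univ i)).trans (row_le hT j)
  exact (sq_le_one_iff_abs_le_one _).1 h1

theorem one_eq_sum (n : ℕ) : one n = ∑ j, (Pi.single j (1 : ℝ) : Vn n) := by
  funext i
  rw [Finset.sum_apply, Finset.sum_eq_single i
    (fun k _ hk => by rw [Pi.single_eq_of_ne (Ne.symm hk)])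
    (fun h => absurd (Finset.mem_univ i) h), Pi.single_eq_same]
  rfl

theorem abs_one_le {n : ℕ} (φ : Vn n →L[ℝ] ℝ) {c : ℝ} (h : ∀ j, |φ (Pi.single j 1)| ≤ c) :
    |φ (one n)| ≤ n * c := by
  rw [one_eq_sum, map_sum]
  refine (Finset.abs_sum_le_sum_abs _ _).trans ((Finset.sum_le_sum fun j _ => h j).trans ?_)
  simp

theorem sum_rotv_sq (v : Vn (N + 1)) : ∑ y, rotv v y ^ 2 = ∑ y, v y ^ 2 := by
  rw [Fin.sum_univ_castSucc, Fin.sum_univ_succ (fun y => v y ^ 2), add_comm]
  simp [rotv, Fin.tail]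

variable {X : Type u} {M : ℕ} [NeZero M] (g : Geo X M) (p : Fin (N + 1) → X)
  {T : Matrix (Fin N) (Fin N) ℝ}

theorem one_le_sc (a : Fin N) : 1 ≤ sc g p a := le_max_left _ _

theorem sc_pos (a : Fin N) : 0 < sc g p a := one_pos.trans_le (one_le_sc g p a)

theorem abs_coef_le (a i : Fin N) : |(sc g p a)⁻¹ * T a i| ≤ |T a i| := by
  rw [abs_mul, abs_of_pos (inv_pos.2 (sc_pos g p a))]
  exact mul_le_of_le_one_left (abs_nonneg _) (inv_le_one_of_one_le₀ (one_le_sc g p a))

theorem abs_vT_le (hT : Contr T) (φ : Vn (N + 1) →L[ℝ] ℝ) {c : ℝ}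
    (h : ∀ j, |φ (Pi.single j 1)| ≤ c) (i : Fin N) : |φ (vT g p T i)| ≤ N * c := by
  unfold vT
  rw [map_sum]
  refine (Finset.abs_sum_le_sum_abs _ _).trans ((Finset.sum_le_sum (g := fun _ => c)
    fun a _ => ?_).trans ?_)
  · rw [map_smul, smul_eq_mul, abs_mul]
    have h1 := (abs_coef_le g p (T := T) a i).trans (abs_le_one hT a i)
    have h2 : |φ (ev a)| ≤ c := h _
    calc |(sc g p a)⁻¹ * T a i| * |φ (ev a)| ≤ 1 * c :=
          mul_le_mul h1 h2 (abs_nonneg _) zero_le_one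
      _ = c := one_mul c
  · simp

theorem abs_cur_one_le (hT : Contr T) (β : Form (N + 1)) (s : Vn (N + 1)) {c : ℝ}
    (h : ∀ i j, |cur β s (Pi.single i 1) (Pi.single j 1)| ≤ c) (i : Fin N) :
    |cur β s (vT g p T i) (one _)| ≤ N * ((N + 1) * c) := by
  have h1 : ∀ j, |((fderiv ℝ β s).flip (one _) - fderiv ℝ β s (one _)) (Pi.single j 1)| ≤
      (N + 1) * c := fun j => by
    have h2 := abs_one_le (fderiv ℝ β s (Pi.single j 1) - (fderiv ℝ β s).flip (Pi.single j 1))
      (c := c) (fun k => h j k)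
    push_cast at h2
    exact h2
  exact abs_vT_le g p hT _ h1 i

theorem vT_castSucc (i a : Fin N) : vT g p T i a.castSucc = (sc g p a)⁻¹ * T a i := by
  unfold vT
  rw [Finset.sum_apply, Finset.sum_eq_single a _ (fun h => absurd (Finset.mem_univ a) h)]
  · simp [ev]
  · intro b _ hb
    have : a.castSucc ≠ b.castSucc := fun h => hb (Fin.castSucc_injective _ h).symm
    simp [ev, Pi.single_eq_of_ne this]

theorem vT_last (i : Fin N) : vT g p T i (Fin.last N) = 0 := by
  unfold vT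
  rw [Finset.sum_apply]
  refine Finset.sum_eq_zero fun a _ => ?_
  simp [ev]

theorem sum_vT_sq (hT : Contr T) : ∑ y, ∑ i, vT g p T i y ^ 2 ≤ N := by
  rw [Fin.sum_univ_castSucc]
  simp only [vT_castSucc, vT_last]
  have h1 : ∀ a : Fin N, ∑ i, ((sc g p a)⁻¹ * T a i) ^ 2 ≤ 1 := fun a => by
    refine le_trans (Finset.sum_le_sum fun i _ => ?_) (row_le hT a)
    exact sq_le_sq.2 (abs_coef_le g p a i)
  have h2 := Finset.sum_le_sum fun a (_ : a ∈ Finset.univ) => h1 a
  simpa using h2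

/-- The tautological part. -/
theorem PT_thK (hT : Contr T) (s : Vn (N + 1)) :
    PT (fun i j => cur (thK N) s (vT g p T i) (vT g p T j)) (Real.exp (N + 1)) (fun _ => 1) := by
  have h := PT_nuc (N := N) (Finset.univ : Finset (Fin (N + 1)))
    (fun y _ i => rotv (vT g p T i) y) (fun y _ i => vT g p T i y)
    (fun _ _ => continuous_const) (fun _ _ => continuous_const) (2 * N) 1 one_pos (by
      rw [intervalIntegral.integral_const]
      simp only [Finset.sum_add_distrib, sub_zero, one_smul]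
      have h1 : ∑ y, ∑ i, rotv (vT g p T i) y ^ 2 = ∑ y, ∑ i, vT g p T i y ^ 2 := by
        rw [Finset.sum_comm, Finset.sum_comm (f := fun y i => vT g p T i y ^ 2)]
        exact Finset.sum_congr rfl fun i _ => sum_rotv_sq _
      rw [h1]
      linarith [sum_vT_sq g p hT])
  refine (h.mono (Real.exp_le_exp.2 (by linarith)) (Real.exp_pos _).le (fun _ => by positivity)
    (fun _ => by simp)).congr fun i j _ => ?_
  rw [intervalIntegral.integral_const, cur_thK]
  simp only [sub_zero, one_smul]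

variable {g} {P : Sp} {η0 η : ℝ} (κ : Kit M η0 η) {C : Type} [Fintype C] {lab : X → Lb M C}

theorem continuous_pd {n : ℕ} {f : En n → ℝ} (hf : ContDiff ℝ ∞ f) (s v : Vn n) :
    Continuous fun τ : ℝ => pd f (s, τ) v :=
  ((contDiff_pd hf).continuous.comp (Continuous.prodMk_right s)).clm_apply continuous_const

/-- The fast part. -/
theorem PT_fast (hP : Ok g P) {Y : Finset X}
    (hY : ∀ Φ : ℝ → ℝ, ContDiff ℝ ∞ Φ → Fld g (prim g Φ 1 p) Y) {s : Vn (N + 1)} (hs : Ord s)
    (hT : Contr T) {x ν S : ℝ} (hx : 0 < x) (hν : 0 < ν)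
    (hS : ν * (cb P.b * N / η0) + 4 / (P.ρ ^ 2 * ν) * (8 * η * N) ≤ S) :
    PT (fun i j => curF g P κ p Y s (vT g p T i) (vT g p T j)) (Real.exp (S / (2 * x)))
      (fun _ => √x) := by
  obtain ⟨hρ, hR0, -, -, hR0b, -⟩ := hP.pos
  have hG : ∀ y, ContDiff ℝ ∞ (gF P.b P.R0 (prim g κ.k0.Φ 1 p) y) := fun y =>
    (hY _ κ.k0.smooth).gF_smooth P.b hR0 hR0b y
  have hE : ∀ y, ContDiff ℝ ∞ (prim g κ.Ψ κ.c p y) := fun y => contDiff_prim g κ.smooth _ p y
  have hsq : 0 < √ν := Real.sqrt_pos.2 hν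
  set A : X → ℝ → Fin N → ℝ := fun y τ i =>
    pd (gF P.b P.R0 (prim g κ.k0.Φ 1 p) y) (s, τ) (vT g p T i) with hA
  set D : X → ℝ → Fin N → ℝ := fun y τ i => gF P.b P.R0 (prim g κ.k0.Φ 1 p) y (s, τ) *
    pd (prim g κ.Ψ κ.c p y) (s, τ) (vT g p T i) with hD
  have cA : ∀ y i, Continuous fun τ => A y τ i := fun y i => continuous_pd (hG y) s _
  have cD : ∀ y i, Continuous fun τ => D y τ i := fun y i =>
    ((hG y).continuous.comp (Continuous.prodMk_right s)).mul (continuous_pd (hE y) s _)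
  have ia : ∫ τ in (0 : ℝ)..1, ∑ y ∈ Y, ∑ i, A y τ i ^ 2 ≤ cb P.b * N / η0 :=
    fast_a κ hP p hY hs hT
  have id : ∫ τ in (0 : ℝ)..1, ∑ y ∈ Y, ∑ i, D y τ i ^ 2 ≤ 8 * η * N := fast_b κ hP p hY s hT
  have h := PT_nuc (N := N) Y (fun y τ i => √ν * A y τ i) (fun y τ i => 2 / P.ρ / √ν * D y τ i)
    (fun y i => continuous_const.mul (cA y i)) (fun y i => continuous_const.mul (cD y i)) S x hx
    (by
      have e : ∀ τ, ∑ y ∈ Y, ∑ i, ((√ν * A y τ i) ^ 2 + (2 / P.ρ / √ν * D y τ i) ^ 2) =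
          ν * ∑ y ∈ Y, ∑ i, A y τ i ^ 2 + 4 / (P.ρ ^ 2 * ν) * ∑ y ∈ Y, ∑ i, D y τ i ^ 2 := by
        intro τ
        simp only [Finset.mul_sum, ← Finset.sum_add_distrib]
        refine Finset.sum_congr rfl fun y _ => Finset.sum_congr rfl fun i _ => ?_
        rw [mul_pow, mul_pow, div_pow, div_pow, Real.sq_sqrt hν.le, div_div]
        norm_num
      simp only [e]
      have c1 : Continuous fun τ => ∑ y ∈ Y, ∑ i, A y τ i ^ 2 :=
        continuous_finsetSum _ fun y _ => continuous_finsetSum _ fun i _ => (cA y i).pow 2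
      have c2 : Continuous fun τ => ∑ y ∈ Y, ∑ i, D y τ i ^ 2 :=
        continuous_finsetSum _ fun y _ => continuous_finsetSum _ fun i _ => (cD y i).pow 2
      rw [intervalIntegral.integral_add ((c1.intervalIntegrable _ _).const_mul _)
        ((c2.intervalIntegrable _ _).const_mul _), intervalIntegral.integral_const_mul,
        intervalIntegral.integral_const_mul]
      refine le_trans (add_le_add (mul_le_mul_of_nonneg_left ia hν.le)
        (mul_le_mul_of_nonneg_left id (by positivity))) hS)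
  refine h.congr fun i j _ => ?_
  unfold curF
  refine intervalIntegral.integral_congr fun τ _ => Finset.sum_congr rfl fun y _ => ?_
  change _ = A y τ i * (2 / P.ρ * D y τ j) - A y τ j * (2 / P.ρ * D y τ i)
  field_simp

/-- The time ordered part. -/
theorem PT_slow (hP : Ok g P) (s : Vn (N + 1)) :
    PT (fun i j => curS g P κ p lab s (vT g p T i) (vT g p T j)) 1
      (fun i => Lv g P κ p lab s (vT g p T i)) := by
  obtain ⟨Y, hY⟩ := exists_fld g p
  exact PT_sgn (fun i τ l => pd (uu g P κ (prim g κ.k1.Φ 1 p) lab l) (s, τ) (vT g p T i))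
    fun i l => continuous_pd ((hY _ κ.k1.smooth).uu_smooth κ hP lab l) s _

/-- The change of the basis. -/
theorem wk_le (θ : Form (N + 1)) (s : Vn (N + 1)) {e K : ℝ} (he : Real.exp (-e) ≤ |T.det|)
    (h : |wk (fun i j => cur θ s (vT g p T i) (vT g p T j)) (List.finRange N)| ≤ K) :
    |wk (cur θ s) (List.ofFn ev)| ≤ (∏ a, sc g p a) * Real.exp e * K := by
  have h1 := wk_basis (fderiv ℝ θ s) (ev (N := N))
    (Matrix.diagonal (fun a => (sc g p a)⁻¹) * T)
  have h2 : ∀ i, ∑ a, (Matrix.diagonal (fun a => (sc g p a)⁻¹) * T) a i • ev a = vT g p T i :=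
    fun i => Finset.sum_congr rfl fun a _ => by rw [Matrix.diagonal_mul]
  simp only [h2] at h1
  have h3 : wk (fun i j => cur θ s (vT g p T i) (vT g p T j)) (List.finRange N) =
      (Matrix.diagonal (fun a => (sc g p a)⁻¹) * T).det * wk (cur θ s) (List.ofFn ev) := h1
  have hs : 0 < ∏ a, sc g p a := Finset.prod_pos fun a _ => sc_pos g p a
  rw [h3, Matrix.det_mul, Matrix.det_diagonal, Finset.prod_inv_distrib, abs_mul, abs_mul,
    abs_of_pos (inv_pos.2 hs)] at h
  have h4 : (∏ a, sc g p a)⁻¹ * Real.exp (-e) * |wk (cur θ s) (List.ofFn ev)| ≤ K :=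
    le_trans (by gcongr) h
  have h5 : |wk (cur θ s) (List.ofFn ev)| = (∏ a, sc g p a) * Real.exp e *
      ((∏ a, sc g p a)⁻¹ * Real.exp (-e) * |wk (cur θ s) (List.ofFn ev)|) := by
    rw [Real.exp_neg]
    field_simp
  rw [h5]
  exact mul_le_mul_of_nonneg_left h4 (by positivity)

end Mn

variable {X : Type u} {M : ℕ} [NeZero M] {g : Geo X M} {P : Sp} {η0 η : ℝ} (κ : Kit M η0 η)
  {N : ℕ} {C : Type} [Fintype C] {lab : X → Lb M C}

theorem main_explicit (hP : Ok g P) (hl : IsLab g lab) (p : Fin (N + 1) → X) {t : Vn N}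
    (ht : t ∈ simplex N) {x ϑ ν Bc Ch B δ S : ℝ} (hx : 0 < x) (hx1 : x ≤ 1) (hϑ : 0 < ϑ)
    (hν : 0 < ν) (hBc : 1 ≤ Bc) (hCh : 1 ≤ Ch) (hch : ∀ r, |deriv ch r| ≤ Ch ∧ |deriv cς r| ≤ Ch)
    (h1 : ∀ j, |betp g P κ p lab (sl t) (Pi.single j 1)| ≤ Bc)
    (h2 : ∀ i j, |cur (betp g P κ p lab) (sl t) (Pi.single i 1) (Pi.single j 1)| ≤ Bc)
    (hδ : 900 * cb P.b * g.Rb ^ 2 * ϑ / η ≤ δ)
    (hS : ν * (cb P.b * N / η0) + 4 / (P.ρ ^ 2 * ν) * (8 * η * N) ≤ S)
    (hB1 : 8 * M * √δ ≤ B) (hB2 : Ch * (N + 1) ^ 2 * Bc ≤ B) :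
    |wk (cur (thp g P κ p lab) (sl t)) (List.ofFn ev)| ≤ (∏ a, sc g p a) *
      Real.exp (cb P.b * N / (2 * ϑ) + S / (2 * x) + 3 * √(N * δ) / (4 * √x)) *
      (1 + 4 * (2 * (M * Fintype.card C) + 2 : ℝ) ^ 2 * B ^ 2 / x) ^ (2 * (M * Fintype.card C) + 2) *
      (if 48 * η0 * ∑ j, len g p j ≤ P.R0 then (4 * √x) ^ N else Real.exp (N + 1) * 5 ^ N) := by
  obtain ⟨T, hdet, hT, hL⟩ := exists_T_Lv κ hP hl p ht hϑ
  obtain ⟨Y, hY⟩ := exists_fld g p
  obtain ⟨a, b, ha, hb, -, hab⟩ := cur_betp κ hP hl p hY (sl t)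
  have hs : Ord (sl t) := (ord_sl ht).1
  set s := sl t with hsd
  set β := betp g P κ p lab with hβ
  set Λ := β s (one _) with hΛ
  set v : Fin N → Vn (N + 1) := vT g p T with hv
  set L : Fin N → ℝ := fun i => Lv g P κ p lab s (v i) with hLd
  have hL0 : ∀ i, 0 ≤ L i := fun i => Lv_nonneg κ p s _
  have hL2 : ∑ i, L i ^ 2 ≤ δ := hL.trans hδ
  have hLδ : ∀ i, L i ≤ √δ := fun i => Real.le_sqrt_of_sq_le
    ((Finset.single_le_sum (f := fun i => L i ^ 2) (fun _ _ => sq_nonneg _)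
      (Finset.mem_univ i)).trans hL2)
  have hsx : 0 < √x := Real.sqrt_pos.2 hx
  have hsx1 : √x ≤ 1 := Real.sqrt_le_one.2 hx1
  have hM0 : (0 : ℝ) ≤ M := Nat.cast_nonneg M
  have hN0 : (0 : ℝ) ≤ N := Nat.cast_nonneg N
  have hch8 : |ch Λ| ≤ 8 := abs_ch_le Λ
  have hch9 : |ch Λ| ≤ 3 ^ 2 := by linarith
  -- the parts
  have pF := (Mn.PT_fast p κ hP hY hs hT hx hν hS).smul (ch Λ) 3 (by norm_num) hch9
    (fun _ => hsx.le) (Real.exp_pos _).le
  have pS := (Mn.PT_slow p κ (T := T) (lab := lab) hP s).smul (ch Λ) 3 (by norm_num) hch9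
    hL0 zero_le_one
  let aa : (Lb M C ⊕ Lb M C) ⊕ Fin 2 → Fin N → ℝ := fun k i => Sum.elim (fun k => ch Λ * a k (v i))
    ![deriv ch Λ * cur β s (v i) (one _), -deriv cς Λ * cur β s (v i) (one _)] k
  let bb : (Lb M C ⊕ Lb M C) ⊕ Fin 2 → Fin N → ℝ := fun k i => Sum.elim (fun k => b k (v i))
    ![β s (v i), thK N s (v i)] k
  have hML : ∀ i, M * L i ≤ M * √δ := fun i => mul_le_mul_of_nonneg_left (hLδ i) hM0
  have hMδ : 0 ≤ M * √δ := by positivity
  have hcur : ∀ (c : ℝ) i, |c| ≤ Ch → |c * cur β s (v i) (one _)| ≤ B := fun c i hc => by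
    rw [abs_mul]
    have h3 := Mn.abs_cur_one_le g p hT β s h2 i
    refine le_trans (mul_le_mul hc h3 (abs_nonneg _) (by linarith)) (le_trans ?_ hB2)
    rw [mul_assoc]
    refine mul_le_mul_of_nonneg_left ?_ (by linarith)
    rw [← mul_assoc]
    refine mul_le_mul_of_nonneg_right ?_ (by linarith)
    nlinarith
  have hNB : N * Bc ≤ B := by
    refine le_trans ?_ hB2
    refine mul_le_mul_of_nonneg_right ?_ (by linarith)
    nlinarith
  have haa : ∀ k i, |aa k i| ≤ B := by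
    rintro (k | k) i
    · change |ch Λ * a k (v i)| ≤ B
      rw [abs_mul]
      refine le_trans (mul_le_mul hch8 ((ha k _).trans (hML i)) (abs_nonneg _) (by norm_num)) ?_
      rw [← mul_assoc]
      exact hB1
    · fin_cases k
      · exact hcur _ i (hch Λ).1
      · exact hcur _ i (by rw [abs_neg]; exact (hch Λ).2)
  have hbb : ∀ k i, |bb k i| ≤ B := by
    rintro (k | k) i
    · change |b k (v i)| ≤ B
      refine ((hb k _).trans (hML i)).trans (le_trans ?_ hB1)
      rw [mul_assoc]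
      linarith
    · fin_cases k
      · exact (Mn.abs_vT_le g p hT (β s) h1 i).trans hNB
      · refine (Mn.abs_vT_le g p hT (thK N s) (abs_thK_single hs) i).trans (le_trans ?_ hNB)
        exact mul_le_mul_of_nonneg_left hBc hN0
  have pL := PT_low aa bb B x hx haa hbb
  have hcard : Fintype.card ((Lb M C ⊕ Lb M C) ⊕ Fin 2) = 2 * (M * Fintype.card C) + 2 := by
    simp only [Fintype.card_sum, Fintype.card_prod, ZMod.card, Fintype.card_fin]
    ring
  rw [hcard] at pL
  push_cast at pL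
  set Q : ℝ := (1 + 4 * (2 * (M * Fintype.card C) + 2 : ℝ) ^ 2 * B ^ 2 / x) ^
    (2 * (M * Fintype.card C) + 2) with hQ
  have hQ0 : 0 ≤ Q := by positivity
  have p3 := (pF.add pS (fun _ => by positivity) (fun i => by have := hL0 i; positivity)
    (Real.exp_pos _).le zero_le_one).add pL (fun i => by have := hL0 i; positivity)
    (fun _ => hsx.le) (by positivity) hQ0
  -- the decomposition
  have hdec : ∀ i j, cur (thp g P κ p lab) s (v i) (v j) =
      (ch Λ * curF g P κ p Y s (v i) (v j) + ch Λ * curS g P κ p lab s (v i) (v j) +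
        ∑ k, (aa k i * bb k j - aa k j * bb k i)) + (1 - cς Λ) * cur (thK N) s (v i) (v j) := by
    intro i j
    have h3 := cur_nrm (β := β) (betp_smooth κ hP p lab) (betp_trans κ hP p hl) s (v i) (v j)
    have h4 : cur (thp g P κ p lab) s (v i) (v j) = cur (nrm β) s (v i) (v j) := rfl
    rw [h4, h3, hab (v i) (v j), Fintype.sum_sum_type (f := fun k => aa k i * bb k j - aa k j * bb k i),
      Fin.sum_univ_two]
    have h5 : ∑ k, (aa (Sum.inl k) i * bb (Sum.inl k) j - aa (Sum.inl k) j * bb (Sum.inl k) i) =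
        ch Λ * ∑ k, (a k (v i) * b k (v j) - a k (v j) * b k (v i)) := by
      rw [Finset.mul_sum]
      refine Finset.sum_congr rfl fun k _ => ?_
      simp only [aa, bb, Sum.elim_inl]
      ring
    rw [h5]
    simp only [aa, bb, Sum.elim_inr, Matrix.cons_val_zero, Matrix.cons_val_one, ← hΛ]
    ring
  have h9 : ∑ i, (3 * L i) ^ 2 ≤ 9 * δ := by
    simp only [mul_pow, ← Finset.mul_sum]
    linarith
  have hsq : √(N * (9 * δ)) = 3 * √(N * δ) := by
    rw [show (N : ℝ) * (9 * δ) = 3 ^ 2 * (N * δ) by ring, Real.sqrt_mul (by norm_num),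
      Real.sqrt_sq (by norm_num)]
  have hfin : ∀ K : ℝ, |wk (fun i j => cur (thp g P κ p lab) s (v i) (v j)) (List.finRange N)| ≤
      Real.exp (S / (2 * x)) * Q * (K * Real.exp (3 * √(N * δ) / (4 * √x))) →
      |wk (cur (thp g P κ p lab) s) (List.ofFn ev)| ≤ (∏ a, sc g p a) *
        Real.exp (cb P.b * N / (2 * ϑ) + S / (2 * x) + 3 * √(N * δ) / (4 * √x)) * Q * K := by
    intro K hK
    refine (Mn.wk_le p _ s hdet hK).trans (le_of_eq ?_)
    rw [Real.exp_add, Real.exp_add]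
    ring
  split_ifs with hgood
  · have hc : cς Λ = 1 := cς_one (cover κ hP hl p hs hgood)
    have p4 := (p3.congr (B := fun i j => cur (thp g P κ p lab) s (v i) (v j)) fun i j _ => by
      rw [hdec, hc, sub_self, zero_mul, add_zero]).full
    refine hfin _ (p4.trans ?_)
    rw [mul_one]
    refine mul_le_mul_of_nonneg_left ?_ (by positivity)
    have h6 := prod_add_le (4 * √x) (by positivity) (fun i => 3 * L i)
      (fun i => by have := hL0 i; positivity) (9 * δ) h9
    rw [hsq] at h6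
    refine le_trans (le_of_eq (Finset.prod_congr rfl fun i _ => ?_)) h6
    ring
  · have hc : |1 - cς Λ| ≤ 1 ^ 2 := by
      obtain ⟨h3, h4⟩ := cς_mem Λ
      rw [abs_of_nonneg (by linarith)]
      linarith
    have pK := (Mn.PT_thK g p hT s).smul (1 - cς Λ) 1 zero_le_one hc (fun _ => zero_le_one)
      (Real.exp_pos _).le
    have p4 := ((p3.add pK (fun i => by have := hL0 i; positivity) (fun _ => by norm_num)
      (by positivity) (Real.exp_pos _).le).congr
      (B := fun i j => cur (thp g P κ p lab) s (v i) (v j)) fun i j _ => by rw [hdec]).full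
    refine hfin _ (p4.trans ?_)
    have h6 := prod_add_le (4 * √x + 1) (by positivity) (fun i => 3 * L i)
      (fun i => by have := hL0 i; positivity) (9 * δ) h9
    rw [hsq] at h6
    have h7 : ∏ i, (4 * √x + 1 + 3 * L i) ≤ 5 ^ N * Real.exp (3 * √(N * δ) / (4 * √x)) := by
      refine h6.trans (mul_le_mul (pow_le_pow_left₀ (by positivity) (by linarith) N)
        (Real.exp_le_exp.2 ?_) (Real.exp_pos _).le (by positivity))
      exact div_le_div_of_nonneg_left (by positivity) (by positivity) (by linarith)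
    have h8 : ∏ i, (3 * √x + 3 * L i + √x + 1 * 1) = ∏ i, (4 * √x + 1 + 3 * L i) :=
      Finset.prod_congr rfl fun i _ => by ring
    calc Real.exp (S / (2 * x)) * 1 * Q * Real.exp (N + 1) * ∏ i, (3 * √x + 3 * L i + √x + 1 * 1)
        ≤ Real.exp (S / (2 * x)) * 1 * Q * Real.exp (N + 1) *
          (5 ^ N * Real.exp (3 * √(N * δ) / (4 * √x))) := by
          rw [h8]
          exact mul_le_mul_of_nonneg_left h7 (by positivity)
      _ = _ := by ring

end Vale.Agent.P184Z
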