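import Vale.Agent.P184Z.Smo
import Vale.Agent.P184Z.CWb
import Vale.Agent.P184Z.StrA
import Vale.Agent.P184Z.StrB

/-!
# Naturality of the connection forms
-/

open scoped ContDiff
open MeasureTheory

noncomputable section

namespace Vale.Agent.P184Z

open Vale.Agent.P184.H38

universe u

variable {X : Type u} {M : ℕ} {g : Geo X M} {P : Sp} {η0 η : ℝ} (κ : Kit M η0 η) {N : ℕ}
  {C : Type}

theorem eqv_prim {Φ : ℝ → ℝ} {c : ℝ} (hΦ : ∀ r, Φ (r + M) = Φ r + c) (p : Fin (N + 1) → X) :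
    SA.Eqv g (prim g Φ c p) 0 where
  trans y s t a := prim_trans g Φ c p y s t a
  per y s t := by rw [prim_per g hΦ]; simp

theorem gF_prim_per {η' : ℝ} (k : Ker M η') (b R : ℝ) (p : Fin (N + 1) → X) (y : X)
    (s : Vn (N + 1)) (τ : ℝ) :
    gF b R (prim g k.Φ 1 p) (g.σ y) (s, τ + 1) = gF b R (prim g k.Φ 1 p) y (s, τ) := by
  simpa using (((eqv_prim (g := g) k.per p).gF' b R).per y s τ).symm

theorem uu_per (p : Fin (N + 1) → X) {lab : X → Lb M C} (hl : IsLab g lab) (l : Lb M C)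
    (s : Vn (N + 1)) (τ : ℝ) :
    uu g P κ (prim g κ.k1.Φ 1 p) lab (shf l) (s, τ + 1) =
      uu g P κ (prim g κ.k1.Φ 1 p) lab l (s, τ) :=
  SA.uu_per hl (eqv_prim κ.k1.per p) l s τ

theorem uu_trans (p : Fin (N + 1) → X) (lab : X → Lb M C) (l : Lb M C) (s : Vn (N + 1))
    (τ a : ℝ) :
    uu g P κ (prim g κ.k1.Φ 1 p) lab l (s + a • one _, τ + a) =
      uu g P κ (prim g κ.k1.Φ 1 p) lab l (s, τ) :=
  SA.uu_trans (eqv_prim κ.k1.per p) l s τ a

variable [NeZero M] [Fintype C]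

theorem betp_trans (hP : Ok g P) (p : Fin (N + 1) → X) {lab : X → Lb M C} (hl : IsLab g lab)
    (s : Vn (N + 1)) (a : ℝ) : betp g P κ p lab (s + a • one _) = betp g P κ p lab s := by
  obtain ⟨Y, hY⟩ := exists_fld g p
  exact SA.bet_trans hP (hY _ κ.k0.smooth) (hY _ κ.k1.smooth) (contDiff_prim g κ.smooth _ p) hl
    (eqv_prim κ.k0.per p) (eqv_prim κ.k1.per p) (eqv_prim κ.per p) s a

theorem thp_adm (hP : Ok g P) (p : Fin (N + 1) → X) {lab : X → Lb M C} (hl : IsLab g lab) :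
    Adm (thp g P κ p lab) :=
  SB.nrm_adm (betp_smooth κ hP p lab) (betp_trans κ hP p hl)

theorem betp_face (hP : Ok g P) (p : Fin (N + 2) → X) (lab : X → Lb M C) (i : Fin (N + 1)) :
    Face i (betp g P κ p lab) (betp g P κ (p ∘ i.succ.succAbove) lab) := by
  obtain ⟨Y, hY⟩ := exists_fld g p
  intro s v
  have h := SA.bet_nat (κ := κ) (lab := lab) (lab' := lab) (SB.fcL i) 0 (Equiv.refl X)
    (Equiv.refl _) hP (hY _ κ.k0.smooth) (hY _ κ.k1.smooth) (contDiff_prim g κ.smooth κ.c p)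
    (fun _ _ => rfl) (fun _ => rfl) 0
    (F0' := prim g κ.k0.Φ 1 (p ∘ i.succ.succAbove))
    (F1' := prim g κ.k1.Φ 1 (p ∘ i.succ.succAbove))
    (FE' := prim g κ.Ψ κ.c (p ∘ i.succ.succAbove))
    (fun y s t => by rw [add_zero, SB.fcL_apply, Equiv.refl_apply, prim_face])
    (fun y s t => by rw [add_zero, SB.fcL_apply, Equiv.refl_apply, prim_face])
    (fun y s t => by
      rw [add_zero, SB.fcL_apply, Equiv.refl_apply, prim_face, Pi.zero_apply, add_zero]) s
  rw [betp, h, add_zero]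
  rfl

theorem thp_face (hP : Ok g P) (p : Fin (N + 2) → X) (lab : X → Lb M C) (i : Fin (N + 1)) :
    Face i (thp g P κ p lab) (thp g P κ (p ∘ i.succ.succAbove) lab) :=
  SB.nrm_face (betp_face κ hP p lab i)

theorem betp_rot (hP : Ok g P) (p : Fin (N + 1) → X) (lab : X → Lb M C) :
    Rot (betp g P κ p lab) (betp g P κ (rotp g.σ p) lab) := by
  obtain ⟨Y, hY⟩ := exists_fld g (rotp g.σ p)
  intro s v
  have h := SA.bet_nat (κ := κ) (lab := lab) (lab' := lab) (SB.rotL N) (Pi.single (Fin.last N) 1)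
    (Equiv.refl X) (Equiv.refl _) hP (hY _ κ.k0.smooth) (hY _ κ.k1.smooth)
    (contDiff_prim g κ.smooth κ.c (rotp g.σ p)) (fun _ _ => rfl) (fun _ => rfl) 0
    (F0' := prim g κ.k0.Φ 1 p) (F1' := prim g κ.k1.Φ 1 p) (FE' := prim g κ.Ψ κ.c p)
    (fun y s t => by rw [← SB.rots_eq_rotL, Equiv.refl_apply, prim_rot g κ.k0.per])
    (fun y s t => by rw [← SB.rots_eq_rotL, Equiv.refl_apply, prim_rot g κ.k1.per])
    (fun y s t => by
      rw [← SB.rots_eq_rotL, Equiv.refl_apply, prim_rot g κ.per, Pi.zero_apply, add_zero]) s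
  rw [betp, betp, h, ← SB.rots_eq_rotL, ContinuousLinearMap.comp_apply, SB.rotL_apply]

theorem thp_rot (hP : Ok g P) (p : Fin (N + 1) → X) (lab : X → Lb M C) :
    Rot (thp g P κ p lab) (thp g P κ (rotp g.σ p) lab) :=
  SB.nrm_rot (betp_rot κ hP p lab)

/-- The form depends on the labelling only through the second layer. -/
theorem bet_congr {n : ℕ} {F0 F1 FE F0' F1' FE' : X → En n → ℝ} {lab lab' : X → Lb M C}
    (α : X ≃ X) (h0 : ∀ y, F0' (α y) = F0 y) (hE : ∀ y, FE' (α y) = FE y)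
    (h1 : uu g P κ F1' lab' = uu g P κ F1 lab) :
    bet g P κ F0' F1' FE' lab' = bet g P κ F0 F1 FE lab := by
  have a0 : ∀ y z, gF P.b P.R0 F0' (α y) z = gF P.b P.R0 F0 y z := fun y z => by
    have := SA.gF_nat (F := F0') (F' := F0) (ContinuousLinearMap.id ℝ _) 0 0 α
      (fun y s t => by simp [h0]) P.b P.R0 y z.1 z.2
    simpa using this.symm
  have a1 : ∀ z, bint g P κ F0' F1' FE' lab' z = bint g P κ F0 F1 FE lab z := fun z => by
    rw [bint, bint, ← finsum_comp_equiv α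
      (f := fun y => gF P.b P.R0 F0' y z ^ 2 • pd (FE' y) z)]
    simp only [a0, hE, WW, h1]
  funext s
  simp only [bet, a1]

theorem thp_iso (α : X ≃ X) (h1 : ∀ y z, g.d (α y) (α z) = g.d y z)
    (h2 : ∀ y, α (g.σ y) = g.σ (α y)) (p : Fin (N + 1) → X) (lab lab' : X → Lb M C)
    (h3 : ∀ y, lab' (α y) = lab y) : thp g P κ (α ∘ p) lab' = thp g P κ p lab := by
  unfold thp betp
  congr 1
  refine bet_congr κ α (fun y => funext (prim_iso g _ _ α h1 h2 p y))
    (fun y => funext (prim_iso g _ _ α h1 h2 p y)) ?_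
  funext l z
  have := SA.uu_nat (P := P) (κ := κ) (F := prim g κ.k1.Φ 1 (α ∘ p)) (F' := prim g κ.k1.Φ 1 p)
    (lab := lab') (lab' := lab) (ContinuousLinearMap.id ℝ _) 0 0 α (Equiv.refl _) h1 h3
    (fun y s t => by simp [prim_iso g _ _ α h1 h2 p y]) l z.1 z.2
  simpa using this.symm

theorem thp_loc (hP : Ok g P) (p : Fin (N + 1) → X) : ∃ Y : Finset X,
    ∀ lab lab' : X → Lb M C, (∀ y ∈ Y, lab y = lab' y) → thp g P κ p lab = thp g P κ p lab' := by
  obtain ⟨Y, hY⟩ := exists_fld g p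
  refine ⟨SA.nb g Y, fun lab lab' h => ?_⟩
  unfold thp betp
  congr 1
  refine bet_congr κ (Equiv.refl X) (fun _ => rfl) (fun _ => rfl) ?_
  funext l z
  rw [SA.uu_eq hP (hY _ κ.k1.smooth), SA.uu_eq hP (hY _ κ.k1.smooth)]
  exact Finset.sum_congr rfl fun y hy => by rw [h y hy]

end Vale.Agent.P184Z
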