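import Vale.Agent.P184Z.Defs
import Vale.Agent.P184Z.Key

/-!
# Bounds of product type: forms of small nuclear norm
-/

open scoped ContDiff
open MeasureTheory

noncomputable section

namespace Vale.Agent.P184Z

open Vale.Agent.P184.H38

universe u

variable {N : ℕ}

namespace PfB

open Matrix

/-- From the arithmetic mean to the geometric mean. -/
theorem cs {n : ℕ} (A H : Matrix (Fin n) (Fin n) ℝ)
    (h : ∀ v w : Fin n → ℝ, 2 * |v ⬝ᵥ A *ᵥ w| ≤ v ⬝ᵥ H *ᵥ v + w ⬝ᵥ H *ᵥ w) (v w : Fin n → ℝ) :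
    (v ⬝ᵥ A *ᵥ w) ^ 2 ≤ (v ⬝ᵥ H *ᵥ v) * (w ⬝ᵥ H *ᵥ w) := by
  have h1 : ∀ t : ℝ, 0 ≤ (v ⬝ᵥ H *ᵥ v) * (t * t) + (-2 * (v ⬝ᵥ A *ᵥ w)) * t + w ⬝ᵥ H *ᵥ w := by
    intro t
    have h2 := h (t • v) w
    simp only [mulVec_smul, smul_dotProduct, dotProduct_smul, smul_eq_mul] at h2
    have h3 := le_abs_self (t * (v ⬝ᵥ A *ᵥ w))
    nlinarith
  have h4 := discrim_le_zero h1
  rw [discrim] at h4
  nlinarith

theorem sym {n : ℕ} {H : Matrix (Fin n) (Fin n) ℝ} (hH : Hᵀ = H) (v w : Fin n → ℝ) :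
    v ⬝ᵥ H *ᵥ w = (H *ᵥ v) ⬝ᵥ w := by
  rw [dotProduct_mulVec, ← mulVec_transpose, hH]

theorem self_dom {n : ℕ} {H : Matrix (Fin n) (Fin n) ℝ} (hH : H.PosSemidef) (v w : Fin n → ℝ) :
    2 * |v ⬝ᵥ H *ᵥ w| ≤ v ⬝ᵥ H *ᵥ v + w ⬝ᵥ H *ᵥ w := by
  have hT : Hᵀ = H := by
    have := hH.1.eq
    rwa [conjTranspose_eq_transpose_of_trivial] at this
  have h0 : ∀ v : Fin n → ℝ, 0 ≤ v ⬝ᵥ H *ᵥ v := fun v => by
    simpa using hH.dotProduct_mulVec_nonneg v
  have h1 := h0 (v + w)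
  have h2 := h0 (v - w)
  have h3 : w ⬝ᵥ H *ᵥ v = v ⬝ᵥ H *ᵥ w := by rw [sym hT w v, dotProduct_comm]
  simp only [mulVec_add, mulVec_sub, add_dotProduct, sub_dotProduct, dotProduct_add,
    dotProduct_sub, h3] at h1 h2
  rcases abs_cases (v ⬝ᵥ H *ᵥ w) with h | h <;> linarith [h.1]

/-- The determinant of a dominated matrix. -/
theorem det_dom {n : ℕ} (A H : Matrix (Fin n) (Fin n) ℝ) (hH : H.PosSemidef)
    (h : ∀ v w : Fin n → ℝ, 2 * |v ⬝ᵥ A *ᵥ w| ≤ v ⬝ᵥ H *ᵥ v + w ⬝ᵥ H *ᵥ w)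
    (x : ℝ) (hx : 0 < x) : |A.det| ≤ (Real.exp (H.trace / (2 * x)) * √x ^ n) ^ 2 := by
  obtain ⟨T, t1, -, t3, t4, -, t6⟩ :=
    Key.exists_T (fun _ : Fin n => ()) hH (fun _ _ h => (h rfl).elim) (inv_pos.2 hx)
  have hT : Hᵀ = H := by
    have := hH.1.eq
    rwa [conjTranspose_eq_transpose_of_trivial] at this
  have h0 : ∀ v : Fin n → ℝ, 0 ≤ v ⬝ᵥ H *ᵥ v := fun v => by
    simpa using hH.dotProduct_mulVec_nonneg v
  have hk : ∀ j, (T *ᵥ Pi.single j 1) ⬝ᵥ H *ᵥ (T *ᵥ Pi.single j 1) ≤ x := by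
    intro j
    obtain ⟨w, hw⟩ : ∃ w, w = T *ᵥ Pi.single j 1 := ⟨_, rfl⟩
    rw [← hw]
    have h1 := t6 (H *ᵥ w) (w ⬝ᵥ H *ᵥ w) (h0 w) fun v => by
      rw [← sym hT]
      exact cs H H (self_dom hH) w v
    have h2 : w ⬝ᵥ H *ᵥ w = (T *ᵥ (H *ᵥ w)) j := by
      conv_lhs => rw [hw, ← sym t1, ← hw, single_one_dotProduct]
    have h3 : (T *ᵥ (H *ᵥ w)) j ^ 2 ≤ ∑ i, (T *ᵥ (H *ᵥ w)) i ^ 2 :=
      Finset.single_le_sum (f := fun i => (T *ᵥ (H *ᵥ w)) i ^ 2) (fun i _ => sq_nonneg _)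
        (Finset.mem_univ j)
    rw [← h2] at h3
    rw [div_inv_eq_mul] at h1
    rcases (h0 w).eq_or_lt with h4 | h4
    · rw [← h4]; exact hx.le
    · nlinarith
  have hB : |(T * A * T)ᵀ.det| ≤ x ^ n := by
    refine (Vale.Agent.P184.H460.hadamard _).trans ?_
    have h5 : ∀ j ∈ Finset.univ, √(∑ i, (T * A * T)ᵀ j i ^ 2) ≤ x := by
      intro j _
      rw [Real.sqrt_le_left hx.le]
      obtain ⟨w, hw⟩ : ∃ w, w = T *ᵥ Pi.single j 1 := ⟨_, rfl⟩
      have h6 : ∀ i, (T * A * T)ᵀ j i = (T *ᵥ (A *ᵥ w)) i := fun i => by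
        rw [hw, mulVec_mulVec, mulVec_mulVec, mulVec_single_one, transpose_apply]
        rfl
      simp only [h6]
      have h7 := t6 (A *ᵥ w) (w ⬝ᵥ H *ᵥ w) (h0 w) fun v => by
        rw [dotProduct_comm, mul_comm]
        exact cs A H h v w
      have h8 := hk j
      rw [← hw] at h8
      rw [div_inv_eq_mul] at h7
      nlinarith
    refine (Finset.prod_le_prod (fun i _ => Real.sqrt_nonneg _) h5).trans (le_of_eq ?_)
    rw [Finset.prod_const, Finset.card_univ, Fintype.card_fin]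
  rw [det_transpose, det_mul, det_mul, abs_mul, abs_mul, abs_of_pos t3] at hB
  have e1 : x⁻¹ / 2 * H.trace = H.trace / (2 * x) := by field_simp
  rw [e1] at t4
  have e2 : |A.det| = T.det⁻¹ ^ 2 * (T.det * |A.det| * T.det) := by field_simp
  rw [e2, mul_pow, ← pow_mul, mul_comm n 2, pow_mul, Real.sq_sqrt hx.le]
  exact mul_le_mul (pow_le_pow_left₀ (inv_pos.2 t3).le t4 2) hB (by positivity) (by positivity)

theorem quad_sub {n : ℕ} (e : Fin n → Fin N) (A : Matrix (Fin N) (Fin N) ℝ) (v w : Fin n → ℝ) :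
    v ⬝ᵥ A.submatrix e e *ᵥ w = (((1 : Matrix (Fin N) (Fin N) ℝ).submatrix id e) *ᵥ v) ⬝ᵥ A *ᵥ
      (((1 : Matrix (Fin N) (Fin N) ℝ).submatrix id e) *ᵥ w) := by
  have : A.submatrix e e = ((1 : Matrix (Fin N) (Fin N) ℝ).submatrix id e)ᵀ * A *
      (1 : Matrix (Fin N) (Fin N) ℝ).submatrix id e := by
    ext i j
    simp [Matrix.mul_apply, Matrix.one_apply]
  rw [this, ← mulVec_mulVec, ← mulVec_mulVec, dotProduct_mulVec, vecMul_transpose]

end PfB

open Matrix in
/-- Domination by a positive semidefinite matrix. -/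
theorem PT_dom (A H : Matrix (Fin N) (Fin N) ℝ) (hA : ∀ i j, A j i = - A i j)
    (hH : H.PosSemidef)
    (h : ∀ v w : Fin N → ℝ, 2 * |v ⬝ᵥ A.mulVec w| ≤ v ⬝ᵥ H.mulVec v + w ⬝ᵥ H.mulVec w)
    (x : ℝ) (hx : 0 < x) :
    PT (fun i j => A i j) (Real.exp (H.trace / (2 * x))) (fun _ => √x) := by
  intro l hl
  have he : Function.Injective l.get :=
    List.nodup_iff_injective_get.1 (hl.imp fun h => h.ne)
  have hM : ∀ i j, altM (fun i j => A i j) i j = A i j := by
    intro i j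
    rcases lt_trichotomy i j with hij | hij | hij
    · exact altM_lt _ hij
    · subst hij
      have := hA i i
      have h0 : A i i = 0 := by linarith
      simp [altM, h0]
    · rw [altM_anti, altM_lt _ hij, hA j i]
  have h1 : wk (fun i j => A i j) l ^ 2 = (A.submatrix l.get l.get).det := by
    have h2 : (l.map fun i => (Pi.single i 1 : Fin N → ℝ)) =
        List.ofFn fun k => Pi.single (l.get k) 1 := by
      conv_lhs => rw [← List.ofFn_get l, List.map_ofFn]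
      rfl
    rw [wk_sorted _ l hl, h2, pf_sq _ (altB_alt _)]
    congr 1
    ext i j
    rw [Matrix.of_apply, altB_single, hM, submatrix_apply]
  have h3 := PfB.det_dom (A.submatrix l.get l.get) (H.submatrix l.get l.get) (hH.submatrix _)
    (fun v w => by simp only [PfB.quad_sub]; exact h _ _) x hx
  have h4 : (H.submatrix l.get l.get).trace ≤ H.trace := by
    have : (H.submatrix l.get l.get).trace = ∑ i ∈ Finset.univ.map ⟨l.get, he⟩, H i i := by
      rw [Finset.sum_map]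
      rfl
    rw [this]
    exact Finset.sum_le_sum_of_subset_of_nonneg (Finset.subset_univ _) fun i _ _ => hH.diag_nonneg
  rw [← h1, abs_of_nonneg (sq_nonneg _)] at h3
  refine (abs_le_of_sq_le_sq h3 (by positivity)).trans ?_
  rw [List.map_const', List.prod_replicate]
  gcongr

open Matrix in
/-- Integrals of sums of decomposable forms. -/
theorem PT_nuc {ι : Type u} (Y : Finset ι) (a b : ι → ℝ → Fin N → ℝ)
    (ha : ∀ y i, Continuous fun τ => a y τ i) (hb : ∀ y i, Continuous fun τ => b y τ i)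
    (S x : ℝ) (hx : 0 < x)
    (hS : ∫ τ in (0 : ℝ)..1, ∑ y ∈ Y, ∑ i, (a y τ i ^ 2 + b y τ i ^ 2) ≤ S) :
    PT (fun i j => ∫ τ in (0 : ℝ)..1, ∑ y ∈ Y, (a y τ i * b y τ j - a y τ j * b y τ i))
      (Real.exp (S / (2 * x))) (fun _ => √x) := by
  have quad : ∀ (F : Fin N → Fin N → ℝ → ℝ), (∀ i j, Continuous (F i j)) → ∀ v w : Fin N → ℝ,
      v ⬝ᵥ (Matrix.of fun i j => ∫ τ in (0 : ℝ)..1, F i j τ) *ᵥ w =
        ∫ τ in (0 : ℝ)..1, ∑ i, ∑ j, v i * (F i j τ * w j) := by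
    intro F hF v w
    rw [intervalIntegral.integral_finsetSum fun i _ => Continuous.intervalIntegrable
      (by fun_prop) _ _]
    refine Finset.sum_congr rfl fun i _ => ?_
    rw [intervalIntegral.integral_finsetSum fun i _ => Continuous.intervalIntegrable
      (by fun_prop) _ _, mulVec, dotProduct, Finset.mul_sum]
    refine Finset.sum_congr rfl fun j _ => ?_
    rw [intervalIntegral.integral_const_mul, intervalIntegral.integral_mul_const, Matrix.of_apply]
  set FA : Fin N → Fin N → ℝ → ℝ := fun i j τ =>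
    ∑ y ∈ Y, (a y τ i * b y τ j - a y τ j * b y τ i) with hFA
  set FH : Fin N → Fin N → ℝ → ℝ := fun i j τ =>
    ∑ y ∈ Y, (a y τ i * a y τ j + b y τ i * b y τ j) with hFH
  have cA : ∀ i j, Continuous (FA i j) := fun i j => by simp only [hFA]; fun_prop
  have cH : ∀ i j, Continuous (FH i j) := fun i j => by simp only [hFH]; fun_prop
  have r1 : ∀ v w p q : Fin N → ℝ, ∑ i, ∑ j, v i * (p i * q j * w j) = (v ⬝ᵥ p) * (w ⬝ᵥ q) := by
    intro v w p q
    simp only [dotProduct, Finset.sum_mul_sum]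
    exact Finset.sum_congr rfl fun i _ => Finset.sum_congr rfl fun j _ => by ring
  have eA : ∀ (v w : Fin N → ℝ) τ, ∑ i, ∑ j, v i * (FA i j τ * w j) =
      ∑ y ∈ Y, ((v ⬝ᵥ a y τ) * (w ⬝ᵥ b y τ) - (v ⬝ᵥ b y τ) * (w ⬝ᵥ a y τ)) := by
    intro v w τ
    simp only [← r1, ← Finset.sum_sub_distrib]
    rw [Finset.sum_comm (s := Y)]
    refine Finset.sum_congr rfl fun i _ => ?_
    rw [Finset.sum_comm (s := Y)]
    refine Finset.sum_congr rfl fun j _ => ?_
    simp only [hFA, Finset.sum_mul, Finset.mul_sum]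
    exact Finset.sum_congr rfl fun y _ => by ring
  have eH : ∀ (v : Fin N → ℝ) τ, ∑ i, ∑ j, v i * (FH i j τ * v j) =
      ∑ y ∈ Y, ((v ⬝ᵥ a y τ) * (v ⬝ᵥ a y τ) + (v ⬝ᵥ b y τ) * (v ⬝ᵥ b y τ)) := by
    intro v τ
    simp only [← r1, ← Finset.sum_add_distrib]
    rw [Finset.sum_comm (s := Y)]
    refine Finset.sum_congr rfl fun i _ => ?_
    rw [Finset.sum_comm (s := Y)]
    refine Finset.sum_congr rfl fun j _ => ?_
    simp only [hFH, Finset.sum_mul, Finset.mul_sum]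
    exact Finset.sum_congr rfl fun y _ => by ring
  have cd : ∀ (v : Fin N → ℝ) y, (Continuous fun τ => v ⬝ᵥ a y τ) ∧
      Continuous fun τ => v ⬝ᵥ b y τ := fun v y => by
    simp only [dotProduct]
    exact ⟨by fun_prop, by fun_prop⟩
  have hH : (Matrix.of fun i j => ∫ τ in (0 : ℝ)..1, FH i j τ).PosSemidef := by
    refine .of_dotProduct_mulVec_nonneg ?_ fun v => ?_
    · ext i j
      simp only [conjTranspose_apply, star_trivial, Matrix.of_apply, hFH, mul_comm (a _ _ j),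
        mul_comm (b _ _ j)]
    · rw [star_trivial, quad FH cH]
      simp only [eH]
      exact intervalIntegral.integral_nonneg zero_le_one fun τ _ =>
        Finset.sum_nonneg fun y _ => add_nonneg (mul_self_nonneg _) (mul_self_nonneg _)
  have htr : (Matrix.of fun i j => ∫ τ in (0 : ℝ)..1, FH i j τ).trace ≤ S := by
    refine le_of_eq_of_le ?_ hS
    simp only [trace, Matrix.diag, Matrix.of_apply]
    rw [← intervalIntegral.integral_finsetSum fun i _ => (cH i i).intervalIntegrable _ _]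
    refine intervalIntegral.integral_congr fun τ _ => ?_
    simp only [hFH, sq]
    rw [Finset.sum_comm]
  have key := PT_dom (Matrix.of fun i j => ∫ τ in (0 : ℝ)..1, FA i j τ) _ (fun i j => by
    simp only [Matrix.of_apply, hFA]
    rw [← intervalIntegral.integral_neg]
    refine intervalIntegral.integral_congr fun τ _ => ?_
    simp only [← Finset.sum_neg_distrib, neg_sub]) hH (fun v w => by
    rw [quad FA cA, quad FH cH, quad FH cH]
    simp only [eA, eH]
    have c1 := fun y => (cd v y).1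
    have c2 := fun y => (cd v y).2
    have c3 := fun y => (cd w y).1
    have c4 := fun y => (cd w y).2
    rw [← intervalIntegral.integral_add (Continuous.intervalIntegrable (by fun_prop) _ _)
      (Continuous.intervalIntegrable (by fun_prop) _ _)]
    refine (mul_le_mul_of_nonneg_left (intervalIntegral.abs_integral_le_integral_abs zero_le_one)
      zero_le_two).trans ?_
    rw [← intervalIntegral.integral_const_mul]
    refine intervalIntegral.integral_mono_on zero_le_one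
      (Continuous.intervalIntegrable (by fun_prop) _ _)
      (Continuous.intervalIntegrable (by fun_prop) _ _) fun τ _ => ?_
    refine (mul_le_mul_of_nonneg_left (Finset.abs_sum_le_sum_abs _ _) zero_le_two).trans ?_
    rw [Finset.mul_sum, ← Finset.sum_add_distrib]
    refine Finset.sum_le_sum fun y _ => ?_
    rcases abs_cases ((v ⬝ᵥ a y τ) * (w ⬝ᵥ b y τ) - (v ⬝ᵥ b y τ) * (w ⬝ᵥ a y τ)) with h | h <;>
      rw [h.1] <;>
      nlinarith [sq_nonneg (v ⬝ᵥ a y τ - w ⬝ᵥ b y τ), sq_nonneg (v ⬝ᵥ a y τ + w ⬝ᵥ b y τ),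
        sq_nonneg (v ⬝ᵥ b y τ - w ⬝ᵥ a y τ), sq_nonneg (v ⬝ᵥ b y τ + w ⬝ᵥ a y τ)]) x hx
  intro l hl
  refine (key l hl).trans ?_
  have : 0 ≤ (l.map fun _ => √x).prod := by
    rw [List.map_const', List.prod_replicate]
    positivity
  gcongr

open Matrix in
/-- A block diagonal inverse square root of `1 + Q`. -/
theorem exists_T (Q : Matrix (Fin N) (Fin N) ℝ) (hQ : Q.PosSemidef) (b : Fin N → ℤ) :
    ∃ T : Matrix (Fin N) (Fin N) ℝ, (∀ i j, b i ≠ b j → T i j = 0) ∧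
      Real.exp (-(Q.trace / 2)) ≤ |T.det| ∧
      (∀ a : Fin N → ℝ, ∑ i, (∑ j, T j i * a j) ^ 2 ≤ ∑ j, a j ^ 2) ∧
      ∀ (a : Fin N → ℝ) (k : ℤ) (B : ℝ), 0 ≤ B →
        (∀ w : Fin N → ℝ, (∀ j, b j ≠ k → w j = 0) → (a ⬝ᵥ w) ^ 2 ≤ B * (w ⬝ᵥ Q.mulVec w)) →
        ∑ i with b i = k, (∑ j, T j i * a j) ^ 2 ≤ B := by
  obtain ⟨Qb, hQb⟩ : ∃ Qb : Matrix (Fin N) (Fin N) ℝ, ∀ i j,
      Qb i j = if b i = b j then Q i j else 0 := ⟨Matrix.of fun i j => _, fun _ _ => rfl⟩
  set res : ℤ → (Fin N → ℝ) → Fin N → ℝ := fun k v j => if b j = k then v j else 0 with hres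
  have h0 : ∀ v : Fin N → ℝ, 0 ≤ v ⬝ᵥ Q *ᵥ v := fun v => by
    simpa using hQ.dotProduct_mulVec_nonneg v
  have hsum : ∀ (s : Finset ℤ), (∀ i, b i ∈ s) → ∀ v : Fin N → ℝ,
      v ⬝ᵥ Qb *ᵥ v = ∑ k ∈ s, res k v ⬝ᵥ Q *ᵥ res k v := by
    intro s hs v
    simp only [dotProduct, mulVec, Finset.mul_sum]
    rw [Finset.sum_comm (s := s)]
    refine Finset.sum_congr rfl fun i _ => ?_
    rw [Finset.sum_comm (s := s)]
    refine Finset.sum_congr rfl fun j _ => ?_
    rw [Finset.sum_eq_single_of_mem (b i) (hs i) fun k _ hk => by simp [hres, hk.symm]]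
    by_cases hij : b i = b j
    · simp [hres, hQb, hij]
    · simp [hres, hQb, hij, Ne.symm hij]
  have hPS : Qb.PosSemidef := by
    refine .of_dotProduct_mulVec_nonneg ?_ fun v => ?_
    · ext i j
      have := hQ.1.apply i j
      simp only [conjTranspose_apply, star_trivial, hQb, eq_comm (a := b j)] at this ⊢
      rw [this]
    · rw [star_trivial, hsum (Finset.univ.image b) fun i => by simp]
      exact Finset.sum_nonneg fun k _ => h0 _
  obtain ⟨T, t1, t2, t3, t4, t5, t6⟩ :=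
    Key.exists_T b hPS (fun i j h => by rw [hQb, if_neg h]) one_pos
  have hT : ∀ (a : Fin N → ℝ) i, ∑ j, T j i * a j = (T *ᵥ a) i := fun a i => by
    conv_rhs => rw [← t1]
    rfl
  refine ⟨T, t2, ?_, fun a => by simpa only [hT] using t5 a, fun a k B hB h => ?_⟩
  · have : Qb.trace = Q.trace := by simp [trace, hQb]
    rw [this, one_div_mul_eq_div] at t4
    rw [abs_of_pos t3, Real.exp_neg]
    exact (inv_le_comm₀ (Real.exp_pos _) t3).2 t4
  · have h1 := t6 (res k a) B hB fun v => by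
      have e1 : res k a ⬝ᵥ v = a ⬝ᵥ res k v := by
        simp only [dotProduct, hres]
        exact Finset.sum_congr rfl fun j _ => by split_ifs <;> simp
      rw [e1, hsum (insert k (Finset.univ.image b)) fun i => by simp]
      refine (h (res k v) fun j hj => by simp [hres, hj]).trans ?_
      exact mul_le_mul_of_nonneg_left (Finset.single_le_sum
        (f := fun k => res k v ⬝ᵥ Q *ᵥ res k v) (fun k _ => h0 _) (Finset.mem_insert_self _ _)) hB
    rw [div_one] at h1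
    refine le_trans ?_ h1
    refine le_of_eq_of_le (Finset.sum_congr rfl fun i hi => ?_)
      (Finset.sum_le_sum_of_subset_of_nonneg (Finset.filter_subset (fun i => b i = k) _)
        fun i _ _ => sq_nonneg _)
    rw [← hT (res k a)]
    congr 1
    refine Finset.sum_congr rfl fun j _ => ?_
    by_cases hj : b j = k
    · simp [hres, hj]
    · rw [t2 j i (by rw [(Finset.mem_filter.1 hi).2]; exact hj), zero_mul, zero_mul]

end Vale.Agent.P184Z
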