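import Vale.Agent.P184Z.Cal
import Vale.Agent.P184Z.KerL

/-!
# The time averages of the distances: structure
-/

open scoped ContDiff
open MeasureTheory

noncomputable section

namespace Vale.Agent.P184Z.P0

universe u

variable {X : Type u} {M : ℕ} {N : ℕ}

theorem rotp_last {X : Type*} (σ : X → X) (p : Fin (N + 1) → X) :
    rotp σ p (Fin.last N) = σ (p 0) := by simp [rotp]

theorem rotp_castSucc {X : Type*} (σ : X → X) (p : Fin (N + 1) → X) (j : Fin N) :
    rotp σ p j.castSucc = p j.succ := by simp [rotp, Fin.tail]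

theorem rots_last (s : Vn (N + 1)) : rots s (Fin.last N) = s 0 + 1 := by simp [rots]

theorem rots_castSucc (s : Vn (N + 1)) (j : Fin N) : rots s j.castSucc = s j.succ := by
  simp [rots, Fin.tail]

theorem le_rots {s : Vn (N + 1)} (hs : Ord s) (j : Fin (N + 1)) : s j ≤ rots s j := by
  induction j using Fin.lastCases with
  | last => rw [rots_last]; exact hs.2
  | cast j => rw [rots_castSucc]; exact hs.1 (Fin.castSucc_lt_succ (i := j)).le

theorem d_nonneg (g : Geo X M) (y z : X) : 0 ≤ g.d y z := by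
  have h := g.d_tri y z y
  rw [g.d_self, g.d_symm z y] at h
  linarith

open Classical in
/-- The points at distance less than `Rb` from `Y`. -/
def nb (g : Geo X M) (Y : Finset X) : Finset X := Y.biUnion fun y => (g.fin y).toFinset

theorem d_eq_of_notMem_nb {g : Geo X M} {Y : Finset X} {y y' : X} (hy : y ∉ nb g Y)
    (hy' : y' ∈ Y) : g.d y' y = g.Rb := by
  classical
  refine le_antisymm (g.d_le _ _) (not_lt.1 fun h => hy ?_)
  unfold nb
  rw [Finset.mem_biUnion]
  exact ⟨y', hy', by simpa using h⟩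

theorem pow_d (g : Geo X M) (k : ℕ) (y z : X) :
    g.d ((g.σ ^ k) y) ((g.σ ^ k) z) = g.d y z := by
  induction k with
  | zero => simp
  | succ k ih => rw [pow_succ', Equiv.Perm.mul_apply, Equiv.Perm.mul_apply, g.σ_d, ih]

theorem abs_d_sub_le (g : Geo X M) (a b y : X) : |g.d a y - g.d b y| ≤ g.d b a := by
  have h1 := g.d_tri a b y
  have h2 := g.d_tri b a y
  rw [g.d_symm a b] at h1
  exact abs_le.2 ⟨by linarith, by linarith⟩

/-- The change of the distance to `y` at a jump. -/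
def jmp (g : Geo X M) (p : Fin (N + 1) → X) (y : X) (k : ℕ) (j : Fin (N + 1)) : ℝ :=
  g.d ((g.σ ^ k) (rotp g.σ p j)) y - g.d ((g.σ ^ k) (p j)) y

theorem abs_jmp_le (g : Geo X M) (p : Fin (N + 1) → X) (y : X) (k : ℕ) (j : Fin (N + 1)) :
    |jmp g p y k j| ≤ len g p j :=
  (abs_d_sub_le g _ _ _).trans_eq (pow_d g k _ _)

theorem prim_def (g : Geo X M) (Φ : ℝ → ℝ) (c : ℝ) (p : Fin (N + 1) → X) (y : X)
    (z : En (N + 1)) : prim g Φ c p y z = c * g.d (p 0) y +
      ∑ k ∈ Finset.range M, ∑ j, jmp g p y k j * Φ (z.2 - k - z.1 j) := rfl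

/-- The weights of the points of the loop. -/
def wt (Φ : ℝ → ℝ) (z : En (N + 1)) (k : ℕ) (j : Fin (N + 1)) : ℝ :=
  Φ (z.2 - k - z.1 j) - Φ (z.2 - k - rots z.1 j)

variable {Φ : ℝ → ℝ} {c : ℝ}

theorem shift_sum {X : Type*} {σ : Equiv.Perm X} (hσ : σ ^ M = 1)
    (hΦ : ∀ r, Φ (r + M) = Φ r + c) (f : X → ℝ) (q : Fin (N + 1) → X) (s : Vn (N + 1)) (t : ℝ) :
    ∑ k ∈ Finset.range M, ∑ j, f ((σ ^ k) (rotp σ q j)) * Φ (t - k - rots s j) =
      ∑ k ∈ Finset.range M, ∑ j, f ((σ ^ k) (q j)) * Φ (t - k - s j) - c * f (q 0) := by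
  simp only [Fin.sum_univ_castSucc (f := fun j => f ((σ ^ _) (rotp σ q j)) * Φ (t - _ - rots s j)),
    Fin.sum_univ_succ (f := fun j => f ((σ ^ _) (q j)) * Φ (t - _ - s j)), rotp_last,
    rotp_castSucc, rots_last, rots_castSucc, Finset.sum_add_distrib]
  set F : ℕ → ℝ := fun k => f ((σ ^ k) (q 0)) * Φ (t - k - s 0) with hF
  have h1 : ∑ k ∈ Finset.range M, f ((σ ^ k) (σ (q 0))) * Φ (t - k - (s 0 + 1)) =
      ∑ k ∈ Finset.range M, F (k + 1) := Finset.sum_congr rfl fun k _ => by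
    simp only [hF, pow_succ, Equiv.Perm.mul_apply]
    congr 2; push_cast; ring
  have h2 := (Finset.sum_range_succ' F M).symm.trans (Finset.sum_range_succ F M)
  have h3 : F M = F 0 - c * f (q 0) := by
    have := hΦ (t - M - s 0)
    rw [show t - M - s 0 + M = t - s 0 by ring] at this
    simp only [hF, hσ, pow_zero, Equiv.Perm.one_apply, Nat.cast_zero, sub_zero, this]; ring
  rw [h1]
  linarith

theorem sum_wt (hΦ : ∀ r, Φ (r + M) = Φ r + c) (z : En (N + 1)) :
    ∑ k ∈ Finset.range M, ∑ j, wt Φ z k j = c := by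
  have := shift_sum (σ := (1 : Equiv.Perm Unit)) (one_pow M) hΦ (fun _ => 1) (fun _ => ()) z.1 z.2
  simp only [one_mul, mul_one] at this
  simp only [wt, Finset.sum_sub_distrib, this]; ring

variable (g : Geo X M)

/-- The time average as a weighted sum. -/
theorem prim_eq (hΦ : ∀ r, Φ (r + M) = Φ r + c) (p : Fin (N + 1) → X) (y : X) (z : En (N + 1)) :
    prim g Φ c p y z =
      ∑ k ∈ Finset.range M, ∑ j, g.d ((g.σ ^ k) (rotp g.σ p j)) y * wt Φ z k j := by
  have := shift_sum g.σ_pow hΦ (fun x => g.d x y) p z.1 z.2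
  simp only [prim, wt, sub_mul, mul_sub, Finset.sum_sub_distrib, this]; ring

theorem prim_smooth (hs : ContDiff ℝ ∞ Φ) (p : Fin (N + 1) → X) (y : X) :
    ContDiff ℝ ∞ (prim g Φ c p y) := by
  unfold prim
  refine contDiff_const.add (ContDiff.sum fun k _ => ContDiff.sum fun j _ =>
    contDiff_const.mul (hs.comp ?_))
  fun_prop

open Classical in
/-- The points at distance less than `Rb` from the loop. -/
def nbp (p : Fin (N + 1) → X) : Finset X :=
  nb g ((Finset.range M ×ˢ Finset.univ).image fun x : ℕ × Fin (N + 1) =>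
    (g.σ ^ x.1) (rotp g.σ p x.2))

theorem prim_off (hΦ : ∀ r, Φ (r + M) = Φ r + c) (p : Fin (N + 1) → X) {y : X}
    (hy : y ∉ nbp g p) (z : En (N + 1)) : prim g Φ c p y z = c * g.Rb := by
  classical
  rw [prim_eq g hΦ, ← sum_wt hΦ z, Finset.sum_mul]
  refine Finset.sum_congr rfl fun k hk => ?_
  rw [Finset.sum_mul]
  refine Finset.sum_congr rfl fun j _ => ?_
  rw [d_eq_of_notMem_nb hy (Finset.mem_image.2 ⟨(k, j), by simpa using hk, rfl⟩), mul_comm]

theorem prim_fld' {η : ℝ} (k : Ker M η) (p : Fin (N + 1) → X) :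
    Fld g (prim g k.Φ 1 p) (nbp g p) :=
  ⟨prim_smooth g k.smooth p, fun y hy z => by rw [prim_off g k.per p hy, one_mul]⟩

theorem prim_trans' (p : Fin (N + 1) → X) (y : X) (s : Vn (N + 1)) (t a : ℝ) :
    prim g Φ c p y (s + a • one _, t + a) = prim g Φ c p y (s, t) := by
  simp only [prim, one, Pi.add_apply, Pi.smul_apply, smul_eq_mul, mul_one]
  congr 1
  refine Finset.sum_congr rfl fun k _ => Finset.sum_congr rfl fun j _ => ?_
  congr 2; ring

theorem prim_per' (hΦ : ∀ r, Φ (r + M) = Φ r + c) (p : Fin (N + 1) → X) (y : X) (s : Vn (N + 1))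
    (t : ℝ) : prim g Φ c p (g.σ y) (s, t + 1) = prim g Φ c p y (s, t) := by
  rw [prim_eq g hΦ, prim_eq g hΦ]
  set F : ℕ → ℝ := fun k => ∑ j, g.d ((g.σ ^ k) (rotp g.σ p j)) (g.σ y) * wt Φ (s, t + 1) k j
    with hF
  have h1 : ∀ k, F (k + 1) = ∑ j, g.d ((g.σ ^ k) (rotp g.σ p j)) y * wt Φ (s, t) k j := fun k => by
    refine Finset.sum_congr rfl fun j _ => ?_
    rw [pow_succ', Equiv.Perm.mul_apply, g.σ_d]
    simp only [wt]
    push_cast
    rw [show t + 1 - (k + 1) = t - k by ring]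
  have h2 := (Finset.sum_range_succ' F M).symm.trans (Finset.sum_range_succ F M)
  have h3 : F M = F 0 := by
    refine Finset.sum_congr rfl fun j _ => ?_
    have e (a : ℝ) : Φ (t + 1 - M - a) = Φ (t + 1 - a) - c := by
      have := hΦ (t + 1 - M - a)
      rw [show t + 1 - M - a + M = t + 1 - a by ring] at this
      linarith
    simp only [g.σ_pow, pow_zero, wt, e, Nat.cast_zero, sub_zero]; ring
  simp only [h1] at h2
  linarith

theorem prim_rot' (hΦ : ∀ r, Φ (r + M) = Φ r + c) (p : Fin (N + 1) → X) (y : X) (s : Vn (N + 1))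
    (t : ℝ) : prim g Φ c (rotp g.σ p) y (rots s, t) = prim g Φ c p y (s, t) := by
  rw [prim_eq g hΦ p]
  have := shift_sum g.σ_pow hΦ (fun x => g.d x y) (rotp g.σ p) s t
  simp only [prim, wt, sub_mul, mul_sub, Finset.sum_sub_distrib, this]; ring

theorem predAbove_succ_succAbove (i j : Fin (N + 1)) : i.predAbove (i.succ.succAbove j) = j := by
  rcases lt_or_ge j.castSucc i.succ with h | h
  · rw [Fin.succAbove_of_castSucc_lt _ _ h, Fin.predAbove_castSucc_of_le _ _ (by
      rw [Fin.lt_def] at h; rw [Fin.le_def]; simp at h ⊢; omega)]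
  · rw [Fin.succAbove_of_le_castSucc _ _ h, Fin.predAbove_succ_of_le _ _ (by
      rw [Fin.le_def] at h ⊢; simp at h ⊢; omega)]

theorem rots_fc (i j : Fin (N + 1)) (s : Vn (N + 1)) :
    rots (fc i s) (i.castSucc.succAbove j) = rots s j := by
  induction j using Fin.lastCases with
  | last =>
    rw [Fin.succAbove_of_le_castSucc _ _ (Fin.castSucc_le_castSucc_iff.2 (Fin.le_last i)),
      Fin.succ_last, rots_last, rots_last]
    simp [fc]
  | cast j =>
    rw [Fin.castSucc_succAbove_castSucc, rots_castSucc, rots_castSucc, fc,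
      ← Fin.succ_succAbove_succ, predAbove_succ_succAbove]

theorem rotp_face {X : Type*} (σ : X → X) (i j : Fin (N + 1)) (p : Fin (N + 2) → X) :
    rotp σ p (i.castSucc.succAbove j) = rotp σ (fun j => p (i.succ.succAbove j)) j := by
  induction j using Fin.lastCases with
  | last =>
    rw [Fin.succAbove_of_le_castSucc _ _ (Fin.castSucc_le_castSucc_iff.2 (Fin.le_last i)),
      Fin.succ_last, rotp_last, rotp_last]
    simp
  | cast j =>
    rw [Fin.castSucc_succAbove_castSucc, rotp_castSucc, rotp_castSucc, Fin.succ_succAbove_succ]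

theorem prim_face' (hΦ : ∀ r, Φ (r + M) = Φ r + c) (i : Fin (N + 1)) (p : Fin (N + 2) → X) (y : X)
    (s : Vn (N + 1)) (t : ℝ) :
    prim g Φ c p y (fc i s, t) = prim g Φ c (fun j => p (i.succ.succAbove j)) y (s, t) := by
  rw [prim_eq g hΦ, prim_eq g hΦ]
  refine Finset.sum_congr rfl fun k _ => ?_
  rw [Fin.sum_univ_succAbove _ i.castSucc]
  have h0 : wt Φ (fc i s, t) k i.castSucc = 0 := by
    simp [wt, rots_castSucc, fc]
  rw [h0, mul_zero, zero_add]
  refine Finset.sum_congr rfl fun j _ => ?_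
  simp only [wt, rots_fc, rotp_face, fc, Fin.predAbove_succAbove]

theorem prim_face0' (hΦ : ∀ r, Φ (r + M) = Φ r + c) (p : Fin (N + 2) → X) (y : X)
    (s : Vn (N + 1)) (t : ℝ) :
    prim g Φ c p y (Fin.cons (α := fun _ => ℝ) (s (Fin.last N) - 1) s, t) =
      prim g Φ c (Fin.tail p) y (s, t) := by
  have h1 : rots (Fin.cons (α := fun _ => ℝ) (s (Fin.last N) - 1) s) = fc (Fin.last N) s := by
    funext j
    induction j using Fin.lastCases with
    | last => rw [rots_last]; simp [fc]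
    | cast j => rw [rots_castSucc]; simp [fc]
  have h2 : (fun j => rotp g.σ p ((Fin.last N).succ.succAbove j)) = Fin.tail p := by
    funext j
    rw [Fin.succ_last, Fin.succAbove_last, rotp_castSucc]; rfl
  rw [← prim_rot' g hΦ, h1, prim_face' g hΦ, h2]

theorem prim_iso' (e : X → X) (he : ∀ y z, g.d (e y) (e z) = g.d y z)
    (hc : ∀ y, e (g.σ y) = g.σ (e y)) (p : Fin (N + 1) → X) (y : X) (z : En (N + 1)) :
    prim g Φ c (fun j => e (p j)) (e y) z = prim g Φ c p y z := by
  have h1 (k : ℕ) (x : X) : (g.σ ^ k) (e x) = e ((g.σ ^ k) x) := by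
    induction k with
    | zero => simp
    | succ k ih => rw [pow_succ', Equiv.Perm.mul_apply, Equiv.Perm.mul_apply, ih, hc]
  have h2 (j : Fin (N + 1)) : rotp g.σ (fun j => e (p j)) j = e (rotp g.σ p j) := by
    induction j using Fin.lastCases with
    | last => rw [rotp_last, rotp_last, hc]
    | cast j => rw [rotp_castSucc, rotp_castSucc]
  simp only [prim, h2, h1, he]

/-! ### Derivatives -/

theorem fderiv_prim {K : ℝ → ℝ} (hd : ∀ r, HasDerivAt Φ (K r) r) (p : Fin (N + 1) → X) (y : X)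
    (z w : En (N + 1)) : fderiv ℝ (prim g Φ c p y) z w =
      ∑ k ∈ Finset.range M, ∑ j, jmp g p y k j * (K (z.2 - k - z.1 j) * (w.2 - w.1 j)) := by
  let L (j : Fin (N + 1)) : En (N + 1) →L[ℝ] ℝ := ContinuousLinearMap.snd ℝ _ _ -
    (ContinuousLinearMap.proj j).comp (ContinuousLinearMap.fst ℝ (Vn (N + 1)) ℝ)
  have h1 (k : ℕ) (j : Fin (N + 1)) :
      HasFDerivAt (fun z : En (N + 1) => z.2 - k - z.1 j) (L j) z := by
    have := (L j).hasFDerivAt (x := z) |>.sub_const (k : ℝ)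
    refine this.congr_of_eventuallyEq (Filter.Eventually.of_forall fun z => ?_)
    simp [L]; ring
  have h2 : HasFDerivAt (prim g Φ c p y) (∑ k ∈ Finset.range M, ∑ j,
      jmp g p y k j • (K (z.2 - k - z.1 j) • L j)) z :=
    (HasFDerivAt.fun_sum fun k _ => HasFDerivAt.fun_sum fun j _ =>
      ((hd _).comp_hasFDerivAt z (h1 k j)).const_mul _).const_add _
  rw [h2.fderiv]
  simp [L]

theorem pd_prim' {K : ℝ → ℝ} (hd : ∀ r, HasDerivAt Φ (K r) r) (p : Fin (N + 1) → X) (y : X)
    (z : En (N + 1)) (v : Vn (N + 1)) : pd (prim g Φ c p y) z v =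
      -∑ j, (∑ k ∈ Finset.range M, jmp g p y k j * K (z.2 - k - z.1 j)) * v j := by
  rw [pd_apply, fderiv_prim g hd, Finset.sum_comm, ← Finset.sum_neg_distrib]
  refine Finset.sum_congr rfl fun j _ => ?_
  rw [Finset.sum_mul, ← Finset.sum_neg_distrib]
  exact Finset.sum_congr rfl fun k _ => by ring

theorem pd_prim_single {K : ℝ → ℝ} (hd : ∀ r, HasDerivAt Φ (K r) r) (p : Fin (N + 1) → X) (y : X)
    (z : En (N + 1)) (j : Fin (N + 1)) : pd (prim g Φ c p y) z (Pi.single j 1) =
      -∑ k ∈ Finset.range M, jmp g p y k j * K (z.2 - k - z.1 j) := by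
  rw [pd_prim' g hd]
  simp [Pi.single_apply]

theorem abs_pd_prim_single_le {K : ℝ → ℝ} (hd : ∀ r, HasDerivAt Φ (K r) r) (p : Fin (N + 1) → X)
    (y : X) (z : En (N + 1)) (j : Fin (N + 1)) : |pd (prim g Φ c p y) z (Pi.single j 1)| ≤
      len g p j * ∑ k ∈ Finset.range M, |K (z.2 - z.1 j - k)| := by
  rw [pd_prim_single g hd, abs_neg, Finset.mul_sum]
  refine (Finset.abs_sum_le_sum_abs _ _).trans (Finset.sum_le_sum fun k _ => ?_)
  rw [abs_mul, sub_right_comm]
  exact mul_le_mul_of_nonneg_right (abs_jmp_le g p y k j) (abs_nonneg _)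

/-- The derivative of the primitive along the translations. -/
theorem pd_prim_one' {η0 η : ℝ} (κ : Kit M η0 η) (p : Fin (N + 1) → X) (y : X) (z : En (N + 1)) :
    pd (prim g κ.Ψ κ.c p y) z (one _) = prim g κ.k2.Φ 1 p y z - prim g κ.k0.Φ 1 p y z := by
  rw [pd_apply, fderiv_prim g κ.deriv, prim_def, prim_def, add_sub_add_left_eq_sub,
    ← Finset.sum_sub_distrib]
  refine Finset.sum_congr rfl fun k _ => ?_
  rw [← Finset.sum_sub_distrib]
  exact Finset.sum_congr rfl fun j _ => by simp only [one]; ring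

/-! ### Metric properties for ordered jump times -/

theorem wt_nonneg (hm : Monotone Φ) {z : En (N + 1)} (hz : Ord z.1) (k : ℕ) (j : Fin (N + 1)) :
    0 ≤ wt Φ z k j := sub_nonneg.2 (hm (by linarith [le_rots hz j]))

theorem prim_le_of (hΦ : ∀ r, Φ (r + M) = Φ r + 1) (hm : Monotone Φ) (p : Fin (N + 1) → X)
    {z : En (N + 1)} (hz : Ord z.1) (a b : ℝ) (y y' : X) (e : ℝ)
    (h : ∀ x, e ≤ a * g.d x y + b * g.d x y') :
    e ≤ a * prim g Φ 1 p y z + b * prim g Φ 1 p y' z := by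
  rw [prim_eq g hΦ, prim_eq g hΦ, ← mul_one e, ← sum_wt hΦ z]
  simp only [Finset.mul_sum, ← Finset.sum_add_distrib]
  refine Finset.sum_le_sum fun k _ => Finset.sum_le_sum fun j _ => ?_
  have := mul_le_mul_of_nonneg_right (h ((g.σ ^ k) (rotp g.σ p j))) (wt_nonneg hm hz k j)
  linarith

variable {η : ℝ} (k : Ker M η) (p : Fin (N + 1) → X) {z : En (N + 1)}

theorem prim_nonneg' (hz : Ord z.1) (y : X) : 0 ≤ prim g k.Φ 1 p y z := by
  simpa using prim_le_of g k.per k.mono p hz 1 0 y y 0 fun x => by simpa using d_nonneg g x y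

theorem prim_le_Rb' (hz : Ord z.1) (y : X) : prim g k.Φ 1 p y z ≤ g.Rb := by
  have := prim_le_of g k.per k.mono p hz (-1) 0 y y (-g.Rb) fun x => by linarith [g.d_le x y]
  linarith

theorem d_le_prim' (hz : Ord z.1) (y y' : X) :
    g.d y y' ≤ prim g k.Φ 1 p y z + prim g k.Φ 1 p y' z := by
  simpa using prim_le_of g k.per k.mono p hz 1 1 y y' (g.d y y') fun x => by
    have := g.d_tri y x y'
    rw [g.d_symm y x] at this; linarith

theorem prim_lip' (hz : Ord z.1) (y y' : X) :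
    prim g k.Φ 1 p y' z ≤ prim g k.Φ 1 p y z + g.d y y' := by
  have := prim_le_of g k.per k.mono p hz 1 (-1) y y' (-g.d y y') fun x => by
    linarith [g.d_tri x y y']
  linarith

end Vale.Agent.P184Z.P0
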