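import Vale.Agent.P184Z.Prim0

/-!
# Time averages of distances: derivatives and naturality
-/

open scoped ContDiff
open MeasureTheory

noncomputable section

namespace Vale.Agent.P184Z

open Vale.Agent.P184.H38 P0

universe u

variable {X : Type u} {M : ℕ} (g : Geo X M) {N : ℕ} {Φ K : ℝ → ℝ} {c : ℝ}

theorem Geo.d_nonneg (y z : X) : 0 ≤ g.d y z := P0.d_nonneg g y z

theorem len_nonneg (p : Fin (N + 1) → X) (j : Fin (N + 1)) : 0 ≤ len g p j := g.d_nonneg _ _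

theorem len_le (p : Fin (N + 1) → X) (j : Fin (N + 1)) : len g p j ≤ g.Rb := g.d_le _ _

theorem contDiff_prim (hΦ : ContDiff ℝ ∞ Φ) (c : ℝ) (p : Fin (N + 1) → X) (y : X) :
    ContDiff ℝ ∞ (prim g Φ c p y) := prim_smooth g hΦ p y

theorem exists_fld (p : Fin (N + 1) → X) :
    ∃ Y : Finset X, ∀ Φ : ℝ → ℝ, ContDiff ℝ ∞ Φ → Fld g (prim g Φ 1 p) Y := by
  classical
  refine ⟨nb g (insert (p 0) ((Finset.range M ×ˢ Finset.univ).image (fun x : ℕ × Fin (N + 1) =>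
    (g.σ ^ x.1) (rotp g.σ p x.2)) ∪ (Finset.range M ×ˢ Finset.univ).image
      fun x : ℕ × Fin (N + 1) => (g.σ ^ x.1) (p x.2))),
    fun Φ hΦ => ⟨prim_smooth g hΦ p, fun y hy z => ?_⟩⟩
  rw [prim, d_eq_of_notMem_nb hy (Finset.mem_insert_self _ _), one_mul, Finset.sum_eq_zero,
    add_zero]
  refine fun k hk => Finset.sum_eq_zero fun j _ => ?_
  rw [d_eq_of_notMem_nb hy (Finset.mem_insert_of_mem (Finset.mem_union_left _
      (Finset.mem_image.2 ⟨(k, j), by simpa using hk, rfl⟩))),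
    d_eq_of_notMem_nb hy (Finset.mem_insert_of_mem (Finset.mem_union_right _
      (Finset.mem_image.2 ⟨(k, j), by simpa using hk, rfl⟩))), sub_self, zero_mul]

theorem pd_prim (hΦ : ∀ r, HasDerivAt Φ (K r) r) (c : ℝ) (p : Fin (N + 1) → X) (y : X)
    (z : En (N + 1)) (v : Vn (N + 1)) :
    pd (prim g Φ c p y) z v = - ∑ k ∈ Finset.range M, ∑ j,
      (g.d ((g.σ ^ k) (rotp g.σ p j)) y - g.d ((g.σ ^ k) (p j)) y) * K (z.2 - k - z.1 j) * v j := by
  rw [pd_prim' g hΦ, Finset.sum_comm]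
  simp only [Finset.sum_mul, jmp]

theorem abs_pd_prim {η : ℝ} (k : Ker M η) (p : Fin (N + 1) → X) (y : X) (z : En (N + 1))
    (j : Fin (N + 1)) :
    |pd (prim g k.Φ 1 p y) z (Pi.single j 1)| ≤ len g p j * k.K1 (z.2 - z.1 j) := by
  simpa only [Ker.K1, abs_of_nonneg (k.K_nonneg _)] using abs_pd_prim_single_le g k.deriv p y z j

theorem abs_pd_primE {η0 η : ℝ} (κ : Kit M η0 η) (p : Fin (N + 1) → X) (y : X) (z : En (N + 1))
    (j : Fin (N + 1)) :
    |pd (prim g κ.Ψ κ.c p y) z (Pi.single j 1)| ≤ len g p j * κ.k1abs (z.2 - z.1 j) :=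
  abs_pd_prim_single_le g κ.deriv p y z j

theorem pd_primE_one {η0 η : ℝ} (κ : Kit M η0 η) (p : Fin (N + 1) → X) (y : X) (z : En (N + 1)) :
    pd (prim g κ.Ψ κ.c p y) z (one _) = prim g κ.k2.Φ 1 p y z - prim g κ.k0.Φ 1 p y z :=
  pd_prim_one' g κ p y z

theorem prim_face (Φ : ℝ → ℝ) (c : ℝ) (p : Fin (N + 2) → X) (i : Fin (N + 1)) (y : X)
    (s : Vn (N + 1)) (τ : ℝ) :
    prim g Φ c p y (fc i s, τ) = prim g Φ c (p ∘ i.succ.succAbove) y (s, τ) := by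
  simp only [prim, Function.comp_def, Fin.succ_succAbove_zero, sub_mul, Finset.sum_sub_distrib]
  congr 1
  rw [← Finset.sum_sub_distrib, ← Finset.sum_sub_distrib]
  refine Finset.sum_congr rfl fun k _ => ?_
  rw [Fin.sum_univ_succAbove _ i.castSucc, Fin.sum_univ_succAbove _ i.succ]
  simp only [fc, rotp_face, Fin.predAbove_succAbove, predAbove_succ_succAbove, rotp_castSucc,
    Fin.predAbove_castSucc_self, Fin.predAbove_succ_self]
  ring

theorem prim_rot (hΦ : ∀ r, Φ (r + M) = Φ r + c) (p : Fin (N + 1) → X) (y : X)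
    (s : Vn (N + 1)) (τ : ℝ) :
    prim g Φ c (rotp g.σ p) y (rots s, τ) = prim g Φ c p y (s, τ) := prim_rot' g hΦ p y s τ

theorem prim_trans (Φ : ℝ → ℝ) (c : ℝ) (p : Fin (N + 1) → X) (y : X) (s : Vn (N + 1)) (τ a : ℝ) :
    prim g Φ c p y (s + a • one _, τ + a) = prim g Φ c p y (s, τ) := prim_trans' g p y s τ a

theorem prim_per (hΦ : ∀ r, Φ (r + M) = Φ r + c) (p : Fin (N + 1) → X) (y : X)
    (s : Vn (N + 1)) (τ : ℝ) :
    prim g Φ c p (g.σ y) (s, τ + 1) = prim g Φ c p y (s, τ) := prim_per' g hΦ p y s τ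

theorem prim_iso (Φ : ℝ → ℝ) (c : ℝ) (α : X ≃ X) (h1 : ∀ y z, g.d (α y) (α z) = g.d y z)
    (h2 : ∀ y, α (g.σ y) = g.σ (α y)) (p : Fin (N + 1) → X) (y : X) (z : En (N + 1)) :
    prim g Φ c (α ∘ p) (α y) z = prim g Φ c p y z := prim_iso' g α h1 h2 p y z

end Vale.Agent.P184Z
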