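import Vale.Agent.P184Z.Par

/-!
# P184Z: the slow one-form attached to a twisted loop `u` of vectors
-/

open MeasureTheory
open scoped RealInnerProductSpace

set_option linter.unusedSectionVars false

namespace Vale.Agent.P184Z.Slow

open Par

section time

variable {V : Type} [NormedAddCommGroup V] [InnerProductSpace ℝ V] [CompleteSpace V]

/-- the periodic primitive of `g` minus its mean -/
noncomputable def Wt (M : ℝ) (g : ℝ → V) (t : ℝ) : V :=
  ∫ r in (0 : ℝ)..M, (r / M - 1 / 2) • g (t + r)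

/-- the mean over a period -/
noncomputable def mn (M : ℝ) (g : ℝ → V) : V := M⁻¹ • ∫ r in (0 : ℝ)..M, g r

theorem Wt_eq {M : ℝ} (hM : M ≠ 0) {g : ℝ → V} (hg : Continuous g) (hp : ∀ t, g (t + M) = g t)
    (t : ℝ) : Wt M g t = Wt M g 0 + (∫ r in (0 : ℝ)..t, g r) - t • mn M g := by
  have hc : ∀ c : ℝ, Continuous fun x : ℝ => (x / M + c) • g x := fun c => by fun_prop
  have h1 : Wt M g t = ∫ x in t..t + M, ((x / M + -(1 / 2)) • g x - (t * M⁻¹) • g x) := by
    have := intervalIntegral.integral_comp_add_left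
      (fun x => (x / M + -(1 / 2)) • g x - (t * M⁻¹) • g x) (a := 0) (b := M) t
    rw [add_zero] at this
    rw [← this, Wt]
    refine intervalIntegral.integral_congr fun r _ => ?_
    rw [← sub_smul]
    congr 1
    field_simp
    ring
  have h2 : ∫ x in t..t + M, g x = ∫ x in (0 : ℝ)..M, g x := by
    simpa using Function.Periodic.intervalIntegral_add_eq (f := g) (T := M) hp t 0
  have h3 : ∫ x in M..t + M, (x / M + -(1 / 2)) • g x =
      (∫ x in (0 : ℝ)..t, (x / M + -(1 / 2)) • g x) + ∫ x in (0 : ℝ)..t, g x := by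
    have := intervalIntegral.integral_comp_add_right
      (fun x => (x / M + -(1 / 2)) • g x) (a := 0) (b := t) M
    rw [zero_add] at this
    rw [← this, ← intervalIntegral.integral_add ((hc _).intervalIntegrable _ _)
      (hg.intervalIntegrable _ _)]
    refine intervalIntegral.integral_congr fun r _ => ?_
    simp only [hp]
    rw [show (r + M) / M + -(1 / 2) = (r / M + -(1 / 2)) + 1 by field_simp; ring, add_smul,
      one_smul]
  have h4 := intervalIntegral.integral_add_adjacent_intervals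
    ((hc (-(1 / 2))).intervalIntegrable (μ := volume) 0 t)
    ((hc (-(1 / 2))).intervalIntegrable t (t + M))
  have h5 := intervalIntegral.integral_add_adjacent_intervals
    ((hc (-(1 / 2))).intervalIntegrable (μ := volume) 0 M)
    ((hc (-(1 / 2))).intervalIntegrable M (t + M))
  have h6 : Wt M g 0 = ∫ x in (0 : ℝ)..M, (x / M + -(1 / 2)) • g x := by
    simp only [Wt, zero_add, sub_eq_add_neg]
  rw [h1, intervalIntegral.integral_sub ((hc _).intervalIntegrable _ _)
    (Continuous.intervalIntegrable (by fun_prop) _ _), intervalIntegral.integral_smul, h2, mn,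
    smul_smul, h6]
  congr 1
  rw [h3] at h5
  have h7 := h4.trans h5.symm
  rw [← add_assoc, add_comm (∫ x in (0 : ℝ)..M, _), add_assoc] at h7
  exact add_left_cancel h7

theorem hasDerivAt_Wt {M : ℝ} (hM : M ≠ 0) {g : ℝ → V} (hg : Continuous g)
    (hp : ∀ t, g (t + M) = g t) (t : ℝ) : HasDerivAt (Wt M g) (g t - mn M g) t := by
  rw [funext (Wt_eq hM hg hp)]
  have h2 : HasDerivAt (fun t => ∫ r in (0 : ℝ)..t, g r) (g t) t :=
    (hg.integral_hasStrictDerivAt 0 t).hasDerivAt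
  simpa using (h2.const_add (Wt M g 0)).fun_sub ((hasDerivAt_id t).smul_const (mn M g))

theorem continuous_Wt {M : ℝ} (hM : M ≠ 0) {g : ℝ → V} (hg : Continuous g)
    (hp : ∀ t, g (t + M) = g t) : Continuous (Wt M g) :=
  continuous_iff_continuousAt.2 fun t => (hasDerivAt_Wt hM hg hp t).continuousAt

variable {σ : V →ₗᵢ[ℝ] V}

theorem Wt_add_one (M : ℝ) {g : ℝ → V} (hσ : ∀ t, g (t + 1) = σ (g t)) (t : ℝ) :
    Wt M g (t + 1) = σ (Wt M g t) := by
  rw [Wt, Wt, ← σ.intervalIntegral_comp_comm]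
  refine intervalIntegral.integral_congr fun r _ => ?_
  rw [map_smul, ← hσ, add_right_comm]

theorem mn_inv {M : ℝ} {g : ℝ → V} (hp : ∀ t, g (t + M) = g t) (hσ : ∀ t, g (t + 1) = σ (g t)) :
    σ (mn M g) = mn M g := by
  rw [mn, map_smul, ← σ.intervalIntegral_comp_comm]
  simp only [← hσ]
  rw [int_shift hp]

/-- integrals of `1`-periodic functions over `M` periods -/
theorem int_nat {f : ℝ → ℝ} (hf : Continuous f) (hp : ∀ t, f (t + 1) = f t) (M : ℕ) :
    ∫ t in (0 : ℝ)..M, f t = M * ∫ t in (0 : ℝ)..1, f t := by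
  have := Function.Periodic.intervalIntegral_add_zsmul_eq (f := f) (T := 1) hp (M : ℤ) 0
    fun _ _ => hf.intervalIntegrable _ _
  simpa using this

theorem int_inner_mn {M : ℕ} (hM : M ≠ 0) {g : ℝ → V} (hg : Continuous g)
    (hp : ∀ t, g (t + M) = g t) (hσ : ∀ t, g (t + 1) = σ (g t)) :
    ∫ t in (0 : ℝ)..1, ⟪mn M g, g t⟫ = ‖mn M g‖ ^ 2 := by
  have hM' : (M : ℝ) ≠ 0 := by exact_mod_cast hM
  have h1 := int_nat (f := fun t => ⟪mn M g, g t⟫) (by fun_prop) (fun t => by
    rw [hσ, ← mn_inv hp hσ, σ.inner_map_map, mn_inv hp hσ]) M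
  have h2 := (innerSL ℝ (mn M g)).intervalIntegral_comp_comm (μ := volume)
    (hg.intervalIntegrable 0 M)
  simp only [innerSL_apply_apply] at h2
  refine mul_left_cancel₀ hM' ?_
  rw [← h1, h2, ← real_inner_self_eq_norm_sq, ← real_inner_smul_right]
  congr 1
  rw [mn, smul_inv_smul₀ hM']

/-- the mean is small when `g` is far from the invariant vectors -/
theorem norm_mn_le {M : ℕ} (hM : M ≠ 0) {g : ℝ → V} (hg : Continuous g)
    (hp : ∀ t, g (t + M) = g t) (hσ : ∀ t, g (t + 1) = σ (g t))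
    (h : ∀ t y, σ y = y → ⟪y, g t⟫ ^ 2 ≤ ‖y‖ ^ 2 * ‖g t‖ ^ 2 / 2) :
    ‖mn M g‖ ^ 2 ≤ (∫ t in (0 : ℝ)..1, ‖g t‖ ^ 2) / 2 := by
  have h1 : ∫ t in (0 : ℝ)..1, ⟪mn M g, g t⟫ ≤
      ∫ t in (0 : ℝ)..1, (‖mn M g‖ ^ 2 / 2 + ‖g t‖ ^ 2 / 4) := by
    refine intervalIntegral.integral_mono_on zero_le_one
      (Continuous.intervalIntegrable (by fun_prop) _ _)
      (Continuous.intervalIntegrable (by fun_prop) _ _) fun t _ => ?_
    refine le_of_sq_le_sq ((h t _ (mn_inv hp hσ)).trans ?_) (by positivity)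
    nlinarith [sq_nonneg (‖mn M g‖ ^ 2 / 2 - ‖g t‖ ^ 2 / 4)]
  rw [int_inner_mn hM hg hp hσ, intervalIntegral.integral_add intervalIntegrable_const
    (Continuous.intervalIntegrable (by fun_prop) _ _), intervalIntegral.integral_const,
    intervalIntegral.integral_div] at h1
  simp only [sub_zero, smul_eq_mul, one_mul] at h1
  linarith

theorem int_d_inner {M : ℕ} (hM : M ≠ 0) {g g' : ℝ → V} (hc : Continuous g) (hc' : Continuous g')
    (hd : ∀ t, HasDerivAt g (g' t) t) (hp : ∀ t, g (t + M) = g t) (hσ : ∀ t, g (t + 1) = σ (g t)) :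
    ∫ t in (0 : ℝ)..1, ⟪g' t, Wt M g t⟫ = -((∫ t in (0 : ℝ)..1, ‖g t‖ ^ 2) - ‖mn M g‖ ^ 2) := by
  have hM' : (M : ℝ) ≠ 0 := by exact_mod_cast hM
  have hW := continuous_Wt hM' hc hp
  have h1 : ∫ t in (0 : ℝ)..1, (⟪g t, g t - mn M g⟫ + ⟪g' t, Wt M g t⟫) = _ :=
    intervalIntegral.integral_eq_sub_of_hasDerivAt
      (fun t _ => (hd t).inner ℝ (hasDerivAt_Wt hM' hc hp t))
      (Continuous.intervalIntegrable (by fun_prop) _ _)
  have h2 : ⟪g 1, Wt M g 1⟫ = ⟪g 0, Wt M g 0⟫ := by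
    have h3 := hσ 0
    have h4 := Wt_add_one (M : ℝ) hσ 0
    rw [zero_add] at h3 h4
    rw [h3, h4, σ.inner_map_map]
  rw [h2, sub_self, intervalIntegral.integral_add (Continuous.intervalIntegrable (by fun_prop) _ _)
    (Continuous.intervalIntegrable (by fun_prop) _ _)] at h1
  simp only [inner_sub_right, real_inner_self_eq_norm_sq, real_inner_comm (mn _ _)] at h1
  rw [intervalIntegral.integral_sub (Continuous.intervalIntegrable (by fun_prop) _ _)
    (Continuous.intervalIntegrable (by fun_prop) _ _), int_inner_mn hM hc hp hσ] at h1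
  exact eq_neg_of_add_eq_zero_right h1

/-- the `L¹` norm over one period -/
noncomputable def L1 (f : ℝ → V) : ℝ := ∫ t in (0 : ℝ)..1, ‖f t‖

theorem L1_nonneg (f : ℝ → V) : 0 ≤ L1 f :=
  intervalIntegral.integral_nonneg zero_le_one fun _ _ => norm_nonneg _

theorem norm_int_le (f : ℝ → V) : ‖∫ t in (0 : ℝ)..1, f t‖ ≤ L1 f :=
  intervalIntegral.norm_integral_le_integral_norm zero_le_one

theorem norm_int_smul_le {f : ℝ → V} (hf : Continuous f) : ‖∫ t in (0 : ℝ)..1, t • f t‖ ≤ L1 f := by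
  refine (norm_int_le _).trans (intervalIntegral.integral_mono_on zero_le_one
    (Continuous.intervalIntegrable (by fun_prop) _ _)
    (Continuous.intervalIntegrable (by fun_prop) _ _) fun t ht => ?_)
  rw [norm_smul, Real.norm_of_nonneg ht.1]
  exact mul_le_of_le_one_left (norm_nonneg _) ht.2

theorem int_norm_nat (M : ℕ) {g : ℝ → V} (hg : Continuous g) (hσ : ∀ t, g (t + 1) = σ (g t))
    (a : ℝ) : ∫ r in (0 : ℝ)..M, ‖g (a + r)‖ = M * L1 g := by
  have hp : ∀ t, ‖g (t + 1)‖ = ‖g t‖ := fun t => by rw [hσ, σ.norm_map]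
  rw [int_nat (f := fun r => ‖g (a + r)‖) (by fun_prop) (fun t => by rw [← add_assoc, hp]), L1,
    ← int_shift (f := fun t => ‖g t‖) hp a]
  simp only [add_comm a]

theorem norm_mn_le_L1 {M : ℕ} (hM : M ≠ 0) {g : ℝ → V} (hg : Continuous g)
    (hσ : ∀ t, g (t + 1) = σ (g t)) : ‖mn M g‖ ≤ L1 g := by
  have hM' : (0 : ℝ) < M := by exact_mod_cast Nat.pos_of_ne_zero hM
  have h1 := int_norm_nat M hg hσ 0
  simp only [zero_add] at h1
  have h2 := intervalIntegral.norm_integral_le_integral_norm (f := g) (μ := volume) hM'.le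
  rw [mn, norm_smul, norm_inv, Real.norm_of_nonneg hM'.le, inv_mul_le_iff₀ hM']
  linarith

theorem norm_Wt_le (M : ℕ) {g : ℝ → V} (hg : Continuous g) (hσ : ∀ t, g (t + 1) = σ (g t))
    (t : ℝ) : ‖Wt M g t‖ ≤ M * L1 g := by
  have hM' : (0 : ℝ) ≤ M := Nat.cast_nonneg M
  rw [← int_norm_nat M hg hσ t]
  refine (intervalIntegral.norm_integral_le_integral_norm hM').trans
    (intervalIntegral.integral_mono_on hM' (Continuous.intervalIntegrable (by fun_prop) _ _)
      (Continuous.intervalIntegrable (by fun_prop) _ _) fun r hr => ?_)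
  rw [norm_smul]
  refine mul_le_of_le_one_left (norm_nonneg _) ?_
  have h1 : 0 ≤ r / M := div_nonneg hr.1 hM'
  have h2 : r / M ≤ 1 := div_le_one_of_le₀ hr.2 hM'
  rw [Real.norm_eq_abs, abs_le]
  constructor <;> linarith

/-- the time ordered pairing -/
noncomputable def ord (f g : ℝ → V) : ℝ := ∫ t in (0 : ℝ)..1, ⟪f t, ∫ r in (0 : ℝ)..t, g r⟫

theorem int_inner_Wt {M : ℝ} (hM : M ≠ 0) {f g : ℝ → V} (hf : Continuous f) (hg : Continuous g)
    (hp : ∀ t, g (t + M) = g t) : ∫ t in (0 : ℝ)..1, ⟪f t, Wt M g t⟫ =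
      ord f g + ⟪∫ t in (0 : ℝ)..1, f t, Wt M g 0⟫ - ⟪∫ t in (0 : ℝ)..1, t • f t, mn M g⟫ := by
  have hc : Continuous fun t => ∫ r in (0 : ℝ)..t, g r :=
    continuous_iff_continuousAt.2 fun t => (hg.integral_hasStrictDerivAt 0 t).hasDerivAt.continuousAt
  have h1 := (innerSL ℝ (Wt M g 0)).intervalIntegral_comp_comm (μ := volume)
    (hf.intervalIntegrable 0 1)
  have h2 := (innerSL ℝ (mn M g)).intervalIntegral_comp_comm (μ := volume)
    ((show Continuous fun t : ℝ => t • f t by fun_prop).intervalIntegrable 0 1)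
  simp only [innerSL_apply_apply] at h1 h2
  rw [real_inner_comm (Wt M g 0), real_inner_comm (mn M g), ← h1, ← h2, ord,
    ← intervalIntegral.integral_add (Continuous.intervalIntegrable (by fun_prop) _ _)
      (Continuous.intervalIntegrable (by fun_prop) _ _),
    ← intervalIntegral.integral_sub (Continuous.intervalIntegrable (by fun_prop) _ _)
      (Continuous.intervalIntegrable (by fun_prop) _ _)]
  refine intervalIntegral.integral_congr fun t _ => ?_
  rw [Wt_eq hM hg hp t, inner_sub_right, inner_add_right, real_inner_smul_right,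
    real_inner_smul_right, real_inner_comm (Wt M g 0), real_inner_comm (mn M g)]
  ring

end time

section family

variable {E V : Type} [NormedAddCommGroup E] [NormedSpace ℝ E] [FiniteDimensional ℝ E]
  [NormedAddCommGroup V] [InnerProductSpace ℝ V] [CompleteSpace V]

/-- twisted loops of vectors depending on a parameter -/
structure Tw (σ : V →ₗᵢ[ℝ] V) (M : ℕ) (u : E × ℝ → V) : Prop where
  sm : Sm u
  one : ∀ s t, u (s, t + 1) = σ (u (s, t))
  per : ∀ s t, u (s, t + M) = u (s, t)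

/-- the primitive, as a function of the parameter and the time -/
noncomputable def WW (M : ℝ) (u : E × ℝ → V) (p : E × ℝ) : V := Wt M (fun t => u (p.1, t)) p.2

/-- the slow one-form, evaluated on the vector `v` -/
noncomputable def bS (M : ℝ) (u : E × ℝ → V) (v s : E) : ℝ :=
  ∫ t in (0 : ℝ)..1, ⟪D (v, 0) u (s, t), WW M u (s, t)⟫

/-- the derivative of the loop in the direction `v` -/
noncomputable def dl (u : E × ℝ → V) (s v : E) (t : ℝ) : V := D (v, 0) u (s, t)

/-- adding the last coordinate to the time -/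
noncomputable def sh (E : Type) [NormedAddCommGroup E] [NormedSpace ℝ E] :
    (E × ℝ) × ℝ →L[ℝ] E × ℝ :=
  ((ContinuousLinearMap.fst ℝ E ℝ).comp (ContinuousLinearMap.fst ℝ (E × ℝ) ℝ)).prod
    ((ContinuousLinearMap.snd ℝ E ℝ).comp (ContinuousLinearMap.fst ℝ (E × ℝ) ℝ) +
      ContinuousLinearMap.snd ℝ (E × ℝ) ℝ)

theorem sh_apply (q : (E × ℝ) × ℝ) : sh E q = (q.1.1, q.1.2 + q.2) := rfl

theorem sm_WI (M : ℝ) {u : E × ℝ → V} (hu : Sm u) :
    Sm fun q : (E × ℝ) × ℝ => (q.2 / M - 1 / 2) • u (sh E q) :=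
  ((contDiff_snd.div_const M).sub contDiff_const).smul (hu.comp (sh E).contDiff)

theorem sm_WW (M : ℝ) {u : E × ℝ → V} (hu : Sm u) : Sm (WW M u) := (sm_WI M hu).int 0 M

theorem D_WW (M : ℝ) {u : E × ℝ → V} (hu : Sm u) (v : E) (p : E × ℝ) :
    D (v, 0) (WW M u) p = Wt M (dl u p.1 v) p.2 := by
  refine (D_int (sm_WI M hu) 0 M (v, 0) p).trans (intervalIntegral.integral_congr fun r _ => ?_)
  have h1 : D (((v, 0), 0) : (E × ℝ) × ℝ) (fun q : (E × ℝ) × ℝ => q.2 / M - 1 / 2) (p, r) = 0 := by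
    refine (D_of_hasF ((hasFDerivAt_snd.mul_const M⁻¹).sub_const (1 / 2)) _).trans ?_
    simp
  rw [D_smul (f := fun q : (E × ℝ) × ℝ => q.2 / M - 1 / 2) (F := fun q => u (sh E q))
    ((contDiff_snd.div_const M).sub contDiff_const) (hu.comp (sh E).contDiff), h1,
    zero_smul, add_zero, D_comp_clm (sh E) hu]
  simp [sh_apply, dl]

theorem sm_bI (M : ℝ) {u : E × ℝ → V} (hu : Sm u) (v : E) :
    Sm fun p : E × ℝ => ⟪D (v, 0) u p, WW M u p⟫ := (hu.D _).inner (sm_WW M hu)

theorem sm_bS (M : ℝ) {u : E × ℝ → V} (hu : Sm u) (v : E) : Sm (bS M u v) := (sm_bI M hu v).int 0 1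

theorem dl_add (u : E × ℝ → V) (s v w : E) (t : ℝ) : dl u s (v + w) t = dl u s v t + dl u s w t := by
  rw [dl, dl, dl, ← D_add_dir, Prod.mk_add_mk, add_zero]

theorem dl_smul (u : E × ℝ → V) (s : E) (c : ℝ) (v : E) (t : ℝ) :
    dl u s (c • v) t = c • dl u s v t := by
  rw [dl, dl, ← D_smul_dir, Prod.smul_mk, smul_zero]

theorem continuous_dl {u : E × ℝ → V} (hu : Sm u) (s v : E) : Continuous (dl u s v) :=
  (hu.D _).cont_time s

theorem bS_add (M : ℝ) {u : E × ℝ → V} (hu : Sm u) (v w s : E) :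
    bS M u (v + w) s = bS M u v s + bS M u w s := by
  rw [bS, bS, bS, ← intervalIntegral.integral_add ((sm_bI M hu v).ii s 0 1)
    ((sm_bI M hu w).ii s 0 1)]
  refine intervalIntegral.integral_congr fun t _ => ?_
  rw [← inner_add_left]
  exact congrArg (fun x => ⟪x, WW M u (s, t)⟫) (dl_add u s v w t)

theorem bS_smul (M : ℝ) (u : E × ℝ → V) (c : ℝ) (v s : E) : bS M u (c • v) s = c * bS M u v s := by
  rw [bS, bS, ← intervalIntegral.integral_const_mul]
  refine intervalIntegral.integral_congr fun t _ => ?_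
  rw [← real_inner_smul_left]
  exact congrArg (fun x => ⟪x, WW M u (s, t)⟫) (dl_smul u s c v t)

/-- compatibility with affine changes of the parameter (faces, cyclic relabelling) -/
theorem dl_aff {E' : Type} [NormedAddCommGroup E'] [NormedSpace ℝ E'] (L : E' →L[ℝ] E) (c : E)
    {u : E × ℝ → V} (hu : Sm u) {u' : E' × ℝ → V} (h : ∀ s t, u' (s, t) = u (L s + c, t))
    (s v : E') (t : ℝ) : dl u' s v t = dl u (L s + c) (L v) t := by
  have h1 : u' = fun p => u (L.prodMap (ContinuousLinearMap.id ℝ ℝ) p + (c, 0)) := by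
    funext ⟨x, y⟩
    simpa using h x y
  rw [dl, dl, h1, D_comp_aff _ _ hu]
  simp

theorem bS_aff {E' : Type} [NormedAddCommGroup E'] [NormedSpace ℝ E'] (M : ℝ) (L : E' →L[ℝ] E)
    (c : E) {u : E × ℝ → V} (hu : Sm u) {u' : E' × ℝ → V} (h : ∀ s t, u' (s, t) = u (L s + c, t))
    (v s : E') : (∫ t in (0 : ℝ)..1, ⟪D (v, 0) u' (s, t), Wt M (fun t => u' (s, t)) t⟫) =
      bS M u (L v) (L s + c) := by
  refine intervalIntegral.integral_congr fun t _ => ?_
  have h1 : D (v, 0) u' (s, t) = D (L v, 0) u (L s + c, t) := dl_aff L c hu h s v t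
  simp only [h1, h]
  rfl

theorem bS_aff' {E' : Type} [NormedAddCommGroup E'] [NormedSpace ℝ E'] [FiniteDimensional ℝ E']
    (M : ℝ) (L : E' →L[ℝ] E) (c : E) {u : E × ℝ → V} (hu : Sm u) {u' : E' × ℝ → V}
    (h : ∀ s t, u' (s, t) = u (L s + c, t)) (v s : E') :
    bS M u' v s = bS M u (L v) (L s + c) := bS_aff M L c hu h v s

variable {σ : V →ₗᵢ[ℝ] V} {M : ℕ} {u : E × ℝ → V}

theorem Tw.D (h : Tw σ M u) (v : E × ℝ) : Tw σ M (D v u) where
  sm := h.sm.D v
  one s t := by
    have h1 : (fun p : E × ℝ => u (p + (0, 1))) = fun p => σ.toContinuousLinearMap (u p) := by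
      funext ⟨x, y⟩
      simpa using h.one x y
    have h2 := D_comp_add (0, 1) u v (s, t)
    rw [h1, D_clm_comp _ h.sm] at h2
    simpa using h2.symm
  per s t := by
    have h1 : (fun p : E × ℝ => u (p + (0, (M : ℝ)))) = u := by
      funext ⟨x, y⟩
      simpa using h.per x y
    have h2 := D_comp_add (0, (M : ℝ)) u v (s, t)
    rw [h1] at h2
    simpa using h2.symm

theorem Tw.dl_one (h : Tw σ M u) (s v : E) (t : ℝ) : dl u s v (t + 1) = σ (dl u s v t) :=
  (h.D _).one s t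

theorem Tw.dl_per (h : Tw σ M u) (s v : E) (t : ℝ) : dl u s v (t + M) = dl u s v t :=
  (h.D _).per s t

theorem Tw.WW_one (h : Tw σ M u) (s : E) (t : ℝ) : WW M u (s, t + 1) = σ (WW M u (s, t)) :=
  Wt_add_one M (h.one s) t

/-- rotation invariance -/
theorem Tw.bS_rot (h : Tw σ M u) {o : E} (hr : ∀ s t (a : ℝ), u (s + a • o, t + a) = u (s, t))
    (v s : E) (a : ℝ) : bS M u v (s + a • o) = bS M u v s := by
  rw [bS, ← int_shift (f := fun t => ⟪Par.D (v, 0) u (s + a • o, t), WW M u (s + a • o, t)⟫)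
    (fun t => by rw [(h.D _).one, h.WW_one, σ.inner_map_map]) a]
  refine intervalIntegral.integral_congr fun t _ => ?_
  have h1 : (fun p : E × ℝ => u (p + (a • o, a))) = u := by
    funext p
    exact hr p.1 p.2 a
  have h2 := D_comp_add (a • o, a) u (v, 0) (s, t)
  rw [h1] at h2
  have h3 : WW M u (s + a • o, t + a) = WW M u (s, t) := by
    refine intervalIntegral.integral_congr fun r _ => ?_
    simp only [add_right_comm t a, hr]
  rw [h3, h2]
  rfl

/-- the value on the rotation field -/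
theorem Tw.bS_one (h : Tw σ M u) (hM : M ≠ 0) {o : E}
    (hr : ∀ s t (a : ℝ), u (s + a • o, t + a) = u (s, t)) (s : E) :
    bS M u o s = (∫ t in (0 : ℝ)..1, ‖u (s, t)‖ ^ 2) - ‖mn M fun t => u (s, t)‖ ^ 2 := by
  have hM' : (M : ℝ) ≠ 0 := by exact_mod_cast hM
  have hc := h.sm.cont_time s
  have hc' := (h.sm.D (0, 1)).cont_time s
  have hd := hasDerivAt_time h.sm s
  have h5 : bS M u o s =
      -∫ t in (0 : ℝ)..1, ⟪Par.D (0, 1) u (s, t), Wt M (fun t => u (s, t)) t⟫ := by
    rw [bS]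
    simp only [D_rot h.sm hr, inner_neg_left, intervalIntegral.integral_neg]
    rfl
  have h6 : ∀ t, (fun t => u (s, t)) (t + 1) = σ ((fun t => u (s, t)) t) := h.one s
  have h7 : ∀ t, (fun t => u (s, t)) (t + M) = (fun t => u (s, t)) t := h.per s
  have h8 := int_d_inner hM hc hc' hd h7 h6
  rw [h5, h8, neg_neg]

/-- bounds for the value on the rotation field -/
theorem Tw.bS_one_bounds (h : Tw σ M u) (hM : M ≠ 0) {o : E}
    (hr : ∀ s t (a : ℝ), u (s + a • o, t + a) = u (s, t)) (s : E)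
    (hy : ∀ t y, σ y = y → ⟪y, u (s, t)⟫ ^ 2 ≤ ‖y‖ ^ 2 * ‖u (s, t)‖ ^ 2 / 2) :
    (∫ t in (0 : ℝ)..1, ‖u (s, t)‖ ^ 2) / 2 ≤ bS M u o s ∧
      bS M u o s ≤ ∫ t in (0 : ℝ)..1, ‖u (s, t)‖ ^ 2 := by
  have h1 := norm_mn_le hM (h.sm.cont_time s) (h.per s) (h.one s) hy
  rw [h.bS_one hM hr]
  constructor <;> nlinarith [sq_nonneg ‖mn M fun t => u (s, t)‖]

/-- the exterior derivative: time ordered part and two pairings of finite rank -/
theorem Tw.d_bS (h : Tw σ M u) (hM : M ≠ 0) (v w s : E) :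
    Par.D w (bS M u v) s - Par.D v (bS M u w) s =
      (ord (dl u s v) (dl u s w) - ord (dl u s w) (dl u s v)) +
      (⟪∫ t in (0 : ℝ)..1, dl u s v t, Wt M (dl u s w) 0⟫ -
        ⟪∫ t in (0 : ℝ)..1, dl u s w t, Wt M (dl u s v) 0⟫) -
      (⟪∫ t in (0 : ℝ)..1, t • dl u s v t, mn M (dl u s w)⟫ -
        ⟪∫ t in (0 : ℝ)..1, t • dl u s w t, mn M (dl u s v)⟫) := by
  have hM' : (M : ℝ) ≠ 0 := by exact_mod_cast hM
  have h1 : ∀ v w : E, Par.D w (bS M u v) s =
      (∫ t in (0 : ℝ)..1, ⟪dl u s v t, Wt M (dl u s w) t⟫) +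
        ∫ t in (0 : ℝ)..1, ⟪Par.D (w, 0) (Par.D (v, 0) u) (s, t), WW M u (s, t)⟫ := by
    intro v w
    have c1 := continuous_dl h.sm s v
    have c2 := continuous_Wt hM' (continuous_dl h.sm s w) (h.dl_per s w)
    rw [← intervalIntegral.integral_add (Continuous.intervalIntegrable (by fun_prop) _ _)
      ((((h.sm.D _).D _).inner (sm_WW M h.sm)).ii s 0 1)]
    refine (D_int (sm_bI M h.sm v) 0 1 w s).trans (intervalIntegral.integral_congr fun t _ => ?_)
    rw [D_inner (h.sm.D _) (sm_WW M h.sm), D_WW M h.sm]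
    rfl
  rw [h1, h1, int_inner_Wt hM' (continuous_dl h.sm s v) (continuous_dl h.sm s w) (h.dl_per s w),
    int_inner_Wt hM' (continuous_dl h.sm s w) (continuous_dl h.sm s v) (h.dl_per s v)]
  simp only [D_comm h.sm (w, 0) (v, 0)]
  ring

/-- the size of the form -/
theorem Tw.abs_bS_le (h : Tw σ M u) (v s : E) (hb : ∀ t, ‖u (s, t)‖ ≤ 1) :
    |bS M u v s| ≤ M * L1 (dl u s v) := by
  have h1 : L1 (fun t => u (s, t)) ≤ 1 := by
    have := intervalIntegral.integral_mono_on (μ := volume) zero_le_one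
      ((h.sm.cont_time s).norm.intervalIntegrable 0 1) intervalIntegrable_const fun t _ => hb t
    simpa [L1] using this
  have h2 : ∀ t, ‖WW M u (s, t)‖ ≤ M := fun t =>
    (norm_Wt_le M (h.sm.cont_time s) (h.one s) t).trans
      (mul_le_of_le_one_right (Nat.cast_nonneg M) h1)
  rw [L1, ← intervalIntegral.integral_const_mul]
  refine (intervalIntegral.abs_integral_le_integral_abs zero_le_one).trans
    (intervalIntegral.integral_mono_on zero_le_one ((sm_bI M h.sm v).ii s 0 1).abs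
      ((continuous_const.mul (continuous_dl h.sm s v).norm).intervalIntegrable _ _) fun t _ => ?_)
  refine (abs_real_inner_le_norm _ _).trans ?_
  rw [mul_comm]
  exact mul_le_mul_of_nonneg_right (h2 t) (norm_nonneg _)

end family

end Vale.Agent.P184Z.Slow
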