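import Vale.Agent.P184Z.PrimA

/-!
# Smoothness and finite sums
-/

open scoped ContDiff
open MeasureTheory

noncomputable section

namespace Vale.Agent.P184Z

open Vale.Agent.P184.H38

universe u

variable {X : Type u} {M : ℕ} {g : Geo X M} {P : Sp} {η0 η : ℝ} (κ : Kit M η0 η) {n : ℕ}
  {C : Type}

theorem Ok.pos (hP : Ok g P) : 0 < P.ρ ∧ 0 < P.R0 ∧ 0 < P.R ∧ 0 < P.R1 ∧ P.R0 ≤ g.Rb ∧
    P.R ≤ g.Rb ∧ P.R1 ≤ g.Rb ∧ 1 ≤ P.b * P.R0 ∧ 1 ≤ P.b * P.R ∧ 1 ≤ P.b * P.R1 ∧ 1 ≤ g.Rb := by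
  have h1 := hP.one_le_b
  have h2 := hP.one_le_R0
  have h3 := hP.R0_le
  have h4 := hP.Rb_eq
  unfold Sp.R Sp.R1
  refine ⟨by linarith, by linarith, by linarith, by linarith, by linarith, by linarith,
    by linarith, by nlinarith, by nlinarith, by nlinarith, by linarith⟩

theorem Fld.gF_smooth {F : X → En n → ℝ} {Y : Finset X} (hF : Fld g F Y) (b : ℝ) {R : ℝ}
    (h0 : 0 < R) (h1 : R ≤ g.Rb) (y : X) : ContDiff ℝ ∞ (gF b R F y) := by
  exact Gb.contDiff_uu (D := fun z y' => F y' z) (T := Y) (n := ⊤) h0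
    (fun e x hx => h1.trans_eq (hF.off x hx e).symm) hF.smooth y

theorem Fld.gF_off {F : X → En n → ℝ} {Y : Finset X} (hF : Fld g F Y) (b : ℝ) {R : ℝ}
    (h0 : 0 < R) (h1 : R ≤ g.Rb) {y : X} (hy : y ∉ Y) (z : En n) : gF b R F y z = 0 := by
  exact Gb.uu_eq_zero h0 (h1.trans_eq (hF.off y hy z).symm)

theorem Fld.sum_gF_le {F : X → En n → ℝ} {Y : Finset X} (hF : Fld g F Y) (b : ℝ) {R : ℝ}
    (h0 : 0 < R) (h1 : R ≤ g.Rb) (z : En n) : ∑ y ∈ Y, gF b R F y z ^ 2 ≤ 1 := by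
  exact Gb.sum_lam_le_one (D := fun y' => F y' z) h0
    (fun x hx => h1.trans_eq (hF.off x hx z).symm)

theorem Fld.sum_gF_eq {F : X → En n → ℝ} {Y : Finset X} (hF : Fld g F Y) {b R : ℝ} (hb : 0 ≤ b)
    (h0 : 0 < R) (h1 : R ≤ g.Rb) (z : En n) {y0 : X} (h : F y0 z ≤ R / 2) :
    ∑ y ∈ Y, gF b R F y z ^ 2 = 1 := by
  exact Gb.sum_lam_eq_one (D := fun y' => F y' z) h0 hb
    (fun x hx => h1.trans_eq (hF.off x hx z).symm) h

theorem lt_of_gF_ne_zero {F : X → En n → ℝ} {b R : ℝ} (h0 : 0 < R) {y : X} {z : En n}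
    (h : gF b R F y z ≠ 0) : F y z < R := by
  exact Gb.lt_of_uu_ne_zero (D := fun y' => F y' z) h0 h

theorem pd_gF_zero {F : X → En n → ℝ} {b R : ℝ} (h0 : 0 < R) {y : X} {z : En n}
    (h : R ≤ F y z) : pd (gF b R F y) z = 0 := by
  have h1 : fderiv ℝ (gF b R F y) z = 0 :=
    Gb.fderiv_uu_eq_zero (D := fun z y' => F y' z) h0 h
  rw [pd, h1, ContinuousLinearMap.zero_comp]

/-- The gradient bound. -/
theorem Fld.gF_bound {F : X → En n → ℝ} {Y : Finset X} (hF : Fld g F Y) {b R : ℝ}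
    (h0 : 0 < R) (h1 : R ≤ g.Rb) (hb : 1 ≤ b * R) (hc : Cnt g b R) (z : En n)
    (htri : ∀ y y', g.d y y' ≤ F y z + F y' z) {ι : Type} [Fintype ι] (v : ι → Vn n) {B : ℝ}
    (hB : 0 ≤ B) (h : ∀ y, ∑ i, pd (F y) z (v i) ^ 2 ≤ B) :
    ∑ y ∈ Y, ∑ i, pd (gF b R F y) z (v i) ^ 2 ≤ cb b * B := by
  have hT : ∀ e, ∀ x ∉ Y, R ≤ F x e := fun e x hx => h1.trans_eq (hF.off x hx e).symm
  have hD : ∀ x, DifferentiableAt ℝ (fun e => F x e) z := fun x => Par.Sm.diff (hF.smooth x) z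
  have h2 : ∀ i, ∑ y ∈ Y, pd (gF b R F y) z (v i) ^ 2 ≤
      Gb.CG * ∑ y ∈ Y, Gb.WW b R (fun y' => F y' z) y * pd (F y) z (v i) ^ 2 := fun i =>
    Gb.sum_sq_fderiv_uu_le (D := fun z y' => F y' z) h0 hT hD (v i, 0)
  have h3 : ∑ y ∈ Y, Gb.WW b R (fun y' => F y' z) y * ∑ i, pd (F y) z (v i) ^ 2 ≤
      Gb.CG * b ^ 2 * B := by
    refine Gb.sum_WW_mul_le h0 hb (hT z) (hc _ fun y hy y' hy' => ?_) hB fun y _ _ => h y
    have h4 := (Finset.mem_filter.1 hy).2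
    have h5 := (Finset.mem_filter.1 hy').2
    have h6 := htri y y'
    linarith
  rw [Finset.sum_comm]
  refine (Finset.sum_le_sum fun i _ => h2 i).trans ?_
  rw [← Finset.mul_sum, Finset.sum_comm]
  simp only [← Finset.mul_sum]
  calc _ ≤ Gb.CG * (Gb.CG * b ^ 2 * B) := mul_le_mul_of_nonneg_left h3 Gb.CG_pos.le
    _ = cb b * B := by unfold cb; ring

theorem Fld.D1_eq (hP : Ok g P) {F : X → En n → ℝ} {Y : Finset X} (hF : Fld g F Y) (y : X)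
    (z : En n) : D1 g P κ F y z = g.Rb - ∫ r in (-η)..η, κ.k1.K r *
      ∑ y' ∈ Y, (gF P.b P.R F y' (z.1, z.2 - r)) ^ 2 * (g.Rb - g.d y' y) := by
  obtain ⟨-, -, hR, -, -, hRb, -⟩ := hP.pos
  unfold D1
  congr 1
  refine intervalIntegral.integral_congr fun r _ => ?_
  congr 1
  refine finsum_eq_sum_of_support_subset _ fun y' hy' => ?_
  by_contra hc
  exact hy' (by simp only [hF.gF_off P.b hR hRb hc]; simp)

theorem Fld.exists_D1 (hP : Ok g P) {F : X → En n → ℝ} {Y : Finset X} (hF : Fld g F Y) :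
    ∃ Y' : Finset X, Fld g (D1 g P κ F) Y' := by
  classical
  obtain ⟨-, -, hR, -, -, hRb, -⟩ := hP.pos
  refine ⟨Y.biUnion fun y' => (g.fin y').toFinset, fun y => ?_, fun y hy z => ?_⟩
  · have h1 : D1 g P κ F y = fun z => g.Rb - ∫ r in (-η)..η, κ.k1.K r *
        ∑ y' ∈ Y, (gF P.b P.R F y' (z.1, z.2 - r)) ^ 2 * (g.Rb - g.d y' y) :=
      funext fun z => hF.D1_eq κ hP y z
    rw [h1]
    refine contDiff_const.sub (contDiff_int (fun q : En n × ℝ => κ.k1.K q.2 *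
      ∑ y' ∈ Y, (gF P.b P.R F y' (q.1.1, q.1.2 - q.2)) ^ 2 * (g.Rb - g.d y' y)) ?_ _ _)
    refine (κ.k1.contDiff_K.comp contDiff_snd).mul (ContDiff.sum fun y' _ => ?_)
    exact (((hF.gF_smooth P.b hR hRb y').comp
      (contDiff_fst.fst.prodMk (contDiff_fst.snd.sub contDiff_snd))).pow 2).mul contDiff_const
  · rw [hF.D1_eq κ hP]
    have h1 : ∀ y' ∈ Y, g.Rb - g.d y' y = 0 := fun y' hy' => by
      have h2 : ¬ g.d y' y < g.Rb := fun h3 =>
        hy (Finset.mem_biUnion.2 ⟨y', hy', (Set.Finite.mem_toFinset _).2 h3⟩)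
      have h4 := g.d_le y' y
      linarith [not_lt.1 h2]
    have h5 : ∀ r : ℝ,
        ∑ y' ∈ Y, (gF P.b P.R F y' (z.1, z.2 - r)) ^ 2 * (g.Rb - g.d y' y) = 0 := fun r =>
      Finset.sum_eq_zero fun y' hy' => by rw [h1 y' hy', mul_zero]
    simp only [h5, mul_zero, intervalIntegral.integral_zero, sub_zero]

open Classical in
theorem uu_eq (hP : Ok g P) {F : X → En n → ℝ} {Y' : Finset X} (hF : Fld g (D1 g P κ F) Y')
    (lab : X → Lb M C) (l : Lb M C) (z : En n) :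
    uu g P κ F lab l z = ∑ y ∈ Y', if lab y = l then gF P.b P.R1 (D1 g P κ F) y z else 0 := by
  obtain ⟨-, -, -, hR, -, -, hRb, -⟩ := hP.pos
  unfold uu
  refine finsum_eq_sum_of_support_subset _ fun y hy => ?_
  by_contra hc
  exact hy (by simp only [hF.gF_off P.b hR hRb hc, ite_self])

theorem Fld.uu_smooth (hP : Ok g P) {F : X → En n → ℝ} {Y : Finset X} (hF : Fld g F Y)
    (lab : X → Lb M C) (l : Lb M C) : ContDiff ℝ ∞ (uu g P κ F lab l) := by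
  classical
  obtain ⟨Y', hY'⟩ := hF.exists_D1 κ hP
  obtain ⟨-, -, -, hR, -, -, hRb, -⟩ := hP.pos
  rw [funext fun z => uu_eq κ hP hY' lab l z]
  refine ContDiff.sum fun y _ => ?_
  by_cases h : lab y = l
  · simp only [if_pos h]
    exact hY'.gF_smooth P.b hR hRb y
  · simp only [if_neg h]
    exact contDiff_const

theorem Fld.WW_smooth (hP : Ok g P) {F : X → En n → ℝ} {Y : Finset X} (hF : Fld g F Y)
    (lab : X → Lb M C) (l : Lb M C) : ContDiff ℝ ∞ (WW g P κ F lab l) := by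
  refine contDiff_int (fun q : En n × ℝ =>
    (q.2 / M - 1 / 2) * uu g P κ F lab l (q.1.1, q.1.2 + q.2)) ?_ _ _
  exact ((contDiff_snd.div_const _).sub contDiff_const).mul ((hF.uu_smooth κ hP lab l).comp
    (contDiff_fst.fst.prodMk (contDiff_fst.snd.add contDiff_snd)))

variable [NeZero M] [Fintype C]

theorem bet_eq (hP : Ok g P) {F0 F1 FE : X → En n → ℝ} {Y : Finset X} (h0 : Fld g F0 Y)
    (h1 : Fld g F1 Y) (hE : ∀ y, ContDiff ℝ ∞ (FE y)) (lab : X → Lb M C) :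
    bet g P κ F0 F1 FE lab = fun s =>
      (∫ τ in (0 : ℝ)..1, ∑ y ∈ Y, (1 / P.ρ * gF P.b P.R0 F0 y (s, τ) ^ 2) • pd (FE y) (s, τ)) +
        ∫ τ in (0 : ℝ)..1, ∑ l, WW g P κ F1 lab l (s, τ) • pd (uu g P κ F1 lab l) (s, τ) := by
  obtain ⟨-, hR, -, -, hRb, -⟩ := hP.pos
  funext s
  have a1 := contDiff_sum_pd Y (fun y z => 1 / P.ρ * gF P.b P.R0 F0 y z ^ 2) FE
    (fun y => contDiff_const.mul ((h0.gF_smooth P.b hR hRb y).pow 2)) hE
  have a2 := contDiff_sum_pd Finset.univ (WW g P κ F1 lab) (uu g P κ F1 lab)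
    (h1.WW_smooth κ hP lab) (h1.uu_smooth κ hP lab)
  rw [← intervalIntegral.integral_add (Par.Sm.ii a1 s 0 1) (Par.Sm.ii a2 s 0 1)]
  refine intervalIntegral.integral_congr fun τ _ => ?_
  have a3 : ∑ᶠ y, (gF P.b P.R0 F0 y (s, τ)) ^ 2 • pd (FE y) (s, τ) =
      ∑ y ∈ Y, (gF P.b P.R0 F0 y (s, τ)) ^ 2 • pd (FE y) (s, τ) := by
    refine finsum_eq_sum_of_support_subset _ fun y hy => ?_
    by_contra hc
    exact hy (by simp only [h0.gF_off P.b hR hRb hc]; simp)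
  simp only [bint, a3, Finset.smul_sum, smul_smul]

theorem betp_smooth (hP : Ok g P) {N : ℕ} (p : Fin (N + 1) → X) (lab : X → Lb M C) :
    ContDiff ℝ ∞ (betp g P κ p lab) := by
  obtain ⟨Y, hY⟩ := exists_fld g p
  obtain ⟨-, hR, -, -, hRb, -⟩ := hP.pos
  have h0 := hY _ κ.k0.smooth
  have h1 := hY _ κ.k1.smooth
  have hE := contDiff_prim g κ.smooth κ.c p
  unfold betp
  rw [bet_eq κ hP h0 h1 hE lab]
  exact (contDiff_form_int Y (fun y z => 1 / P.ρ * gF P.b P.R0 (prim g κ.k0.Φ 1 p) y z ^ 2) _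
    (fun y => contDiff_const.mul ((h0.gF_smooth P.b hR hRb y).pow 2)) hE).add
    (contDiff_form_int Finset.univ _ _ (h1.WW_smooth κ hP lab) (h1.uu_smooth κ hP lab))

end Vale.Agent.P184Z
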