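import Vale.Agent.P184Z.Nat
import Vale.Agent.P184Z.Str.Br
import Vale.Agent.P184Z.StrB
import Vale.Agent.P184Z.Lay

/-!
# The structure of the curvature
-/

open scoped ContDiff
open MeasureTheory

noncomputable section

namespace Vale.Agent.P184Z

open Vale.Agent.P184.H38

universe u

/-- The curvature of the normalised form. -/
theorem cur_nrm {N : ℕ} {β : Form (N + 1)} (hβ : ContDiff ℝ ∞ β)
    (ht : ∀ s (a : ℝ), β (s + a • one _) = β s) (s v w : Vn (N + 1)) :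
    cur (nrm β) s v w = ch (β s (one _)) * cur β s v w +
      (1 - cς (β s (one _))) * cur (thK N) s v w +
      ((deriv ch (β s (one _)) * cur β s v (one _) * β s w -
          deriv ch (β s (one _)) * cur β s w (one _) * β s v) +
        (-deriv cς (β s (one _)) * cur β s v (one _) * thK N s w -
          -deriv cς (β s (one _)) * cur β s w (one _) * thK N s v)) := by
  rw [SB.cur_nrm hβ, fderiv_one hβ ht, fderiv_one hβ ht]
  ring

variable {X : Type u} {M : ℕ} [NeZero M] {g : Geo X M} {P : Sp} {η0 η : ℝ} (κ : Kit M η0 η)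
  {N : ℕ} {C : Type} [Fintype C] {lab : X → Lb M C}

/-- The fast part of the curvature. -/
def curF (g : Geo X M) (P : Sp) (κ : Kit M η0 η) (p : Fin (N + 1) → X) (Y : Finset X)
    (s v w : Vn (N + 1)) : ℝ :=
  ∫ τ in (0 : ℝ)..1, ∑ y ∈ Y,
    (pd (gF P.b P.R0 (prim g κ.k0.Φ 1 p) y) (s, τ) v *
        (2 / P.ρ * (gF P.b P.R0 (prim g κ.k0.Φ 1 p) y (s, τ) * pd (prim g κ.Ψ κ.c p y) (s, τ) w)) -
      pd (gF P.b P.R0 (prim g κ.k0.Φ 1 p) y) (s, τ) w *
        (2 / P.ρ * (gF P.b P.R0 (prim g κ.k0.Φ 1 p) y (s, τ) * pd (prim g κ.Ψ κ.c p y) (s, τ) v)))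

/-- The time ordered part of the curvature. -/
def curS (g : Geo X M) (P : Sp) (κ : Kit M η0 η) (p : Fin (N + 1) → X) (lab : X → Lb M C)
    (s v w : Vn (N + 1)) : ℝ :=
  ∫ τ in (0 : ℝ)..1, ∑ l,
    ((∫ r in (0 : ℝ)..τ, pd (uu g P κ (prim g κ.k1.Φ 1 p) lab l) (s, r) v) *
        pd (uu g P κ (prim g κ.k1.Φ 1 p) lab l) (s, τ) w -
      (∫ r in (0 : ℝ)..τ, pd (uu g P κ (prim g κ.k1.Φ 1 p) lab l) (s, r) w) *
        pd (uu g P κ (prim g κ.k1.Φ 1 p) lab l) (s, τ) v)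

theorem Lv_nonneg (p : Fin (N + 1) → X) (s v : Vn (N + 1)) : 0 ≤ Lv g P κ p lab s v := by
  exact intervalIntegral.integral_nonneg zero_le_one fun _ _ => Real.sqrt_nonneg _

/-- The curvature is the sum of the fast part, the time ordered part and a part of low rank. -/
theorem cur_betp (hP : Ok g P) (hl : IsLab g lab) (p : Fin (N + 1) → X) {Y : Finset X}
    (hY : ∀ Φ : ℝ → ℝ, ContDiff ℝ ∞ Φ → Fld g (prim g Φ 1 p) Y) (s : Vn (N + 1)) :
    ∃ a b : Lb M C ⊕ Lb M C → Vn (N + 1) → ℝ,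
      (∀ k v, |a k v| ≤ M * Lv g P κ p lab s v) ∧ (∀ k v, |b k v| ≤ M * Lv g P κ p lab s v) ∧
      (∀ v w, |∑ k, (a k v * b k w - a k w * b k v)| ≤
        4 * M * Lv g P κ p lab s v * Lv g P κ p lab s w) ∧
      ∀ v w, cur (betp g P κ p lab) s v w = curF g P κ p Y s v w + curS g P κ p lab s v w +
        ∑ k, (a k v * b k w - a k w * b k v) := by
  have h0 := hY _ κ.k0.smooth
  have h1 := hY _ κ.k1.smooth
  have hE := contDiff_prim g κ.smooth κ.c p
  have hu := h1.uu_smooth κ hP lab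
  have hW := h1.WW_smooth κ hP lab
  have hg := h0.gF_smooth P.b hP.pos.2.1 hP.pos.2.2.2.2.1
  have hf : ∀ y, ContDiff ℝ ∞ fun z : En (N + 1) =>
      1 / P.ρ * gF P.b P.R0 (prim g κ.k0.Φ 1 p) y z ^ 2 := fun y =>
    contDiff_const.mul ((hg y).pow 2)
  obtain ⟨a, b, ha, hb, hab, hd⟩ := Br.low_rank (Br.tw_vec hu (uu_per κ p hl)) s
  simp only [Br.L1_dl hu] at ha hb hab
  refine ⟨a, b, ha, hb, hab, fun v w => ?_⟩
  rw [betp, bet_eq κ hP h0 h1 hE lab,
    cur_add (contDiff_form_int Y _ _ hf hE) (contDiff_form_int Finset.univ _ _ hW hu),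
    cur_int Y _ _ hf hE, cur_eq_D (contDiff_form_int Finset.univ _ _ hW hu), add_assoc]
  congr 1
  · refine intervalIntegral.integral_congr fun τ _ => Finset.sum_congr rfl fun y _ => ?_
    have h2 : ∀ v, pd (fun z : En (N + 1) => 1 / P.ρ * gF P.b P.R0 (prim g κ.k0.Φ 1 p) y z ^ 2)
        (s, τ) v = 2 / P.ρ * gF P.b P.R0 (prim g κ.k0.Φ 1 p) y (s, τ) *
          pd (gF P.b P.R0 (prim g κ.k0.Φ 1 p) y) (s, τ) v := by
      intro v
      simp only [pd_eq_D, sq]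
      rw [Par.D_const_mul _ ((hg y).mul (hg y)), Par.D_mul (hg y) (hg y)]
      ring
    rw [h2, h2]
    ring
  · simp only [form_int_apply Finset.univ _ _ hW hu]
    rw [curS, ← Br.ord_sub hu, ← hd, funext (Br.bS_eq hu M · v), funext (Br.bS_eq hu M · w)]
    rfl

theorem abs_curS_le (hP : Ok g P) (p : Fin (N + 1) → X) (s v w : Vn (N + 1)) :
    |curS g P κ p lab s v w| ≤ 2 * Lv g P κ p lab s v * Lv g P κ p lab s w := by
  obtain ⟨Y, hY⟩ := exists_fld g p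
  have hu := (hY _ κ.k1.smooth).uu_smooth κ hP lab
  have hc := Slow.continuous_dl (Br.sm_vec hu) s
  have h1 := abs_le.1 (Br.abs_ord_le (hc v) (hc w))
  have h2 := abs_le.1 (Br.abs_ord_le (hc w) (hc v))
  rw [curS, ← Br.ord_sub hu, Lv, Lv, ← Br.L1_dl hu, ← Br.L1_dl hu, abs_le]
  constructor <;> linarith [h1.1, h1.2, h2.1, h2.2]

/-- The slow part of the form is bounded. -/
theorem abs_slow_le (hP : Ok g P) (hl : IsLab g lab) (p : Fin (N + 1) → X) (s v : Vn (N + 1)) :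
    |∫ τ in (0 : ℝ)..1, ∑ l, WW g P κ (prim g κ.k1.Φ 1 p) lab l (s, τ) *
        pd (uu g P κ (prim g κ.k1.Φ 1 p) lab l) (s, τ) v| ≤ M * Lv g P κ p lab s v := by
  obtain ⟨Y, hY⟩ := exists_fld g p
  have h1 := hY _ κ.k1.smooth
  have hu := h1.uu_smooth κ hP lab
  have h2 := (Br.tw_vec hu (uu_per κ p hl)).abs_bS_le v s fun t => by
    rw [Br.norm_eq]
    exact Real.sqrt_le_one.2 (h1.sum_uu_le κ hP hl (s, t))
  rw [Br.bS_eq hu, Br.L1_dl hu] at h2
  exact h2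

/-- The slow part of the form on the generator of the translations. -/
theorem slow_one (hP : Ok g P) (hl : IsLab g lab) (p : Fin (N + 1) → X) (s : Vn (N + 1)) :
    (∫ τ in (0 : ℝ)..1, ∑ l, uu g P κ (prim g κ.k1.Φ 1 p) lab l (s, τ) ^ 2) / 2 ≤
      ∫ τ in (0 : ℝ)..1, ∑ l, WW g P κ (prim g κ.k1.Φ 1 p) lab l (s, τ) *
        pd (uu g P κ (prim g κ.k1.Φ 1 p) lab l) (s, τ) (one _) := by
  obtain ⟨Y, hY⟩ := exists_fld g p
  have h1 := hY _ κ.k1.smooth
  have hu := h1.uu_smooth κ hP lab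
  have h2 := ((Br.tw_vec hu (uu_per κ p hl)).bS_one_bounds (NeZero.ne M) (o := one _)
    (fun s t a => by
      ext l
      exact uu_trans κ p lab l s t a) s
    fun t y hy => Br.inner_sq_le y _ hy (h1.uu_fib κ hP hl (s, t))).1
  rw [Br.bS_eq hu] at h2
  simp only [Br.norm_sq_eq] at h2
  exact h2

end Vale.Agent.P184Z
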